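import Vale.Agent.P365.J376.Bridge
import Vale.Agent.P365.C937.TwoSite
import Mathlib.MeasureTheory.Integral.IntervalIntegral.FundThmCalculus
import Mathlib.Analysis.Calculus.MeanValue

/-!
# P365-T1.5, block Z7a: the derivative of `log Sf` along a path of profiles and the slope inequality.

`Sf A W x` is the imaginary part of the pole of `x` (the flux of the unit wave of `x`,
`Sf = - Im (1 / G_xx)`).

* `hasDerivAt_Sf`, `hasDerivAt_log_Sf` : derivative along `W = a - i h(s)`;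
* `im_gw_sq_le` : `(Im g_z)² ≤ Im Gi_zz · Sf`;
* `slope_ge`, `slope_ge'` : slope inequality, one site, pathwise;
* `abs_slope_le` : the slope is at most the share of `|c|`;
* `log_Sf_lip` : `|log Sf(e) - log Sf(e')| ≤ sup |log e - log e'|`;
* `log_Sf_sub` : the integrated form (fundamental theorem of calculus) along `u + s w`;
* `lint_Gi_site`, `lint_Gi_le`, `Ex_Gi_le` : `E Im Gi_zz ≤ π D`.
-/

set_option linter.all false

namespace Vale.Agent.P365.Z0.H640

open P365L hiding Wp Wp_im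
open P365O P365T1 Vale.Agent.P365.J376 Matrix Complex MeasureTheory Filter Topology Set
open scoped ComplexConjugate ENNReal

section path

variable {ι : Type*} [Fintype ι] [DecidableEq ι] {A : Matrix ι ι ℝ} {W : ι → ℂ}

/-- `Sf = - Im (1 / G_xx)` -/
theorem Sf_eq_inv (hA : A.IsSymm) (hW : ∀ x, (W x).im < 0) (x : ι) :
    Sf A W x = -((Gr A W x x)⁻¹).im := by
  have h := sg_im hA hW x
  rw [sg, Complex.sub_im] at h
  linarith

/-- derivative of the flux along an imaginary path -/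
theorem hasDerivAt_Sf (hA : A.IsSymm) {a : ι → ℝ} {h : ℝ → ι → ℝ} {h' : ι → ℝ} {s₀ : ℝ}
    (hd : ∀ x, HasDerivAt (fun s => h s x) (h' x) s₀) (hpos : ∀ x, 0 < h s₀ x) (x : ι) :
    HasDerivAt (fun s => Sf A (Wp a (h s)) x)
      (∑ z, h' z * (gw A (Wp a (h s₀)) x z ^ 2).re) s₀ := by
  have hneg : ∀ x, (Wp a (h s₀) x).im < 0 := fun x => by
    rw [Wp_im]
    linarith [hpos x]
  have hWd : ∀ x, HasDerivAt (fun s => Wp a (h s) x) (-((h' x : ℂ) * I)) s₀ := by
    intro x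
    have h1 : HasDerivAt (fun s => (h s x : ℂ)) (h' x : ℂ) s₀ := (hd x).ofReal_comp
    have h2 := (h1.mul_const I).const_sub (a x : ℂ)
    exact h2
  have h0 := Gr_self_ne_zero hA hneg x
  have h1 := (hasDerivAt_Gr hA hWd hneg x x).fun_inv h0
  have h2 : HasDerivAt (fun s => -((Gr A (Wp a (h s)) x x)⁻¹).im)
      (-(-(∑ z, Gr A (Wp a (h s₀)) x z * (-(-((h' z : ℂ) * I))) * Gr A (Wp a (h s₀)) z x) /
        Gr A (Wp a (h s₀)) x x ^ 2).im) s₀ :=
    (Complex.imCLM.hasFDerivAt.comp_hasDerivAt s₀ h1).neg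
  have hev : ∀ᶠ s in 𝓝 s₀, ∀ y, 0 < h s y := by
    rw [eventually_all]
    intro y
    exact (hd y).continuousAt.eventually (lt_mem_nhds (hpos y))
  have h3 : (fun s => Sf A (Wp a (h s)) x) =ᶠ[𝓝 s₀]
      fun s => -((Gr A (Wp a (h s)) x x)⁻¹).im := by
    filter_upwards [hev] with s hs
    exact Sf_eq_inv hA (fun y => by rw [Wp_im]; linarith [hs y]) x
  have h4 : -(-(∑ z, Gr A (Wp a (h s₀)) x z * (-(-((h' z : ℂ) * I))) * Gr A (Wp a (h s₀)) z x) /
        Gr A (Wp a (h s₀)) x x ^ 2).im = ∑ z, h' z * (gw A (Wp a (h s₀)) x z ^ 2).re := by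
    rw [neg_div, Complex.neg_im, neg_neg, Finset.sum_div, Complex.im_sum]
    refine Finset.sum_congr rfl fun z _ => ?_
    have h5 : Gr A (Wp a (h s₀)) x z * (-(-((h' z : ℂ) * I))) * Gr A (Wp a (h s₀)) z x /
        Gr A (Wp a (h s₀)) x x ^ 2 = ((h' z : ℝ) : ℂ) * (I * gw A (Wp a (h s₀)) x z ^ 2) := by
      rw [gw, Gr_symm hA x z]
      field_simp
    rw [h5, Complex.im_ofReal_mul, Complex.I_mul_im]
  rw [h4] at h2
  exact h2.congr_of_eventuallyEq h3

theorem hasDerivAt_log_Sf (hA : A.IsSymm) {a : ι → ℝ} {h : ℝ → ι → ℝ} {h' : ι → ℝ} {s₀ : ℝ}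
    (hd : ∀ x, HasDerivAt (fun s => h s x) (h' x) s₀) (hpos : ∀ x, 0 < h s₀ x) (x : ι) :
    HasDerivAt (fun s => Real.log (Sf A (Wp a (h s)) x))
      ((∑ z, h' z * (gw A (Wp a (h s₀)) x z ^ 2).re) / Sf A (Wp a (h s₀)) x) s₀ :=
  (hasDerivAt_Sf hA hd hpos x).log
    (Sf_pos hA (fun y => by rw [Wp_im]; linarith [hpos y]) x).ne'

/-- `(Im g_z)² ≤ Im Gi_zz · Sf` -/
theorem im_gw_sq_le (hA : A.IsSymm) (hW : ∀ x, (W x).im < 0) (x z : ι) :
    (gw A W x z).im ^ 2 ≤ (Gi A W x z z).im * Sf A W x := by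
  have hb : ∀ b, 0 ≤ -(W b).im := fun b => by linarith [hW b]
  have h1 := Gi_gw hA hW x z
  have h2 : ((∑ c, (-(W c).im) * ‖Gi A W x z c‖ ^ 2 : ℝ) : ℂ) = (((Gi A W x z z).im : ℝ) : ℂ) := by
    rw [← Gi_ward hA hW x z z]
    push_cast
    refine Finset.sum_congr rfl fun c _ => ?_
    rw [Complex.mul_conj, Complex.normSq_eq_norm_sq]
    push_cast
    rfl
  have h3 : ∑ c, (-(W c).im) * ‖Gi A W x z c‖ ^ 2 = (Gi A W x z z).im := by exact_mod_cast h2
  have h4 : |(gw A W x z).im| ≤ ∑ b, (-(W b).im) * (‖Gi A W x z b‖ * ‖gw A W x b‖) := by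
    have h5 : |(gw A W x z).im| = ‖(((gw A W x z).im : ℝ) : ℂ)‖ := by
      rw [Complex.norm_real, Real.norm_eq_abs]
    rw [h5, ← h1]
    refine (norm_sum_le _ _).trans (Finset.sum_le_sum fun b _ => ?_)
    rw [norm_mul, norm_mul, Complex.norm_real, Real.norm_eq_abs, abs_of_nonneg (hb b),
      Complex.norm_conj]
  have h6 := Finset.sum_sq_le_sum_mul_sum_of_sq_eq_mul (R := ℝ) Finset.univ
    (r := fun b => (-(W b).im) * (‖Gi A W x z b‖ * ‖gw A W x b‖))
    (f := fun b => (-(W b).im) * ‖Gi A W x z b‖ ^ 2)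
    (g := fun b => (-(W b).im) * ‖gw A W x b‖ ^ 2)
    (fun b _ => mul_nonneg (hb b) (sq_nonneg _))
    (fun b _ => mul_nonneg (hb b) (sq_nonneg _))
    (fun b _ => by ring)
  rw [h3] at h6
  rw [← sq_abs]
  refine (pow_le_pow_left₀ (abs_nonneg _) h4 2).trans h6

theorem Gi_im_nonneg (hA : A.IsSymm) (hW : ∀ x, (W x).im < 0) (x z : ι) :
    0 ≤ (Gi A W x z z).im := by
  have h := im_gw_sq_le hA hW x z
  exact nonneg_of_mul_nonneg_left ((sq_nonneg _).trans h) (Sf_pos hA hW x)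

theorem re_gw_sq (x z : ι) :
    (gw A W x z ^ 2).re = ‖gw A W x z‖ ^ 2 - 2 * (gw A W x z).im ^ 2 := by
  rw [← Complex.normSq_eq_norm_sq, Complex.normSq_apply, sq, Complex.mul_re]
  ring

/-- **slope inequality, one site, pathwise.**  `u + s w` is the profile of `W`. -/
theorem slope_ge (hA : A.IsSymm) (hW : ∀ x, (W x).im < 0) {u w : ι → ℝ} {s : ℝ} (hs : 0 ≤ s)
    (hu : ∀ z, 0 ≤ u z) (hw : ∀ z, 0 ≤ w z) (hWi : ∀ z, -(W z).im = u z + s * w z) (x : ι)
    (B : Finset ι) :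
    Sf A W x - ∑ z, u z * ‖gw A W x z‖ ^ 2 -
        2 * ∑ z ∈ Bᶜ, (u z + s * w z) * ‖gw A W x z‖ ^ 2 -
        2 * (∑ z ∈ B.erase x, s * w z * (Gi A W x z z).im) * Sf A W x ≤
      s * ∑ z, w z * (gw A W x z ^ 2).re := by
  have hS : Sf A W x = ∑ z, u z * ‖gw A W x z‖ ^ 2 + ∑ z, s * w z * ‖gw A W x z‖ ^ 2 := by
    rw [Sf, ← Finset.sum_add_distrib]
    exact Finset.sum_congr rfl fun z _ => by rw [hWi]; ring
  have hR : s * ∑ z, w z * (gw A W x z ^ 2).re =
      ∑ z, s * w z * ‖gw A W x z‖ ^ 2 - 2 * ∑ z, s * w z * (gw A W x z).im ^ 2 := by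
    rw [Finset.mul_sum, Finset.mul_sum, ← Finset.sum_sub_distrib]
    exact Finset.sum_congr rfl fun z _ => by rw [re_gw_sq]; ring
  have h1 : ∑ z, s * w z * (gw A W x z).im ^ 2 ≤
      ∑ z ∈ Bᶜ, (u z + s * w z) * ‖gw A W x z‖ ^ 2 +
        (∑ z ∈ B.erase x, s * w z * (Gi A W x z z).im) * Sf A W x := by
    have hx0 : (gw A W x x).im = 0 := by rw [gw_self hA hW]; simp
    rw [← Finset.sum_add_sum_compl B, add_comm]
    refine add_le_add (Finset.sum_le_sum fun z _ => ?_) ?_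
    · have h2 : (gw A W x z).im ^ 2 ≤ ‖gw A W x z‖ ^ 2 := by
        rw [← sq_abs]
        exact pow_le_pow_left₀ (abs_nonneg _) (Complex.abs_im_le_norm _) 2
      have h3 : 0 ≤ s * w z := mul_nonneg hs (hw z)
      calc s * w z * (gw A W x z).im ^ 2 ≤ s * w z * ‖gw A W x z‖ ^ 2 :=
            mul_le_mul_of_nonneg_left h2 h3
        _ ≤ _ := mul_le_mul_of_nonneg_right (by linarith [hu z]) (sq_nonneg _)
    · have h4 : ∑ z ∈ B, s * w z * (gw A W x z).im ^ 2 =
          ∑ z ∈ B.erase x, s * w z * (gw A W x z).im ^ 2 := by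
        by_cases hx : x ∈ B
        · rw [← Finset.add_sum_erase _ _ hx, hx0]
          ring
        · rw [Finset.erase_eq_of_notMem hx]
      rw [h4, Finset.sum_mul]
      refine Finset.sum_le_sum fun z _ => ?_
      have h3 : 0 ≤ s * w z := mul_nonneg hs (hw z)
      calc s * w z * (gw A W x z).im ^ 2 ≤ s * w z * ((Gi A W x z z).im * Sf A W x) :=
            mul_le_mul_of_nonneg_left (im_gw_sq_le hA hW x z) h3
        _ = _ := by ring
  rw [hR]
  linarith

/-- share of the weights `c` in the flux of `x` -/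
noncomputable def shr (A : Matrix ι ι ℝ) (W : ι → ℂ) (c : ι → ℝ) (x : ι) : ℝ :=
  (∑ z, c z * ‖gw A W x z‖ ^ 2) / Sf A W x

/-- probability of the set `S` seen from `x`: `P_x(S) = ∑_{z ∈ S} e_z |g_z|² / Sf` -/
noncomputable def Pr (A : Matrix ι ι ℝ) (W : ι → ℂ) (x : ι) (S : Finset ι) : ℝ :=
  (∑ z ∈ S, (-(W z).im) * ‖gw A W x z‖ ^ 2) / Sf A W x

/-- `P_x(S)` in terms of the energies `e_z K_xz / m_x` -/
theorem Pr_eq (hA : A.IsSymm) (hW : ∀ x, (W x).im < 0) (x : ι) (S : Finset ι) :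
    Pr A W x S = (∑ z ∈ S, (-(W z).im) * KK A W x z) / mm A W x := by
  have h1 := Sf_pos hA hW x
  have h2 : 0 < ‖Gr A W x x‖ ^ 2 := pow_pos (norm_pos_iff.2 (Gr_self_ne_zero hA hW x)) 2
  have h3 : ∑ z ∈ S, (-(W z).im) * KK A W x z =
      (∑ z ∈ S, (-(W z).im) * ‖gw A W x z‖ ^ 2) * ‖Gr A W x x‖ ^ 2 := by
    rw [Finset.sum_mul]
    refine Finset.sum_congr rfl fun z _ => ?_
    rw [KK_eq_gw hA hW]
    ring
  rw [Pr, h3, mm_eq_Sf hA hW, mul_div_mul_right _ _ h2.ne']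

theorem Pr_univ (hA : A.IsSymm) (hW : ∀ x, (W x).im < 0) (x : ι) :
    Pr A W x Finset.univ = 1 := by
  rw [Pr]
  exact div_self (Sf_pos hA hW x).ne'

theorem Pr_nonneg (hA : A.IsSymm) (hW : ∀ x, (W x).im < 0) (x : ι) (S : Finset ι) :
    0 ≤ Pr A W x S :=
  div_nonneg (Finset.sum_nonneg fun z _ => mul_nonneg (by linarith [hW z]) (sq_nonneg _))
    (Sf_pos hA hW x).le

theorem Pr_le_one (hA : A.IsSymm) (hW : ∀ x, (W x).im < 0) (x : ι) (S : Finset ι) :
    Pr A W x S ≤ 1 := by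
  rw [Pr, div_le_one (Sf_pos hA hW x)]
  exact Finset.sum_le_univ_sum_of_nonneg fun z => mul_nonneg (by linarith [hW z]) (sq_nonneg _)

theorem shr_nonneg (hA : A.IsSymm) (hW : ∀ x, (W x).im < 0) {c : ι → ℝ} (hc : ∀ z, 0 ≤ c z)
    (x : ι) : 0 ≤ shr A W c x :=
  div_nonneg (Finset.sum_nonneg fun z _ => mul_nonneg (hc z) (sq_nonneg _))
    (Sf_pos hA hW x).le

/-- the share of `c` is at most `K` if `c ≤ K e` -/
theorem shr_le (hA : A.IsSymm) (hW : ∀ x, (W x).im < 0) {c : ι → ℝ} {K : ℝ}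
    (hc : ∀ z, c z ≤ K * (-(W z).im)) (x : ι) : shr A W c x ≤ K := by
  rw [shr, div_le_iff₀ (Sf_pos hA hW x), Sf, Finset.mul_sum]
  refine Finset.sum_le_sum fun z _ => ?_
  calc c z * ‖gw A W x z‖ ^ 2 ≤ K * (-(W z).im) * ‖gw A W x z‖ ^ 2 :=
        mul_le_mul_of_nonneg_right (hc z) (sq_nonneg _)
    _ = _ := by ring

/-- **slope inequality, normalised**: slope of `log Sf` in `log s`, weights `w`, floor `u` -/
theorem slope_ge' (hA : A.IsSymm) (hW : ∀ x, (W x).im < 0) {u w : ι → ℝ} {s : ℝ} (hs : 0 ≤ s)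
    (hu : ∀ z, 0 ≤ u z) (hw : ∀ z, 0 ≤ w z) (hWi : ∀ z, -(W z).im = u z + s * w z) (x : ι)
    (B : Finset ι) :
    1 - shr A W u x - 2 * Pr A W x Bᶜ - 2 * ∑ z ∈ B.erase x, s * w z * (Gi A W x z z).im ≤
      s * ((∑ z, w z * (gw A W x z ^ 2).re) / Sf A W x) := by
  have hS := Sf_pos hA hW x
  have h1 := slope_ge hA hW hs hu hw hWi x B
  have h2 : Pr A W x Bᶜ = (∑ z ∈ Bᶜ, (u z + s * w z) * ‖gw A W x z‖ ^ 2) / Sf A W x := by
    rw [Pr]
    congr 1
    exact Finset.sum_congr rfl fun z _ => by rw [hWi]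
  have h3' : s * ((∑ z, w z * (gw A W x z ^ 2).re) / Sf A W x) =
      (s * ∑ z, w z * (gw A W x z ^ 2).re) / Sf A W x := by ring
  rw [h2, shr, h3', le_div_iff₀ hS]
  have h3 : (1 - (∑ z, u z * ‖gw A W x z‖ ^ 2) / Sf A W x -
      2 * ((∑ z ∈ Bᶜ, (u z + s * w z) * ‖gw A W x z‖ ^ 2) / Sf A W x) -
      2 * ∑ z ∈ B.erase x, s * w z * (Gi A W x z z).im) * Sf A W x =
      Sf A W x - ∑ z, u z * ‖gw A W x z‖ ^ 2 -
        2 * ∑ z ∈ Bᶜ, (u z + s * w z) * ‖gw A W x z‖ ^ 2 -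
        2 * (∑ z ∈ B.erase x, s * w z * (Gi A W x z z).im) * Sf A W x := by
    field_simp
  rw [h3]
  exact h1

/-- **slope inequality with a bad part of the moving weights**: as `slope_ge'`, but the sum over
`B` is restricted to an arbitrary set `T` of allowed sites, the other sites go to the share of
`u' = u + 2 s w 1_{T^c}` -/
theorem slope_ge_T (hA : A.IsSymm) (hW : ∀ x, (W x).im < 0) {u w : ι → ℝ} {s : ℝ} (hs : 0 ≤ s)
    (hu : ∀ z, 0 ≤ u z) (hw : ∀ z, 0 ≤ w z) (hWi : ∀ z, -(W z).im = u z + s * w z) (x : ι)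
    (B T : Finset ι) :
    1 - shr A W u x - 2 * Pr A W x (T ∩ Bᶜ) - 2 * shr A W (fun z => if z ∈ T then 0 else s * w z) x -
        2 * ∑ z ∈ (B ∩ T).erase x, s * w z * (Gi A W x z z).im ≤
      s * ((∑ z, w z * (gw A W x z ^ 2).re) / Sf A W x) := by
  have hS := Sf_pos hA hW x
  have hSs : Sf A W x = ∑ z, u z * ‖gw A W x z‖ ^ 2 + ∑ z, s * w z * ‖gw A W x z‖ ^ 2 := by
    rw [Sf, ← Finset.sum_add_distrib]
    exact Finset.sum_congr rfl fun z _ => by rw [hWi]; ring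
  have hR : s * ∑ z, w z * (gw A W x z ^ 2).re =
      ∑ z, s * w z * ‖gw A W x z‖ ^ 2 - 2 * ∑ z, s * w z * (gw A W x z).im ^ 2 := by
    rw [Finset.mul_sum, Finset.mul_sum, ← Finset.sum_sub_distrib]
    exact Finset.sum_congr rfl fun z _ => by rw [re_gw_sq]; ring
  have hx0 : (gw A W x x).im = 0 := by rw [gw_self hA hW]; simp
  have h2 : ∀ z, (gw A W x z).im ^ 2 ≤ ‖gw A W x z‖ ^ 2 := fun z => by
    rw [← sq_abs]
    exact pow_le_pow_left₀ (abs_nonneg _) (Complex.abs_im_le_norm _) 2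
  have h3 : ∀ z, 0 ≤ s * w z := fun z => mul_nonneg hs (hw z)
  have h1 : ∑ z, s * w z * (gw A W x z).im ^ 2 ≤
      ∑ z ∈ T ∩ Bᶜ, (-(W z).im) * ‖gw A W x z‖ ^ 2 +
      ∑ z, (if z ∈ T then 0 else s * w z) * ‖gw A W x z‖ ^ 2 +
        (∑ z ∈ (B ∩ T).erase x, s * w z * (Gi A W x z z).im) * Sf A W x := by
    have e1 : ∑ z ∈ T ∩ Bᶜ, (-(W z).im) * ‖gw A W x z‖ ^ 2 =
        ∑ z, if z ∈ T ∩ Bᶜ then (-(W z).im) * ‖gw A W x z‖ ^ 2 else 0 := by
      rw [Finset.sum_ite_mem, Finset.univ_inter]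
    have e2 : (∑ z ∈ (B ∩ T).erase x, s * w z * (Gi A W x z z).im) * Sf A W x =
        ∑ z, if z ∈ (B ∩ T).erase x then s * w z * (Gi A W x z z).im * Sf A W x else 0 := by
      rw [Finset.sum_ite_mem, Finset.univ_inter, Finset.sum_mul]
    rw [e1, e2, ← Finset.sum_add_distrib, ← Finset.sum_add_distrib]
    refine Finset.sum_le_sum fun z _ => ?_
    have hWz : 0 ≤ -(W z).im := by linarith [hW z]
    have n1 : 0 ≤ (if z ∈ T ∩ Bᶜ then (-(W z).im) * ‖gw A W x z‖ ^ 2 else 0) := by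
      split_ifs
      · exact mul_nonneg hWz (sq_nonneg _)
      · exact le_rfl
    have n2 : 0 ≤ (if z ∈ T then 0 else s * w z) * ‖gw A W x z‖ ^ 2 := by
      split_ifs
      · simp
      · exact mul_nonneg (h3 z) (sq_nonneg _)
    have n3 : 0 ≤ (if z ∈ (B ∩ T).erase x then s * w z * (Gi A W x z z).im * Sf A W x else 0) := by
      split_ifs
      · exact mul_nonneg (mul_nonneg (h3 z) (Gi_im_nonneg hA hW x z)) hS.le
      · exact le_rfl
    by_cases hzx : z = x
    · subst hzx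
      rw [hx0]
      simp only [ne_eq, OfNat.ofNat_ne_zero, not_false_eq_true, zero_pow, mul_zero]
      linarith
    by_cases hT : z ∈ T
    · by_cases hB : z ∈ B
      · rw [if_pos (show z ∈ (B ∩ T).erase x from
          Finset.mem_erase.2 ⟨hzx, Finset.mem_inter.2 ⟨hB, hT⟩⟩)]
        have h5 := mul_le_mul_of_nonneg_left (im_gw_sq_le hA hW x z) (h3 z)
        have h6 : s * w z * ((Gi A W x z z).im * Sf A W x) =
          s * w z * (Gi A W x z z).im * Sf A W x := by ring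
        linarith
      · rw [if_pos (show z ∈ T ∩ Bᶜ from
          Finset.mem_inter.2 ⟨hT, Finset.mem_compl.2 hB⟩)]
        have h5 := mul_le_mul_of_nonneg_left (h2 z) (h3 z)
        have h6 : s * w z * ‖gw A W x z‖ ^ 2 ≤ (-(W z).im) * ‖gw A W x z‖ ^ 2 :=
          mul_le_mul_of_nonneg_right (by rw [hWi]; linarith [hu z]) (sq_nonneg _)
        linarith
    · rw [if_neg hT] at n2 ⊢
      have h5 := mul_le_mul_of_nonneg_left (h2 z) (h3 z)
      linarith
  have h3' : s * ((∑ z, w z * (gw A W x z ^ 2).re) / Sf A W x) =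
      (s * ∑ z, w z * (gw A W x z ^ 2).re) / Sf A W x := by ring
  rw [shr, shr, Pr, h3', le_div_iff₀ hS, hR]
  have h4 : (1 - (∑ z, u z * ‖gw A W x z‖ ^ 2) / Sf A W x -
      2 * ((∑ z ∈ T ∩ Bᶜ, (-(W z).im) * ‖gw A W x z‖ ^ 2) / Sf A W x) -
      2 * ((∑ z, (if z ∈ T then 0 else s * w z) * ‖gw A W x z‖ ^ 2) / Sf A W x) -
      2 * ∑ z ∈ (B ∩ T).erase x, s * w z * (Gi A W x z z).im) * Sf A W x =
      Sf A W x - ∑ z, u z * ‖gw A W x z‖ ^ 2 -
        2 * ∑ z ∈ T ∩ Bᶜ, (-(W z).im) * ‖gw A W x z‖ ^ 2 -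
        2 * ∑ z, (if z ∈ T then 0 else s * w z) * ‖gw A W x z‖ ^ 2 -
        2 * (∑ z ∈ (B ∩ T).erase x, s * w z * (Gi A W x z z).im) * Sf A W x := by
    field_simp
  rw [h4]
  linarith

/-- the slope is at most the share of `|c|` (general derivative weights `c`, any sign) -/
theorem abs_slope_le (hA : A.IsSymm) (hW : ∀ x, (W x).im < 0) (c : ι → ℝ) (x : ι) :
    |(∑ z, c z * (gw A W x z ^ 2).re) / Sf A W x| ≤ shr A W (fun z => |c z|) x := by
  have hS := Sf_pos hA hW x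
  rw [abs_div, abs_of_pos hS, shr]
  refine div_le_div_of_nonneg_right ?_ hS.le
  refine (Finset.abs_sum_le_sum_abs _ _).trans (Finset.sum_le_sum fun z _ => ?_)
  rw [abs_mul]
  refine mul_le_mul_of_nonneg_left ?_ (abs_nonneg _)
  refine (Complex.abs_re_le_norm _).trans (le_of_eq ?_)
  rw [norm_pow]

/-- **`log Sf` is 1-Lipschitz in `log e` (sup norm)** -/
theorem log_Sf_lip (hA : A.IsSymm) (a : ι → ℝ) {e e' : ι → ℝ} (he : ∀ z, 0 < e z)
    (he' : ∀ z, 0 < e' z) {L : ℝ} (hL : ∀ z, |Real.log (e z) - Real.log (e' z)| ≤ L) (x : ι) :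
    |Real.log (Sf A (Wp a e) x) - Real.log (Sf A (Wp a e') x)| ≤ L := by
  set h : ℝ → ι → ℝ := fun t z => Real.exp ((1 - t) * Real.log (e' z) + t * Real.log (e z)) with hh
  have hpos : ∀ t z, 0 < h t z := fun t z => Real.exp_pos _
  have hd : ∀ t z, HasDerivAt (fun s => h s z)
      (h t z * (Real.log (e z) - Real.log (e' z))) t := by
    intro t z
    have h1 : HasDerivAt (fun s : ℝ => (1 - s) * Real.log (e' z) + s * Real.log (e z))
        (Real.log (e z) - Real.log (e' z)) t := by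
      have h2 := (((hasDerivAt_id t).const_sub 1).mul_const (Real.log (e' z))).add
        ((hasDerivAt_id t).mul_const (Real.log (e z)))
      refine h2.congr_deriv ?_
      ring
    exact h1.exp
  have h0 : h 0 = e' := by
    funext z
    simp only [hh]
    rw [sub_zero, one_mul, zero_mul, add_zero, Real.exp_log (he' z)]
  have h1 : h 1 = e := by
    funext z
    simp only [hh]
    rw [sub_self, one_mul, zero_mul, zero_add, Real.exp_log (he z)]
  have hder := fun t : ℝ => hasDerivAt_log_Sf hA (a := a) (fun z => hd t z) (hpos t) x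
  have hb : ∀ t : ℝ, |(∑ z, h t z * (Real.log (e z) - Real.log (e' z)) *
      (gw A (Wp a (h t)) x z ^ 2).re) / Sf A (Wp a (h t)) x| ≤ L := by
    intro t
    have hW : ∀ z, (Wp a (h t) z).im < 0 := fun z => by rw [Wp_im]; linarith [hpos t z]
    refine (abs_slope_le hA hW _ x).trans (shr_le hA hW (fun z => ?_) x)
    rw [Wp_im, neg_neg, abs_mul, abs_of_pos (hpos t z), mul_comm]
    exact mul_le_mul_of_nonneg_right (hL z) (hpos t z).le
  have h2 := norm_image_sub_le_of_norm_deriv_le_segment_01'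
    (f := fun t => Real.log (Sf A (Wp a (h t)) x)) (C := L)
    (f' := fun t => (∑ z, h t z * (Real.log (e z) - Real.log (e' z)) *
      (gw A (Wp a (h t)) x z ^ 2).re) / Sf A (Wp a (h t)) x)
    (fun t _ => (hder t).hasDerivWithinAt) (fun t _ => by rw [Real.norm_eq_abs]; exact hb t)
  rw [Real.norm_eq_abs, h0, h1] at h2
  exact h2

/-- trivial bounds: `e_x ≤ Sf`, and `Sf ≤ C` is `log_Sf_lip` against a large profile -/
theorem log_Sf_ge (hA : A.IsSymm) (a : ι → ℝ) {e : ι → ℝ} (he : ∀ z, 0 < e z) (x : ι) :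
    Real.log (e x) ≤ Real.log (Sf A (Wp a e) x) := by
  have hW : ∀ z, (Wp a e z).im < 0 := fun z => by rw [Wp_im]; linarith [he z]
  have h := e_le_Sf hA hW x
  rw [Wp_im, neg_neg] at h
  exact Real.log_le_log (he x) h

theorem continuousAt_gw (hA : A.IsSymm) {W : ℝ → ι → ℂ} {s₀ : ℝ}
    (hc : ∀ x, ContinuousAt (fun s => W s x) s₀) (hneg : ∀ x, (W s₀ x).im < 0) (x z : ι) :
    ContinuousAt (fun s => gw A (W s) x z) s₀ := by
  unfold gw
  exact (continuousAt_Gr hA hc hneg z x).div (continuousAt_Gr hA hc hneg x x)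
    (Gr_self_ne_zero hA hneg x)

/-- **the increment of `log Sf` along the affine path `u + s w`** -/
theorem log_Sf_sub (hA : A.IsSymm) (a : ι → ℝ) {u w : ι → ℝ} {t₀ t₁ : ℝ} (h01 : t₀ ≤ t₁)
    (hpos : ∀ s ∈ Icc t₀ t₁, ∀ z, 0 < u z + s * w z) (x : ι) :
    IntervalIntegrable (fun s => (∑ z, w z * (gw A (Wp a fun z => u z + s * w z) x z ^ 2).re) /
        Sf A (Wp a fun z => u z + s * w z) x) volume t₀ t₁ ∧
    Real.log (Sf A (Wp a fun z => u z + t₁ * w z) x) -
        Real.log (Sf A (Wp a fun z => u z + t₀ * w z) x) =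
      ∫ s in t₀..t₁, (∑ z, w z * (gw A (Wp a fun z => u z + s * w z) x z ^ 2).re) /
        Sf A (Wp a fun z => u z + s * w z) x := by
  have hd : ∀ s z, HasDerivAt (fun s : ℝ => u z + s * w z) (w z) s := by
    intro s z
    have := ((hasDerivAt_id s).mul_const (w z)).const_add (u z)
    simpa using this
  have hder : ∀ s ∈ uIcc t₀ t₁, HasDerivAt
      (fun s => Real.log (Sf A (Wp a fun z => u z + s * w z) x))
      ((∑ z, w z * (gw A (Wp a fun z => u z + s * w z) x z ^ 2).re) /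
        Sf A (Wp a fun z => u z + s * w z) x) s := by
    intro s hs
    rw [uIcc_of_le h01] at hs
    exact hasDerivAt_log_Sf hA (h := fun s z => u z + s * w z) (a := a) (fun z => hd s z)
      (hpos s hs) x
  have hcont : ContinuousOn (fun s => (∑ z, w z *
      (gw A (Wp a fun z => u z + s * w z) x z ^ 2).re) /
        Sf A (Wp a fun z => u z + s * w z) x) (uIcc t₀ t₁) := by
    intro s hs
    rw [uIcc_of_le h01] at hs
    have hneg : ∀ z, (Wp a (fun z => u z + s * w z) z).im < 0 := fun z => by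
      rw [Wp_im]
      linarith [hpos s hs z]
    have hcW : ∀ z, ContinuousAt (fun s : ℝ => Wp a (fun z => u z + s * w z) z) s := by
      intro z
      unfold Wp
      fun_prop
    refine ContinuousAt.continuousWithinAt ?_
    refine ContinuousAt.div ?_ ?_ (Sf_pos hA hneg x).ne'
    · refine tendsto_finset_sum _ fun z _ => ?_
      exact (((Complex.continuous_re.continuousAt).comp
        ((continuousAt_gw hA hcW hneg x z).pow 2)).const_mul (w z))
    · exact (hasDerivAt_Sf hA (h := fun s z => u z + s * w z) (a := a) (fun z => hd s z)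
        (hpos s hs) x).continuousAt
  have hint := hcont.intervalIntegrable (μ := (volume : Measure ℝ))
  exact ⟨hint, (intervalIntegral.integral_eq_sub_of_hasDerivAt hder hint).symm⟩

end path

/-! ### `E Im Gi_zz ≤ π D` -/

section wegner

variable {ι : Type*} [Fintype ι] [DecidableEq ι] {A : Matrix ι ι ℝ} {W : ι → ℂ}

/-- kernel bound: `q / ((u - p)² + q²)` against a law with density at most `D` -/
theorem poisson_le {ν : Measure ℝ} {D : ℝ} (hD : DensLe D ν) (p : ℝ) {q : ℝ} (hq0 : 0 < q) :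
    ∫⁻ u, ENNReal.ofReal (q / ((u - p) ^ 2 + q ^ 2)) ∂ν ≤ ENNReal.ofReal (Real.pi * D) := by
  have h3 : ∀ u : ℝ, q / ((u - p) ^ 2 + q ^ 2) = q⁻¹ * (1 + ((u - p) / q) ^ 2)⁻¹ := fun u => by
    field_simp
    ring
  have hI : Integrable fun u : ℝ => q⁻¹ * (1 + ((u - p) / q) ^ 2)⁻¹ := by
    have h4 := (integrable_inv_one_add_sq.comp_div hq0.ne').comp_sub_right p
    exact h4.const_mul _
  have hval : ∫ u : ℝ, q⁻¹ * (1 + ((u - p) / q) ^ 2)⁻¹ = Real.pi := by
    rw [integral_const_mul, integral_sub_right_eq_self (fun u : ℝ => (1 + (u / q) ^ 2)⁻¹) p,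
      Measure.integral_comp_div (fun u : ℝ => (1 + u ^ 2)⁻¹) q, integral_univ_inv_one_add_sq,
      smul_eq_mul, abs_of_pos hq0]
    field_simp
  calc ∫⁻ u, ENNReal.ofReal (q / ((u - p) ^ 2 + q ^ 2)) ∂ν
      = ∫⁻ u, ENNReal.ofReal (q⁻¹ * (1 + ((u - p) / q) ^ 2)⁻¹) ∂ν :=
        lintegral_congr fun u => by rw [h3]
    _ ≤ ∫⁻ u, ENNReal.ofReal (q⁻¹ * (1 + ((u - p) / q) ^ 2)⁻¹)
          ∂(ENNReal.ofReal D • (volume : Measure ℝ)) := lintegral_mono' hD le_rfl
    _ = ENNReal.ofReal D * ENNReal.ofReal Real.pi := by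
        rw [lintegral_smul_measure, smul_eq_mul, ← hval,
          ofReal_integral_eq_lintegral_ofReal hI (Filter.Eventually.of_forall fun u => by positivity)]
    _ = ENNReal.ofReal (Real.pi * D) := by
        rw [mul_comm, ← ENNReal.ofReal_mul Real.pi_pos.le]

/-- the self-energy of `z` with `x` removed is in the upper half plane -/
theorem sgy_im_nonneg (hA : A.IsSymm) (hW : ∀ x, (W x).im < 0) {x z : ι} (hne : x ≠ z) :
    0 ≤ (sgy A W x z).im := by
  by_contra hneg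
  rw [not_le] at hneg
  -- move the absorption of `z` to half of `- Im sgy`
  set v : ℂ := ((0 : ℝ) : ℂ) + (((sgy A W x z).im / 2 : ℝ) : ℂ) * I with hv
  have hvi : v.im = (sgy A W x z).im / 2 := by simp [hv]
  have hvn : v.im < 0 := by rw [hvi]; linarith
  have hW' := update_neg hW hvn (z := z)
  have h1 := Gi_im_nonneg hA hW' x z
  rw [Gi_self_eq hA hW' hne, sgy_upd hA hW hvn, Function.update_self, Complex.inv_im] at h1
  have h2 : 0 < (v - sgy A W x z).im := by rw [Complex.sub_im, hvi]; linarith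
  have h3 : 0 < Complex.normSq (v - sgy A W x z) := by
    rw [Complex.normSq_pos]
    intro h0
    rw [h0] at h2
    simp at h2
  have h4 : -(v - sgy A W x z).im / Complex.normSq (v - sgy A W x z) < 0 :=
    div_neg_of_neg_of_pos (by linarith) h3
  linarith

/-- `∫ Im Gi_zz ≤ π D` over the law of the site `z`, everything else frozen -/
theorem lint_Gi_site (hA : A.IsSymm) (hW : ∀ x, (W x).im < 0) {x z : ι} (hne : x ≠ z) (E : ℝ)
    {ν : Measure ℝ} {D : ℝ} (hD : DensLe D ν) :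
    ∫⁻ t, ENNReal.ofReal (Gi A (rez W z (t - E)) x z z).im ∂ν ≤ ENNReal.ofReal (Real.pi * D) := by
  set σ : ℂ := sgy A W x z with hσ
  have hσ0 : 0 ≤ σ.im := sgy_im_nonneg hA hW hne
  set q : ℝ := -(W z).im + σ.im with hq
  have hq0 : 0 < q := by linarith [hW z]
  have key : ∀ t : ℝ, (Gi A (rez W z (t - E)) x z z).im =
      q / ((t - (E + σ.re)) ^ 2 + q ^ 2) := by
    intro t
    have hv : (((t - E : ℝ) : ℂ) + ((W z).im : ℂ) * I).im < 0 := by rw [rez_im]; exact hW z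
    rw [Gi_self_eq hA (rez_neg hW z (t - E)) hne, rez, sgy_upd hA hW hv, Function.update_self,
      Complex.inv_im, Complex.normSq_apply, ← hσ]
    simp only [Complex.sub_im, Complex.ofReal_im, Complex.mul_im, Complex.ofReal_re,
      Complex.I_im, Complex.I_re, Complex.sub_re, Complex.mul_re, Complex.add_im, Complex.add_re]
    rw [hq]
    congr 1
    · ring
    · ring
  simp_rw [key]
  exact poisson_le hD _ hq0

theorem measurable_Gi_WV (E : ℝ) (e : ι → ℝ) (x a b : ι) :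
    Measurable fun v : ι → ℝ => Gi A (WV E e v) x a b := by
  unfold Gi
  have h := fun a b => measurable_Gr_Wp (A := A) (a := fun (v : ι → ℝ) x => v x - E)
    (h := fun _ => e) (fun x => measurable_coord_sub E x) (fun x => measurable_const) a b
  exact (h a b).sub ((measurable_gw_WV E e x a).mul (h x b))

/-- **`E Im Gi_zz ≤ π D`** under the product law, `lintegral` form -/
theorem lint_Gi_le (hA : A.IsSymm) (ν : ι → Measure ℝ) [∀ x, IsProbabilityMeasure (ν x)] {E : ℝ}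
    {e : ι → ℝ} (he : ∀ x, 0 < e x) {x z : ι} (hne : x ≠ z) {D : ℝ} (hD : DensLe D (ν z)) :
    ∫⁻ v, ENNReal.ofReal (Gi A (WV E e v) x z z).im ∂(Measure.pi ν) ≤
      ENNReal.ofReal (Real.pi * D) := by
  have hm : Measurable fun v : ι → ℝ => ENNReal.ofReal (Gi A (WV E e v) x z z).im :=
    (Complex.measurable_im.comp (measurable_Gi_WV E e x z z)).ennreal_ofReal
  rw [MAff.lintegral_resample ν z hm]
  calc _ ≤ ∫⁻ c, ENNReal.ofReal (Real.pi * D) ∂(Measure.pi ν) := by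
        refine lintegral_mono fun c => ?_
        have h1 := lint_Gi_site hA (WV_neg (E := E) he c) hne E hD
        simp only [WV_update]
        exact h1
    _ = ENNReal.ofReal (Real.pi * D) := by
        rw [lintegral_const, measure_univ, mul_one]

/-- `E Im Gi_zz ≤ π D`, Bochner form -/
theorem Ex_Gi_le (hA : A.IsSymm) (ν : ι → Measure ℝ) [∀ x, IsProbabilityMeasure (ν x)] {E : ℝ}
    {e : ι → ℝ} (he : ∀ x, 0 < e x) {x z : ι} (hne : x ≠ z) {D : ℝ} (hD0 : 0 ≤ D)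
    (hD : DensLe D (ν z)) :
    Integrable (fun v => (Gi A (WV E e v) x z z).im) (Measure.pi ν) ∧
      Ex ν E e (fun W => (Gi A W x z z).im) ≤ Real.pi * D := by
  have hm : Measurable fun v : ι → ℝ => (Gi A (WV E e v) x z z).im :=
    Complex.measurable_im.comp (measurable_Gi_WV E e x z z)
  have h0 : ∀ v, 0 ≤ (Gi A (WV E e v) x z z).im := fun v => Gi_im_nonneg hA (WV_neg he v) x z
  have h1 := lint_Gi_le (A := A) hA ν (E := E) he hne hD
  have hint : Integrable (fun v => (Gi A (WV E e v) x z z).im) (Measure.pi ν) := by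
    refine ⟨hm.aestronglyMeasurable, ?_⟩
    rw [hasFiniteIntegral_iff_ofReal (Eventually.of_forall h0)]
    exact h1.trans_lt ENNReal.ofReal_lt_top
  refine ⟨hint, ?_⟩
  unfold Ex
  rw [integral_eq_lintegral_of_nonneg_ae (Eventually.of_forall h0) hm.aestronglyMeasurable]
  exact ENNReal.toReal_le_of_le_ofReal (mul_nonneg Real.pi_pos.le hD0) h1

end wegner

end Vale.Agent.P365.Z0.H640
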