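import Vale.Agent.P365.Z0.IntegDer
import Vale.Agent.P365.Z0.Slope
import Vale.Agent.P365.T1.FarT16

/-!
# P365 T1.5, Z7b: the slope of `LT` at a fixed strength
-/

set_option linter.all false

namespace Vale.Agent.P365.Z0

open P365L hiding Wp Wp_im
open P365O P365T1 P365L.TL Matrix Complex MeasureTheory Filter Topology Set
open Vale.Agent.P365.J376 Vale.Agent.P365.Z0.H640
open scoped ComplexConjugate ENNReal

section one

variable {ι : Type*} [Fintype ι] [DecidableEq ι] {A : Matrix ι ι ℝ}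

theorem WV_imm (E : ℝ) (e v : ι → ℝ) (z : ι) : (WV E e v z).im = -(e z) := by
  rw [WV_eq_Wp, Wp_im]

/-- `gw x` does not see the potential at `x` -/
theorem gw_WV_update (hA : A.IsSymm) (E : ℝ) {e : ι → ℝ} (he : ∀ x, 0 < e x) (v : ι → ℝ) (x : ι)
    (t : ℝ) (z : ι) :
    gw A (WV E e (Function.update v x t)) x z = gw A (WV E e v) x z := by
  rw [WV_update, rez]
  refine gw_upd hA (WV_neg he v) ?_ z
  rw [rez_im]
  exact WV_neg he v x

theorem Sf_WV_update (hA : A.IsSymm) (E : ℝ) {e : ι → ℝ} (he : ∀ x, 0 < e x) (v : ι → ℝ) (x : ι)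
    (t : ℝ) : Sf A (WV E e (Function.update v x t)) x = Sf A (WV E e v) x := by
  unfold Sf
  refine Finset.sum_congr rfl fun z _ => ?_
  rw [gw_WV_update hA E he, WV_imm, WV_imm]

theorem Pr_WV_update (hA : A.IsSymm) (E : ℝ) {e : ι → ℝ} (he : ∀ x, 0 < e x) (v : ι → ℝ) (x : ι)
    (t : ℝ) (S : Finset ι) :
    Pr A (WV E e (Function.update v x t)) x S = Pr A (WV E e v) x S := by
  unfold Pr
  rw [Sf_WV_update hA E he]
  congr 1
  refine Finset.sum_congr rfl fun z _ => ?_
  rw [gw_WV_update hA E he, WV_imm, WV_imm]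

theorem mm_mul_Pr (hA : A.IsSymm) {W : ι → ℂ} (hW : ∀ x, (W x).im < 0) (x : ι) (S : Finset ι) :
    mm A W x * Pr A W x S = ∑ z ∈ S, (-(W z).im) * KK A W x z := by
  rw [Pr_eq hA hW, mul_div_cancel₀]
  exact (mm_pos hA hW x).ne'

theorem measurable_Pr_WV (E : ℝ) (e : ι → ℝ) (x : ι) (S : Finset ι) :
    Measurable fun v : ι → ℝ => Pr A (WV E e v) x S := by
  unfold Pr
  simp only [WV_imm]
  exact (Finset.measurable_sum _ fun z _ =>
    ((measurable_gw_WV E e x z).norm.pow_const 2).const_mul _).div (measurable_Sf_WV E e x)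

theorem measurable_sumKK (E : ℝ) (e : ι → ℝ) (x : ι) (S : Finset ι) :
    Measurable fun v : ι → ℝ => ∑ z ∈ S, (-(WV E e v z).im) * KK A (WV E e v) x z := by
  simp only [WV_imm]
  exact Finset.measurable_sum _ fun z _ =>
    (measurable_KK_Wp (a := fun (v : ι → ℝ) x => v x - E) (h := fun _ => e)
      (fun x => measurable_coord_sub E x) (fun x => measurable_const) x z).const_mul _

theorem sumKK_nonneg {E : ℝ} {e : ι → ℝ} (he : ∀ x, 0 < e x) (v : ι → ℝ) (x : ι)
    (S : Finset ι) : 0 ≤ ∑ z ∈ S, (-(WV E e v z).im) * KK A (WV E e v) x z :=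
  Finset.sum_nonneg fun z _ => mul_nonneg (by rw [WV_imm, neg_neg]; exact (he z).le)
    (KK_nonneg _ _)

theorem sumKK_le_mm (hA : A.IsSymm) {W : ι → ℂ} (hW : ∀ x, (W x).im < 0) (x : ι)
    (S : Finset ι) : ∑ z ∈ S, (-(W z).im) * KK A W x z ≤ mm A W x := by
  rw [mm_eq hA hW]
  exact Finset.sum_le_univ_sum_of_nonneg fun z =>
    mul_nonneg (by linarith [hW z]) (KK_nonneg _ _)

theorem mm_le_inv (hA : A.IsSymm) {E b : ℝ} {e : ι → ℝ} (hb : 0 < b) (he : ∀ x, b ≤ e x)
    (v : ι → ℝ) (x : ι) : mm A (WV E e v) x ≤ 1 / b :=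
  P365L5.mm_upper hA hb (fun z => by rw [WV_imm]; linarith [he z]) x

theorem integrable_sumKK (hA : A.IsSymm) (m : Measure (ι → ℝ)) [IsFiniteMeasure m] (E : ℝ)
    {e : ι → ℝ} (he : ∀ x, 0 < e x) (x : ι) (S : Finset ι) :
    Integrable (fun v => ∑ z ∈ S, (-(WV E e v z).im) * KK A (WV E e v) x z) m := by
  obtain ⟨b, hb, -, hbe⟩ := exists_low he
  refine Integrable.mono' (integrable_const (1 / b)) (measurable_sumKK E e x S).aestronglyMeasurable
    (Eventually.of_forall fun v => ?_)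
  rw [Real.norm_eq_abs, abs_of_nonneg (sumKK_nonneg he v x S)]
  exact (sumKK_le_mm hA (WV_neg he v) x S).trans (mm_le_inv hA hb hbe v x)

theorem integrable_Pr (hA : A.IsSymm) (m : Measure (ι → ℝ)) [IsFiniteMeasure m] (E : ℝ)
    {e : ι → ℝ} (he : ∀ x, 0 < e x) (x : ι) (S : Finset ι) :
    Integrable (fun v => Pr A (WV E e v) x S) m := by
  refine Integrable.mono' (integrable_const 1) (measurable_Pr_WV E e x S).aestronglyMeasurable
    (Eventually.of_forall fun v => ?_)
  rw [Real.norm_eq_abs, abs_of_nonneg (Pr_nonneg hA (WV_neg he v) x S)]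
  exact Pr_le_one hA (WV_neg he v) x S

/-- `(3)`: from `m_x P_x(S)` to `P_x(S)` off a bad event which does not see the site `x` -/
theorem Ex_Pr_le (hA : A.IsSymm) (m : ι → Measure ℝ) [∀ x, IsProbabilityMeasure (m x)] (E : ℝ)
    {e : ι → ℝ} (he : ∀ x, 0 < e x) (x : ι) (S : Finset ι) {bad : Set (ι → ℝ)}
    (hbm : MeasurableSet bad) {ε c0 : ℝ} (hε : 0 ≤ ε) (hc0 : 0 < c0)
    (hbε : Measure.pi m bad ≤ ENNReal.ofReal ε)
    (hgood : ∀ v ∉ bad, c0 ≤ ∫ u, mm A (WV E e (Function.update v x u)) x ∂(m x)) :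
    Ex m E e (fun W => Pr A W x S) ≤
      ε + (1 / c0) * Ex m E e (fun W => ∑ z ∈ S, (-(W z).im) * KK A W x z) := by
  set F : (ι → ℝ) → ℝ := fun v => ∑ z ∈ S, (-(WV E e v z).im) * KK A (WV E e v) x z with hF
  have hFi : Integrable F (Measure.pi m) := integrable_sumKK hA _ E he x S
  have hF0 : ∀ v, 0 ≤ F v := fun v => sumKK_nonneg he v x S
  have hmp := MAff.measurePreserving_resample m x
  have hF' : Integrable (fun p : (ι → ℝ) × ℝ => F (Function.update p.1 x p.2))
      ((Measure.pi m).prod (m x)) := hmp.integrable_comp_of_integrable hFi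
  have hG : Integrable (fun v => ∫ u, F (Function.update v x u) ∂(m x)) (Measure.pi m) :=
    hF'.integral_prod_left
  have hpt : ∀ v, Pr A (WV E e v) x S ≤ bad.indicator (fun _ => (1 : ℝ)) v +
      (1 / c0) * ∫ u, F (Function.update v x u) ∂(m x) := by
    intro v
    have h0 : 0 ≤ ∫ u, F (Function.update v x u) ∂(m x) := integral_nonneg fun u => hF0 _
    have h1 := Pr_nonneg hA (WV_neg (E := E) he v) x S
    by_cases hv : v ∈ bad
    · rw [indicator_of_mem hv]
      have h2 := Pr_le_one hA (WV_neg (E := E) he v) x S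
      have h3 : 0 ≤ (1 / c0) * ∫ u, F (Function.update v x u) ∂(m x) := by positivity
      linarith
    · rw [indicator_of_notMem hv, zero_add]
      have h2 := hgood v hv
      have h3 : ∀ u, F (Function.update v x u) =
          Pr A (WV E e v) x S * mm A (WV E e (Function.update v x u)) x := by
        intro u
        rw [hF, ← Pr_WV_update hA E he v x u S, mul_comm]
        exact (mm_mul_Pr hA (WV_neg he _) x S).symm
      simp_rw [h3]
      rw [integral_const_mul, one_div, ← mul_assoc, mul_comm c0⁻¹, mul_assoc]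
      have h4 : 1 ≤ c0⁻¹ * ∫ u, mm A (WV E e (Function.update v x u)) x ∂(m x) := by
        rw [← div_eq_inv_mul, one_le_div hc0]
        exact h2
      nlinarith
  have hbi : Integrable (bad.indicator fun _ => (1 : ℝ)) (Measure.pi m) :=
    (integrable_const 1).indicator hbm
  have h5 := integral_mono (integrable_Pr hA (Measure.pi m) E he x S)
    (hbi.add (hG.const_mul (1 / c0))) hpt
  unfold Ex
  refine h5.trans ?_
  simp only [Pi.add_apply]
  rw [integral_add hbi (hG.const_mul _), integral_const_mul, integral_indicator hbm,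
    ← integral_resample' m x F hFi]
  refine add_le_add ?_ le_rfl
  rw [setIntegral_const, smul_eq_mul, mul_one]
  exact ENNReal.toReal_le_of_le_ofReal hε hbε

/-- Wegner, Bochner form -/
theorem Ex_mm_le (hA : A.IsSymm) (m : ι → Measure ℝ) [∀ x, IsProbabilityMeasure (m x)] {E : ℝ}
    {e : ι → ℝ} (he : ∀ x, 0 < e x) (z : ι) {D : ℝ} (hD0 : 0 ≤ D) (hD : DensLe D (m z)) :
    Ex m E e (fun W => mm A W z) ≤ Real.pi * D := by
  have h1 := lint_mm_le (E := E) hA he m z hD
  have h0 : ∀ v, 0 ≤ mm A (WV E e v) z := fun v => (mm_pos hA (WV_neg he v) z).le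
  have hm : Measurable fun v : ι → ℝ => mm A (WV E e v) z := by
    have h2 := measurable_Gr_Wp (A := A) (a := fun (v : ι → ℝ) x => v x - E) (h := fun _ => e)
      (fun x => measurable_coord_sub E x) (fun x => measurable_const) z z
    exact Complex.measurable_im.comp h2
  unfold Ex
  rw [integral_eq_lintegral_of_nonneg_ae (Eventually.of_forall h0) hm.aestronglyMeasurable]
  exact ENNReal.toReal_le_of_le_ofReal (mul_nonneg Real.pi_pos.le hD0) h1

theorem integrable_mm (hA : A.IsSymm) (m : Measure (ι → ℝ)) [IsFiniteMeasure m] (E : ℝ)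
    {e : ι → ℝ} (he : ∀ x, 0 < e x) (z : ι) : Integrable (fun v => mm A (WV E e v) z) m := by
  have h := integrable_sumKK (A := A) hA m E he z Finset.univ
  refine h.congr (Eventually.of_forall fun v => ?_)
  exact (mm_eq hA (WV_neg he v) z).symm

/-- flux from the traps to the other sites -/
theorem sum_out_le (hA : A.IsSymm) {W : ι → ℂ} (hW : ∀ x, (W x).im < 0) (T : Finset ι) {em : ℝ}
    (hem : 0 < em) (hT : ∀ x ∈ T, em ≤ -(W x).im) :
    ∑ x ∈ T, ∑ z ∈ Tᶜ, (-(W z).im) * KK A W x z ≤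
      (1 / em) * ∑ z ∈ Tᶜ, (-(W z).im) * mm A W z := by
  rw [Finset.sum_comm, Finset.mul_sum]
  refine Finset.sum_le_sum fun z _ => ?_
  have h1 : em * ∑ x ∈ T, KK A W x z ≤ mm A W z := by
    refine le_trans ?_ (sumKK_le_mm hA hW z T)
    rw [Finset.mul_sum]
    refine Finset.sum_le_sum fun x hx => ?_
    rw [KK_symm hA x z]
    exact mul_le_mul_of_nonneg_right (hT x hx) (KK_nonneg _ _)
  have h2 : ∑ x ∈ T, KK A W x z ≤ (1 / em) * mm A W z := by
    rw [one_div, ← div_eq_inv_mul, le_div_iff₀ hem, mul_comm]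
    exact h1
  rw [← Finset.mul_sum]
  calc -(W z).im * ∑ x ∈ T, KK A W x z ≤ -(W z).im * ((1 / em) * mm A W z) :=
        mul_le_mul_of_nonneg_left h2 (by linarith [hW z])
    _ = (1 / em) * (-(W z).im * mm A W z) := by ring

end one

section avg

variable {ι : Type*} [Fintype ι] [DecidableEq ι] {A : Matrix ι ι ℝ}
  {Λ : Type*} [Fintype Λ] {p : Λ → ℝ} {ν : Λ → Measure ℝ} {E : ℝ}

theorem sum_lab_one (hp1 : ∑ k, p k = 1) : ∑ l : ι → Λ, ∏ x, p (l x) = 1 := by
  classical
  have h := Finset.prod_univ_sum (fun _ : ι => (Finset.univ : Finset Λ)) (fun _ k => p k)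
  simp only [Fintype.piFinset_univ] at h
  rw [← h]
  simp [hp1]

theorem sum_lab_site (hp1 : ∑ k, p k = 1) (z : ι) (g : Λ → ℝ) :
    ∑ l : ι → Λ, (∏ x, p (l x)) * g (l z) = ∑ k, p k * g k := by
  classical
  have h := Finset.prod_univ_sum (fun _ : ι => (Finset.univ : Finset Λ))
    (fun x k => p k * (if x = z then g k else 1))
  simp only [Fintype.piFinset_univ] at h
  have h1 : ∀ l : ι → Λ, ∏ x, p (l x) * (if x = z then g (l x) else 1) =
      (∏ x, p (l x)) * g (l z) := by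
    intro l
    rw [Finset.prod_mul_distrib]
    congr 1
    simp
  simp_rw [h1] at h
  rw [← h, ← Finset.mul_prod_erase Finset.univ _ (Finset.mem_univ z)]
  have h2 : ∏ x ∈ Finset.univ.erase z, ∑ k, p k * (if x = z then g k else 1) = 1 := by
    refine Finset.prod_eq_one fun x hx => ?_
    rw [Finset.mem_erase] at hx
    simp [hx.1, hp1]
  rw [h2, mul_one]
  simp

/-- per label configuration -/
theorem slope_lab (hA : A.IsSymm) (m : ι → Measure ℝ) [∀ x, IsProbabilityMeasure (m x)]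
    {u w : ι → ℝ} {s : ℝ} (hs : 0 < s) (hu : ∀ x, 0 < u x) (hw : ∀ x, 0 ≤ w x)
    (T : Finset ι) (B : ι → Finset ι) {κ εZ c0 wT Dc : ℝ}
    (hκ : ∀ x ∈ T, u x ≤ κ * (u x + s * w x)) (hκ0 : 0 ≤ κ)
    (hwT : ∀ x ∈ T, w x ≤ wT) (hDc0 : 0 ≤ Dc) (hDc : ∀ x ∈ T, DensLe Dc (m x))
    (hε : 0 ≤ εZ) (hc0 : 0 < c0)
    (hZ : ∀ x ∈ T, ∃ bad : Set (ι → ℝ), MeasurableSet bad ∧
      Measure.pi m bad ≤ ENNReal.ofReal εZ ∧ ∀ v ∉ bad,
        c0 ≤ ∫ t, mm A (WV E (fun x => u x + s * w x) (Function.update v x t)) x ∂(m x)) :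
    (1 - κ - 4 * εZ) * (T.card : ℝ) -
      2 / c0 * Ex m E (fun x => u x + s * w x)
        (fun W => ∑ x ∈ T, ∑ z ∈ Tᶜ, (-(W z).im) * KK A W x z) -
      2 / c0 * Ex m E (fun x => u x + s * w x)
        (fun W => ∑ x ∈ T, ∑ z ∈ T ∩ (B x)ᶜ, (-(W z).im) * KK A W x z) -
      2 * (s * wT * (Real.pi * Dc)) * ∑ x ∈ T, (((B x ∩ T).erase x).card : ℝ) ≤
    s * Ex m E (fun x => u x + s * w x)
      (fun W => ∑ x ∈ T, (∑ z, w z * ((gw A W x z) ^ 2).re) / Sf A W x) := by
  set e : ι → ℝ := fun x => u x + s * w x with he_def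
  have he : ∀ x, 0 < e x := fun x => by
    have := mul_nonneg hs.le (hw x)
    have := hu x
    simp only [he_def]
    linarith
  have hint1 : ∀ x, Integrable (fun v => (∑ z, w z * ((gw A (WV E e v) x z) ^ 2).re) /
      Sf A (WV E e v) x) (Measure.pi m) := by
    intro x
    refine Integrable.mono' (integrable_const (1 / s)) (measurable_dlogSf E e w x).aestronglyMeasurable
      (Eventually.of_forall fun v => ?_)
    rw [Real.norm_eq_abs]
    refine abs_dlogSf_le hA (WV_neg he v) (by positivity) hw (fun z => ?_) x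
    rw [WV_imm, neg_neg, one_div, ← div_eq_inv_mul, le_div_iff₀ hs, mul_comm]
    simp only [he_def]
    linarith [hu z]
  have hintG : ∀ x z, x ≠ z → z ∈ T → Integrable (fun v => (Gi A (WV E e v) x z z).im)
      (Measure.pi m) ∧ Ex m E e (fun W => (Gi A W x z z).im) ≤ Real.pi * Dc :=
    fun x z hxz hz => Ex_Gi_le hA m he hxz hDc0 (hDc z hz)
  -- one site
  have hsite : ∀ x ∈ T, 1 - κ - 4 * εZ -
      2 / c0 * Ex m E e (fun W => ∑ z ∈ Tᶜ, (-(W z).im) * KK A W x z) -
      2 / c0 * Ex m E e (fun W => ∑ z ∈ T ∩ (B x)ᶜ, (-(W z).im) * KK A W x z) -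
      2 * (s * wT * (Real.pi * Dc)) * (((B x ∩ T).erase x).card : ℝ) ≤
      s * Ex m E e (fun W => (∑ z, w z * ((gw A W x z) ^ 2).re) / Sf A W x) := by
    intro x hx
    obtain ⟨bad, hbm, hbε, hgood⟩ := hZ x hx
    have hP1 := Ex_Pr_le hA m E he x Tᶜ hbm hε hc0 hbε hgood
    have hP2 := Ex_Pr_le hA m E he x (T ∩ (B x)ᶜ) hbm hε hc0 hbε hgood
    have hpt : ∀ v, 1 - κ - 2 * Pr A (WV E e v) x Tᶜ - 2 * Pr A (WV E e v) x (T ∩ (B x)ᶜ) -
        2 * ∑ z ∈ (B x ∩ T).erase x, s * w z * (Gi A (WV E e v) x z z).im ≤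
        s * ((∑ z, w z * ((gw A (WV E e v) x z) ^ 2).re) / Sf A (WV E e v) x) := by
      intro v
      have hW := WV_neg (E := E) he v
      have h1 := slope_ge_T hA hW hs.le (fun z => (hu z).le) hw
        (fun z => by rw [WV_imm, neg_neg]) x (B x) T
      refine le_trans ?_ h1
      have hS := Sf_pos hA hW x
      have h2 : shr A (WV E e v) u x + 2 * shr A (WV E e v)
          (fun z => if z ∈ T then 0 else s * w z) x ≤ κ + 2 * Pr A (WV E e v) x Tᶜ := by
        rw [shr, shr, Pr, ← mul_div_assoc, ← mul_div_assoc, ← add_div, ← sub_le_iff_le_add,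
          ← sub_div, div_le_iff₀ hS, Sf, Finset.mul_sum, Finset.mul_sum, Finset.mul_sum]
        have h3 : ∑ z ∈ Tᶜ, 2 * (-(WV E e v z).im * ‖gw A (WV E e v) x z‖ ^ 2) =
            ∑ z, if z ∈ Tᶜ then 2 * (-(WV E e v z).im * ‖gw A (WV E e v) x z‖ ^ 2) else 0 := by
          rw [Finset.sum_ite_mem, Finset.univ_inter]
        rw [h3, ← Finset.sum_add_distrib, ← Finset.sum_sub_distrib]
        refine Finset.sum_le_sum fun z _ => ?_
        have h4 : 0 ≤ ‖gw A (WV E e v) x z‖ ^ 2 := sq_nonneg _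
        rw [WV_imm, neg_neg]
        by_cases hz : z ∈ T
        · rw [if_pos hz, if_neg (by simpa using hz)]
          have h5 := mul_le_mul_of_nonneg_right (hκ z hz) h4
          simp only [he_def]
          nlinarith
        · rw [if_neg hz, if_pos (by simpa using hz)]
          have h5 : 0 ≤ κ * (e z * ‖gw A (WV E e v) x z‖ ^ 2) :=
            mul_nonneg hκ0 (mul_nonneg (he z).le h4)
          have h6 : 0 ≤ u z * ‖gw A (WV E e v) x z‖ ^ 2 := mul_nonneg (hu z).le h4
          simp only [he_def] at h5 ⊢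
          nlinarith
      linarith
    have hi0 : Integrable (fun v => 1 - κ - 2 * Pr A (WV E e v) x Tᶜ -
        2 * Pr A (WV E e v) x (T ∩ (B x)ᶜ)) (Measure.pi m) :=
      (((integrable_const (1 - κ)).sub ((integrable_Pr hA (Measure.pi m) E he x Tᶜ).const_mul 2))).sub
        ((integrable_Pr hA (Measure.pi m) E he x (T ∩ (B x)ᶜ)).const_mul 2)
    have hi1 : Integrable (fun v => ∑ z ∈ (B x ∩ T).erase x,
        s * w z * (Gi A (WV E e v) x z z).im) (Measure.pi m) :=
      integrable_finset_sum _ fun z hz => (hintG x z (Finset.ne_of_mem_erase hz).symm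
        (Finset.mem_inter.1 (Finset.mem_of_mem_erase hz)).2).1.const_mul _
    have h7 := integral_mono (hi0.sub (hi1.const_mul 2)) ((hint1 x).const_mul s) hpt
    simp only [Pi.sub_apply] at h7
    have hA1 : Integrable (fun v => 1 - κ - 2 * Pr A (WV E e v) x Tᶜ) (Measure.pi m) :=
      (integrable_const (1 - κ)).sub ((integrable_Pr hA (Measure.pi m) E he x Tᶜ).const_mul 2)
    have hA2 : ∫ v, (1 - κ - 2 * Pr A (WV E e v) x Tᶜ - 2 * Pr A (WV E e v) x (T ∩ (B x)ᶜ))
        ∂(Measure.pi m) = 1 - κ - 2 * ∫ v, Pr A (WV E e v) x Tᶜ ∂(Measure.pi m) -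
          2 * ∫ v, Pr A (WV E e v) x (T ∩ (B x)ᶜ) ∂(Measure.pi m) := by
      rw [integral_sub hA1 ((integrable_Pr hA (Measure.pi m) E he x (T ∩ (B x)ᶜ)).const_mul 2),
        integral_sub (integrable_const (1 - κ))
          ((integrable_Pr hA (Measure.pi m) E he x Tᶜ).const_mul 2),
        integral_const_mul, integral_const_mul, integral_const, probReal_univ, one_smul]
    rw [integral_sub hi0 (hi1.const_mul 2), integral_const_mul, integral_const_mul, hA2,
      integral_finset_sum _ fun z hz => (hintG x z (Finset.ne_of_mem_erase hz).symm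
        (Finset.mem_inter.1 (Finset.mem_of_mem_erase hz)).2).1.const_mul _] at h7
    have h8 : ∑ z ∈ (B x ∩ T).erase x, ∫ v, s * w z * (Gi A (WV E e v) x z z).im ∂(Measure.pi m) ≤
        s * wT * (Real.pi * Dc) * (((B x ∩ T).erase x).card : ℝ) := by
      rw [mul_comm (s * wT * (Real.pi * Dc)), ← nsmul_eq_mul]
      refine Finset.sum_le_card_nsmul _ _ _ fun z hz => ?_
      have hzT := (Finset.mem_inter.1 (Finset.mem_of_mem_erase hz)).2
      rw [integral_const_mul]
      have h9 := (hintG x z (Finset.ne_of_mem_erase hz).symm hzT).2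
      unfold Ex at h9
      have h10 : 0 ≤ ∫ v, (Gi A (WV E e v) x z z).im ∂(Measure.pi m) :=
        integral_nonneg fun v => Gi_im_nonneg hA (WV_neg he v) x z
      have h11 : s * w z ≤ s * wT := mul_le_mul_of_nonneg_left (hwT z hzT) hs.le
      exact mul_le_mul h11 h9 h10 ((mul_nonneg hs.le (hw z)).trans h11)
    unfold Ex at hP1 hP2 ⊢
    have e1 : 2 / c0 * ∫ v, ∑ z ∈ Tᶜ, (-(WV E e v z).im) * KK A (WV E e v) x z ∂(Measure.pi m) =
        2 * ((1 / c0) * ∫ v, ∑ z ∈ Tᶜ, (-(WV E e v z).im) * KK A (WV E e v) x z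
          ∂(Measure.pi m)) := by ring
    have e2 : 2 / c0 * ∫ v, ∑ z ∈ T ∩ (B x)ᶜ, (-(WV E e v z).im) * KK A (WV E e v) x z
        ∂(Measure.pi m) = 2 * ((1 / c0) * ∫ v, ∑ z ∈ T ∩ (B x)ᶜ,
          (-(WV E e v z).im) * KK A (WV E e v) x z ∂(Measure.pi m)) := by ring
    rw [e1, e2]
    linarith
  have hsum := Finset.sum_le_sum hsite
  rw [Finset.sum_sub_distrib, Finset.sum_sub_distrib, Finset.sum_sub_distrib, Finset.sum_const,
    nsmul_eq_mul, ← Finset.mul_sum, ← Finset.mul_sum, ← Finset.mul_sum, ← Finset.mul_sum] at hsum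
  have f1 : ∑ x ∈ T, Ex m E e (fun W => ∑ z ∈ Tᶜ, (-(W z).im) * KK A W x z) =
      Ex m E e (fun W => ∑ x ∈ T, ∑ z ∈ Tᶜ, (-(W z).im) * KK A W x z) := by
    unfold Ex
    exact (integral_finset_sum _ fun x _ => integrable_sumKK hA _ E he x Tᶜ).symm
  have f2 : ∑ x ∈ T, Ex m E e (fun W => ∑ z ∈ T ∩ (B x)ᶜ, (-(W z).im) * KK A W x z) =
      Ex m E e (fun W => ∑ x ∈ T, ∑ z ∈ T ∩ (B x)ᶜ, (-(W z).im) * KK A W x z) := by
    unfold Ex
    exact (integral_finset_sum _ fun x _ => integrable_sumKK hA _ E he x _).symm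
  have f3 : ∑ x ∈ T, Ex m E e (fun W => (∑ z, w z * ((gw A W x z) ^ 2).re) / Sf A W x) =
      Ex m E e (fun W => ∑ x ∈ T, (∑ z, w z * ((gw A W x z) ^ 2).re) / Sf A W x) := by
    unfold Ex
    exact (integral_finset_sum _ fun x _ => hint1 x).symm
  rw [f1, f2, f3] at hsum
  linarith

end avg

end Vale.Agent.P365.Z0
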