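import Vale.Agent.P365.Z0.Loss2

/-!
# P365, Z0, block Z1 (3): the loss is integrable along the last stage.
-/

set_option linter.all false

namespace P365Z.Loss327

open P365L P365O P365T1 P365L.TL Matrix Complex MeasureTheory Filter Topology Set
open Vale.Agent.P365.J376
open scoped ComplexConjugate ENNReal

/-- abstract integration of the loss along a stage -/
theorem lintegral_loss_le {Φ L K : ℝ → ℝ} {t η c M : ℝ} (ht : 0 < t) (ht1 : t ≤ 1)
    (hη : 0 ≤ η) (hd : ∀ s, 0 ≤ s → HasDerivAt Φ (-(K s)) s) (hΦ : 0 ≤ Φ t) (hc : 0 ≤ c)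
    (hL : ∀ s ∈ Ioo t 1, 0 ≤ L s)
    (h : ∀ s ∈ Ioo t 1, L s + K s ≤ η / s * (Φ s + c))
    (hM : ∀ s ∈ Icc t 1, Φ s + c ≤ M) :
    ∫⁻ s in Ioo t 1, ENNReal.ofReal (L s) ≤
      ENNReal.ofReal (M * (1 + η * Real.log (1 / t))) := by
  have hM0 : 0 ≤ M := by
    have := hM t ⟨le_rfl, ht1⟩
    linarith
  set Ψ : ℝ → ℝ := fun s => Φ s + η * M * Real.log s with hΨ
  set g : ℝ → ℝ := fun s => -(K s) + η * M * (1 / s) with hg
  have hΨd : ∀ s, 0 < s → HasDerivAt Ψ (g s) s := by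
    intro s hs
    have h1 := Real.hasDerivAt_log hs.ne'
    rw [← one_div] at h1
    exact (hd s hs.le).add (h1.const_mul (η * M))
  have hcont : ContinuousOn Ψ (Icc t 1) := fun s hs =>
    (hΨd s (ht.trans_le hs.1)).continuousAt.continuousWithinAt
  have hLg : ∀ s ∈ Ioo t 1, L s ≤ g s := by
    intro s hs
    have h1 := h s hs
    have h2 := hM s ⟨hs.1.le, hs.2.le⟩
    have hs0 : 0 < s := ht.trans hs.1
    have h3 : η / s * (Φ s + c) ≤ η / s * M := mul_le_mul_of_nonneg_left h2 (by positivity)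
    have h4 : η / s * M = η * M * (1 / s) := by ring
    rw [hg]
    simp only
    linarith
  have hg0 : ∀ s ∈ Ioo t 1, 0 ≤ g s := fun s hs => (hL s hs).trans (hLg s hs)
  have hint : IntegrableOn g (Ioc t 1) :=
    intervalIntegral.integrableOn_deriv_of_nonneg hcont
      (fun s hs => hΨd s (ht.trans hs.1)) hg0
  have hval : ∫ s in t..1, g s = Ψ 1 - Ψ t :=
    intervalIntegral.integral_eq_sub_of_hasDerivAt_of_le ht1 hcont
      (fun s hs => hΨd s (ht.trans hs.1))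
      ((intervalIntegrable_iff_integrableOn_Ioc_of_le ht1).2 hint)
  have hle : ∫⁻ s in Ioo t 1, ENNReal.ofReal (L s) ≤ ∫⁻ s in Ioo t 1, ENNReal.ofReal (g s) :=
    setLIntegral_mono' measurableSet_Ioo fun s hs => ENNReal.ofReal_le_ofReal (hLg s hs)
  refine hle.trans ?_
  rw [← ofReal_integral_eq_lintegral_ofReal (hint.mono_set Ioo_subset_Ioc_self)
    ((ae_restrict_iff' measurableSet_Ioo).2 (Eventually.of_forall hg0)),
    ← integral_Ioc_eq_integral_Ioo, ← intervalIntegral.integral_of_le ht1, hval]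
  refine ENNReal.ofReal_le_ofReal ?_
  have h1 := hM 1 ⟨ht1, le_rfl⟩
  have h2 : Real.log (1 / t) = -Real.log t := by rw [one_div, Real.log_inv]
  rw [h2, hΨ]
  simp only [Real.log_one, mul_zero, add_zero]
  nlinarith

section gen

variable {ι : Type} [Fintype ι] [DecidableEq ι] {A : Matrix ι ι ℝ}
  {Λ : Type*} [Fintype Λ] {p : Λ → ℝ} {ν : Λ → Measure ℝ} {E : ℝ}
  {κ : Type*} [Fintype κ] {f : κ → ι → ℝ}

/-- bound of the energy at every point of the path -/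
theorem phi_path (hA : A.IsSymm) [∀ k, IsProbabilityMeasure (ν k)]
    {b Wm c M : ℝ} (hb : 0 < b) (hWm : 0 < Wm) (hc : 0 ≤ c) (hM : 0 ≤ M) (n : ℕ)
    {u w : ℕ → (ι → Λ) → ι → ℝ} {t η : ℕ → ℝ} (hη : ∀ i ≤ n, 0 ≤ η i)
    (hub : ∀ i ≤ n, ∀ l x, b ≤ u i l x) (hw0 : ∀ i ≤ n, ∀ l x, 0 ≤ w i l x)
    (hw1 : ∀ i ≤ n, ∀ l x, w i l x ≤ Wm) (ht : ∀ i ≤ n, 0 < t i) (ht1 : ∀ i ≤ n, t i ≤ 1)
    (link : ∀ i < n, ∀ l x, u i l x + t i * w i l x = u (i + 1) l x + w (i + 1) l x)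
    (start : PhiG A p ν E f (fun l x => u 0 l x + w 0 l x) ≤ M)
    (hub2 : ∀ i ≤ n, ∀ s ∈ Ioo (t i) 1,
      CostG A p ν E f (fun l x => u i l x + s * w i l x) (w i) ≤
        η i / s * (PhiG A p ν E f (fun l x => u i l x + s * w i l x) + c)) :
    ∀ i ≤ n, ∀ s ∈ Icc (t i) 1, PhiG A p ν E f (fun l x => u i l x + s * w i l x) + c ≤
      (M + c) * Real.exp (∑ j ∈ Finset.range (i + 1), η j * Real.log (1 / t j)) := by
  have h0 : ∀ i ≤ n, 0 ≤ Real.log (1 / t i) := fun i hi =>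
    Real.log_nonneg (by rw [le_div_iff₀ (ht i hi), one_mul]; exact ht1 i hi)
  -- the two steps
  have hstep : ∀ i ≤ n, ∀ Z : ℝ, 0 ≤ Z →
      PhiG A p ν E f (fun l x => u i l x + w i l x) + c ≤ Z →
      ∀ s ∈ Icc (t i) 1, PhiG A p ν E f (fun l x => u i l x + s * w i l x) + c ≤
        Z * Real.exp (η i * Real.log (1 / t i)) := by
    intro i hi Z hZ0 hZ s hs
    have hs0 : 0 < s := (ht i hi).trans_le hs.1
    have h2 := stage_inv (E := E) (f := f) (ν := ν) (p := p) (c := c) hA hb hWm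
      (hub i hi) (hw0 i hi) (hw1 i hi) hs0 hs.2
      (fun s' hs' => hub2 i hi s' ⟨hs.1.trans_lt hs'.1, hs'.2⟩)
    refine h2.trans ?_
    have h3 : Real.log (1 / s) ≤ Real.log (1 / t i) :=
      Real.log_le_log (by positivity) (one_div_le_one_div_of_le (ht i hi) hs.1)
    have h4 : Real.exp (η i * Real.log (1 / s)) ≤ Real.exp (η i * Real.log (1 / t i)) :=
      Real.exp_le_exp.2 (mul_le_mul_of_nonneg_left h3 (hη i hi))
    calc _ ≤ Z * Real.exp (η i * Real.log (1 / s)) :=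
          mul_le_mul_of_nonneg_right hZ (Real.exp_pos _).le
      _ ≤ _ := mul_le_mul_of_nonneg_left h4 hZ0
  intro i
  induction i with
  | zero =>
    intro hi s hs
    have h := hstep 0 hi (M + c) (add_nonneg hM hc) (by linarith) s hs
    simpa using h
  | succ i ih =>
    intro hi s hs
    have h1 := ih (by omega) (t i) ⟨le_rfl, ht1 i (by omega)⟩
    have h3 : (fun (l : ι → Λ) x => u i l x + t i * w i l x) =
        fun l x => u (i + 1) l x + w (i + 1) l x := by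
      funext l x
      exact link i (by omega) l x
    rw [h3] at h1
    have h := hstep (i + 1) hi _ (mul_nonneg (add_nonneg hM hc) (Real.exp_pos _).le) h1 s hs
    rw [Finset.sum_range_succ, Real.exp_add, ← mul_assoc]
    exact h

end gen

section last

variable {D : V3} {N : ℕ} [NeZero N] {ρ : Measure ℝ}

/-- the error rates of the stages -/
noncomputable def etaS (Ca : ℝ) (ηc ηb : ℕ → ℝ) : ℕ → ℝ
  | 0 => 10
  | i + 1 => Ca * (ηc i + ηb i)

/-- the derivative of the energy along a stage -/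
theorem hasDerivAt_PhiS (h : D.Ok ρ) (E : ℝ) {i : ℕ} (hi : i ≤ D.I + 1) {s : ℝ} (hs : 0 ≤ s) :
    HasDerivAt (PhiS D N E i) (-(CostS D N E i s)) s := by
  haveI := h.prob
  exact hasDerivAt_PhiG (AT_symm N) h.b_pos (show (0 : ℝ) < 33 by norm_num)
    (fun l x => h.us_ge i l x) (fun l x => h.Ws_nonneg hi l x) (fun l x => h.Ws_le hi l x) hs

theorem LossS_nonneg (h : D.Ok ρ) (E : ℝ) {i : ℕ} (hi : i ≤ D.I + 1) {s : ℝ} (hs : 0 ≤ s) :
    0 ≤ LossS D N E i s := by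
  haveI := h.prob
  exact LossG_nonneg (AT_symm N) h.p_nonneg (fun l x => h.prof_pos hi hs l x)
    fun l x => h.Ws_nonneg hi l x

theorem PhiS_nonneg (h : D.Ok ρ) (E : ℝ) {i : ℕ} (hi : i ≤ D.I + 1) {s : ℝ} (hs : 0 ≤ s) :
    0 ≤ PhiS D N E i s :=
  PhiG_nonneg h.p_nonneg fun l x => (h.prof_pos hi hs l x).le

/-- **Z1**: along the last stage the energy is bounded and the loss is integrable -/
theorem last_stage (h : D.Ok ρ) (E : ℝ) {C Ca : ℝ} {ηc ηb : ℕ → ℝ}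
    (hηc : ∀ i ≤ D.I, 0 ≤ ηc i) (hηb : ∀ i ≤ D.I, 0 ≤ ηb i) (hC : 88 ≤ C) (hCa : 0 ≤ Ca)
    (hcost : ∀ k, D.mov k → CostLL E Ca (D.ν k))
    (HC : ∀ i ≤ D.I, ∀ s ∈ Ioo (D.t (i + 1)) 1, D.HC N E i s (ηc i))
    (HB : ∀ i ≤ D.I, ∀ s ∈ Ioo (D.t (i + 1)) 1, D.HB N E i s (ηb i) (C * (N : ℝ) ^ 2))
    (hsum : 10 * Real.log (1 / D.t 0) + ∑ i ∈ Finset.range (D.I + 1),
      Ca * (ηc i + ηb i) * Real.log (1 / D.t (i + 1)) ≤ C) :
    (∀ i ≤ D.I + 1, ∀ s ∈ Icc (D.t i) 1,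
      PhiS D N E i s ≤ 2 * C * Real.exp C * (N : ℝ) ^ 2) ∧
    ∀ i ≤ D.I, ∫⁻ s in Ioo (D.t (i + 1)) 1, ENNReal.ofReal (LossS D N E (i + 1) s) ≤
      ENNReal.ofReal (2 * C * Real.exp C * (1 + C) * (N : ℝ) ^ 2) := by
  haveI := h.prob
  have hC0 : 0 ≤ C := by linarith
  have hc : 0 ≤ C * (N : ℝ) ^ 2 := by positivity
  have h88 : (88 : ℝ) * Fintype.card (Tor N) = 88 * (N : ℝ) ^ 2 := by
    rw [card_Tor_nat]
    push_cast
    ring
  have hη0 : ∀ i ≤ D.I + 1, 0 ≤ etaS Ca ηc ηb i := by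
    intro i hi
    cases i with
    | zero => norm_num [etaS]
    | succ i =>
      exact mul_nonneg hCa (add_nonneg (hηc i (by omega)) (hηb i (by omega)))
  have hlog : ∀ i ≤ D.I + 1, 0 ≤ Real.log (1 / D.t i) := fun i hi =>
    Real.log_nonneg (by rw [le_div_iff₀ (h.t_pos i hi), one_mul]; exact h.t_le i hi)
  have hLC : ∀ i ≤ D.I, ∀ s ∈ Ioo (D.t (i + 1)) 1,
      LossS D N E (i + 1) s + CostS D N E (i + 1) s ≤
        etaS Ca ηc ηb (i + 1) / s * (PhiS D N E (i + 1) s + C * (N : ℝ) ^ 2) := by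
    intro i hi s hs
    exact hub_loss h E hi ((h.t_pos (i + 1) (by omega)).trans hs.1) (hηc i hi) (hηb i hi) hc hCa
      hcost (HC i hi s hs) (HB i hi s hs)
  have hsum' : ∑ j ∈ Finset.range (D.I + 2), etaS Ca ηc ηb j * Real.log (1 / D.t j) ≤ C := by
    rw [Finset.sum_range_succ']
    simp only [etaS]
    linarith
  have hpart : ∀ i ≤ D.I + 1, ∑ j ∈ Finset.range (i + 1),
      etaS Ca ηc ηb j * Real.log (1 / D.t j) ≤ C := by
    intro i hi
    refine le_trans (Finset.sum_le_sum_of_subset_of_nonneg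
      (Finset.range_mono (show i + 1 ≤ D.I + 2 by omega)) fun j hj _ => ?_) hsum'
    rw [Finset.mem_range] at hj
    exact mul_nonneg (hη0 j (by omega)) (hlog j (by omega))
  have hpath := phi_path (A := AT N) (p := D.p) (ν := D.ν) (E := E) (f := phi N) (c := C * (N : ℝ) ^ 2)
    (M := 88 * (N : ℝ) ^ 2) (AT_symm N) h.b_pos (show (0 : ℝ) < 33 by norm_num) hc (by positivity)
    (D.I + 1) (u := D.us) (w := D.Ws) (t := D.t) (η := etaS Ca ηc ηb) hη0
    (fun i _ l x => h.us_ge i l x) (fun i hi l x => h.Ws_nonneg hi l x)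
    (fun i hi l x => h.Ws_le hi l x) h.t_pos h.t_le (fun i hi l x => V3.link hi l x)
    ((h.start E).trans (le_of_eq h88)) (by
      intro i hi s hs
      have hs0 : 0 < s := (h.t_pos i hi).trans hs.1
      cases i with
      | zero => exact h.hub_zero E hc hs0
      | succ i =>
        have h1 := hLC i (by omega) s hs
        have h2 := LossS_nonneg (N := N) h E hi hs0.le
        show CostS D N E (i + 1) s ≤ etaS Ca ηc ηb (i + 1) / s *
          (PhiS D N E (i + 1) s + C * (N : ℝ) ^ 2)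
        linarith)
  have hbd : ∀ i ≤ D.I + 1, ∀ s ∈ Icc (D.t i) 1,
      PhiS D N E i s + C * (N : ℝ) ^ 2 ≤ 2 * C * Real.exp C * (N : ℝ) ^ 2 := by
    intro i hi s hs
    refine (hpath i hi s hs).trans ?_
    have h1 : Real.exp (∑ j ∈ Finset.range (i + 1), etaS Ca ηc ηb j * Real.log (1 / D.t j)) ≤
        Real.exp C := Real.exp_le_exp.2 (hpart i hi)
    have h2 : 88 * (N : ℝ) ^ 2 + C * (N : ℝ) ^ 2 ≤ 2 * C * (N : ℝ) ^ 2 := by
      nlinarith [sq_nonneg (N : ℝ)]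
    calc _ ≤ (2 * C * (N : ℝ) ^ 2) * Real.exp C :=
          mul_le_mul h2 h1 (Real.exp_pos _).le (by positivity)
      _ = _ := by ring
  refine ⟨fun i hi s hs => by linarith [hbd i hi s hs], fun i hi => ?_⟩
  have hi1 : i + 1 ≤ D.I + 1 := by omega
  refine (lintegral_loss_le (h.t_pos _ hi1) (h.t_le _ hi1) (hη0 _ hi1)
    (fun s hs => hasDerivAt_PhiS h E hi1 hs) (PhiS_nonneg h E hi1 (h.t_pos _ hi1).le) hc
    (fun s hs => LossS_nonneg h E hi1 ((h.t_pos _ hi1).trans hs.1).le) (hLC i hi)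
    (hbd (i + 1) hi1)).trans (ENNReal.ofReal_le_ofReal ?_)
  have h3 : etaS Ca ηc ηb (i + 1) * Real.log (1 / D.t (i + 1)) ≤ C := by
    refine le_trans ?_ (hpart (i + 1) hi1)
    exact Finset.single_le_sum (f := fun j => etaS Ca ηc ηb j * Real.log (1 / D.t j))
      (fun j hj => by
        rw [Finset.mem_range] at hj
        exact mul_nonneg (hη0 j (by omega)) (hlog j (by omega)))
      (Finset.mem_range.2 (by omega))
  have h4 : 0 ≤ 2 * C * Real.exp C * (N : ℝ) ^ 2 := by positivity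
  nlinarith

/-! ### measurability in the strength -/

theorem measurable_LossS (h : D.Ok ρ) (E : ℝ) (i : ℕ) :
    Measurable (LossS D N E i) := by
  haveI := h.prob
  unfold LossS LossG AvG
  refine Finset.measurable_sum _ fun l _ => Measurable.const_mul ?_ _
  unfold Ex
  have hm : Measurable fun q : ℝ × (Tor N → ℝ) =>
      ∑ x, D.Ws i l x * ∑ k, Ls (AT N) (WV E (D.prof i q.1 l) q.2) (phi N k) x := by
    refine Finset.measurable_sum _ fun x _ => Measurable.const_mul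
      (Finset.measurable_sum _ fun k _ => ?_) _
    have h1 : ∀ q : ℝ × (Tor N → ℝ), WV E (D.prof i q.1 l) q.2 =
        Vale.Agent.P365.J376.Wp (fun x => q.2 x - E) (D.prof i q.1 l) := fun q => WV_eq_Wp _ _ _
    simp only [h1]
    refine measurable_Ls_Wp (fun y => ?_) (fun y => ?_) _ _
    · have hy : Measurable fun q : ℝ × (Tor N → ℝ) => q.2 y :=
        (measurable_pi_apply y).comp measurable_snd
      exact hy.sub_const E
    · unfold V3.prof
      exact (measurable_fst.mul_const _).const_add _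
  exact (hm.stronglyMeasurable.integral_prod_right' (ν := Measure.pi fun x => D.ν (l x))).measurable

/-! ### logarithmic time -/

/-- change of variables `s = e^{-σ}` -/
theorem lintegral_log_time {t : ℝ} (ht : 0 < t) (ht1 : t ≤ 1) (L : ℝ → ℝ≥0∞) :
    ∫⁻ σ in Ioo 0 (Real.log (1 / t)), ENNReal.ofReal (Real.exp (-σ)) * L (Real.exp (-σ)) =
      ∫⁻ s in Ioo t 1, L s := by
  have himg : (fun σ : ℝ => Real.exp (-σ)) '' Ioo 0 (Real.log (1 / t)) = Ioo t 1 := by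
    ext s
    simp only [mem_image, mem_Ioo]
    constructor
    · rintro ⟨σ, ⟨h1, h2⟩, rfl⟩
      refine ⟨?_, by rw [← Real.exp_zero]; exact Real.exp_lt_exp.2 (by linarith)⟩
      rw [one_div, Real.log_inv] at h2
      calc t = Real.exp (Real.log t) := (Real.exp_log ht).symm
        _ < Real.exp (-σ) := Real.exp_lt_exp.2 (by linarith)
    · rintro ⟨h1, h2⟩
      have hs : 0 < s := ht.trans h1
      refine ⟨-Real.log s, ⟨?_, ?_⟩, ?_⟩
      · have := Real.log_neg hs h2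
        linarith
      · rw [one_div, Real.log_inv]
        have := Real.log_lt_log ht h1
        linarith
      · rw [neg_neg, Real.exp_log hs]
  rw [← himg]
  have hd : ∀ σ ∈ Ioo 0 (Real.log (1 / t)),
      HasDerivWithinAt (fun σ : ℝ => Real.exp (-σ)) (-(Real.exp (-σ)))
        (Ioo 0 (Real.log (1 / t))) σ := by
    intro σ _
    have h1 : HasDerivAt (fun σ : ℝ => Real.exp (-σ)) (Real.exp (-σ) * (-1)) σ :=
      (hasDerivAt_neg σ).exp
    rw [mul_neg_one] at h1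
    exact h1.hasDerivWithinAt
  have hinj : InjOn (fun σ : ℝ => Real.exp (-σ)) (Ioo 0 (Real.log (1 / t))) := by
    intro a _ b _ hab
    have := Real.exp_injective hab
    linarith
  rw [lintegral_image_eq_lintegral_abs_deriv_mul measurableSet_Ioo hd hinj]
  refine lintegral_congr fun σ => ?_
  rw [abs_neg, abs_of_pos (Real.exp_pos _)]

/-- **Z1, logarithmic time**: `∫ e^{-σ} Loss(e^{-σ}) dσ ≤ C' N²` -/
theorem last_stage_log (h : D.Ok ρ) (E : ℝ) {C Ca : ℝ} {ηc ηb : ℕ → ℝ}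
    (hηc : ∀ i ≤ D.I, 0 ≤ ηc i) (hηb : ∀ i ≤ D.I, 0 ≤ ηb i) (hC : 88 ≤ C) (hCa : 0 ≤ Ca)
    (hcost : ∀ k, D.mov k → CostLL E Ca (D.ν k))
    (HC : ∀ i ≤ D.I, ∀ s ∈ Ioo (D.t (i + 1)) 1, D.HC N E i s (ηc i))
    (HB : ∀ i ≤ D.I, ∀ s ∈ Ioo (D.t (i + 1)) 1, D.HB N E i s (ηb i) (C * (N : ℝ) ^ 2))
    (hsum : 10 * Real.log (1 / D.t 0) + ∑ i ∈ Finset.range (D.I + 1),
      Ca * (ηc i + ηb i) * Real.log (1 / D.t (i + 1)) ≤ C) {i : ℕ} (hi : i ≤ D.I) :
    ∫⁻ σ in Ioo 0 (Real.log (1 / D.t (i + 1))),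
      ENNReal.ofReal (Real.exp (-σ) * LossS D N E (i + 1) (Real.exp (-σ))) ≤
      ENNReal.ofReal (2 * C * Real.exp C * (1 + C) * (N : ℝ) ^ 2) := by
  have h1 := (last_stage (N := N) h E hηc hηb hC hCa hcost HC HB hsum).2 i hi
  rw [← lintegral_log_time (h.t_pos (i + 1) (by omega)) (h.t_le (i + 1) (by omega))] at h1
  refine le_trans (le_of_eq (lintegral_congr fun σ => ?_)) h1
  rw [ENNReal.ofReal_mul (Real.exp_pos _).le]

/-- **Z1, bad times**: the log-times with loss rate at least `δ N²` have length at most `C'/δ` -/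
theorem bad_times (h : D.Ok ρ) (E : ℝ) {C Ca : ℝ} {ηc ηb : ℕ → ℝ}
    (hηc : ∀ i ≤ D.I, 0 ≤ ηc i) (hηb : ∀ i ≤ D.I, 0 ≤ ηb i) (hC : 88 ≤ C) (hCa : 0 ≤ Ca)
    (hcost : ∀ k, D.mov k → CostLL E Ca (D.ν k))
    (HC : ∀ i ≤ D.I, ∀ s ∈ Ioo (D.t (i + 1)) 1, D.HC N E i s (ηc i))
    (HB : ∀ i ≤ D.I, ∀ s ∈ Ioo (D.t (i + 1)) 1, D.HB N E i s (ηb i) (C * (N : ℝ) ^ 2))
    (hsum : 10 * Real.log (1 / D.t 0) + ∑ i ∈ Finset.range (D.I + 1),
      Ca * (ηc i + ηb i) * Real.log (1 / D.t (i + 1)) ≤ C) {i : ℕ} (hi : i ≤ D.I)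
    {δ : ℝ} (hδ : 0 < δ) :
    MeasurableSet {σ | δ * (N : ℝ) ^ 2 ≤ Real.exp (-σ) * LossS D N E (i + 1) (Real.exp (-σ))} ∧
    volume ({σ | δ * (N : ℝ) ^ 2 ≤ Real.exp (-σ) * LossS D N E (i + 1) (Real.exp (-σ))} ∩
      Ioo 0 (Real.log (1 / D.t (i + 1)))) ≤
      ENNReal.ofReal (2 * C * Real.exp C * (1 + C) / δ) := by
  have hN : (0 : ℝ) < (N : ℝ) ^ 2 := by
    have : (0 : ℝ) < N := Nat.cast_pos.2 (Nat.pos_of_ne_zero (NeZero.ne N))
    positivity
  have hexp : Measurable fun σ : ℝ => Real.exp (-σ) :=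
    Real.measurable_exp.comp measurable_neg
  have hmeas : Measurable fun σ : ℝ => Real.exp (-σ) * LossS D N E (i + 1) (Real.exp (-σ)) :=
    hexp.mul ((measurable_LossS h E (i + 1)).comp hexp)
  have hset : MeasurableSet {σ | δ * (N : ℝ) ^ 2 ≤
      Real.exp (-σ) * LossS D N E (i + 1) (Real.exp (-σ))} :=
    measurableSet_le measurable_const hmeas
  refine ⟨hset, ?_⟩
  have h1 := last_stage_log (N := N) h E hηc hηb hC hCa hcost HC HB hsum hi
  have h2 := mul_meas_ge_le_lintegral₀ (μ := volume.restrict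
    (Ioo 0 (Real.log (1 / D.t (i + 1))))) hmeas.ennreal_ofReal.aemeasurable
    (ENNReal.ofReal (δ * (N : ℝ) ^ 2))
  have h3 : {σ | δ * (N : ℝ) ^ 2 ≤ Real.exp (-σ) * LossS D N E (i + 1) (Real.exp (-σ))} ⊆
      {σ | ENNReal.ofReal (δ * (N : ℝ) ^ 2) ≤
        ENNReal.ofReal (Real.exp (-σ) * LossS D N E (i + 1) (Real.exp (-σ)))} :=
    fun σ hσ => ENNReal.ofReal_le_ofReal hσ
  rw [← Measure.restrict_apply hset]
  have h4 : ENNReal.ofReal (δ * (N : ℝ) ^ 2) * (volume.restrict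
      (Ioo 0 (Real.log (1 / D.t (i + 1))))) {σ | δ * (N : ℝ) ^ 2 ≤
        Real.exp (-σ) * LossS D N E (i + 1) (Real.exp (-σ))} ≤
      ENNReal.ofReal (2 * C * Real.exp C * (1 + C) * (N : ℝ) ^ 2) :=
    (mul_le_mul_right (measure_mono h3) _).trans (h2.trans h1)
  have h5 : 0 < δ * (N : ℝ) ^ 2 := by positivity
  rw [mul_comm, ← ENNReal.le_div_iff_mul_le (Or.inl (ENNReal.ofReal_pos.2 h5).ne')
    (Or.inl ENNReal.ofReal_ne_top), ← ENNReal.ofReal_div_of_pos h5] at h4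
  refine h4.trans (le_of_eq ?_)
  rw [mul_div_mul_right _ _ hN.ne']

end last

end P365Z.Loss327
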