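import Vale.Agent.P365.Z0.Loss3
import Vale.Agent.P365.T1.Flow394

/-!
# P365, Z0, block Z1 (4): the loss along the stages of the concrete chain.
-/

set_option linter.all false

namespace P365Z.Loss327

open P365L P365O P365T1 P365L.TL Matrix Complex MeasureTheory Filter Topology Set
open Vale.Agent.P365.J376 Vale.Agent.P365.C937 P365SH
open P365T1.Conc P365T1.Seq P365T1.Lab37
open scoped ComplexConjugate ENNReal

/-- **Z1 for the concrete chain**: from the two hubs, the energy is bounded on all stages and the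
loss is integrable on every stage, with one constant for all `I` and all tori. -/
theorem loss_DD {lam : ℝ} (hlam : 0 < lam) (E : ℝ) : ∃ R : ℕ, 2 ≤ R ∧ ∀ rs : ℕ, R ≤ rs →
    ∃ C : ℝ, 0 < C ∧ ∀ (yf : ℕ → ℤ × ℤ) (Vsf : ℕ → ℤ × ℤ → ℝ) (I : ℕ),
      (∀ r, rs ≤ r → yf r ∈ Xr r) → AdmS lam yf Vsf rs I → ∀ (N : ℕ) [NeZero N],
      (∀ i ≤ I, ∀ s ∈ Ioo (tS rs I (i + 1)) 1,
        (DD (pS yf rs I) (nuD lam yf Vsf rs I)).HC N E i s (1 / (rr rs i : ℝ) ^ 30)) →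
      (∀ i ≤ I, ∀ s ∈ Ioo (tS rs I (i + 1)) 1,
        (DD (pS yf rs I) (nuD lam yf Vsf rs I)).HB N E i s (1 / (rr rs i : ℝ) ^ 30)
          (88 * (N : ℝ) ^ 2)) →
      (∀ i ≤ I + 1, ∀ s ∈ Icc (tS rs I i) 1,
        PhiS (DD (pS yf rs I) (nuD lam yf Vsf rs I)) N E i s ≤ C * (N : ℝ) ^ 2) ∧
      (∀ i ≤ I, ∫⁻ s in Ioo (tS rs I (i + 1)) 1, ENNReal.ofReal
        (LossS (DD (pS yf rs I) (nuD lam yf Vsf rs I)) N E (i + 1) s) ≤
          ENNReal.ofReal (C * (N : ℝ) ^ 2)) ∧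
      (∀ i ≤ I, ∀ δ : ℝ, 0 < δ → volume ({σ | δ * (N : ℝ) ^ 2 ≤ Real.exp (-σ) *
        LossS (DD (pS yf rs I) (nuD lam yf Vsf rs I)) N E (i + 1) (Real.exp (-σ))} ∩
          Ioo 0 (Real.log (1 / tS rs I (i + 1)))) ≤ ENNReal.ofReal (C / δ)) := by
  obtain ⟨R0, hR0⟩ := hsum_DD (CaS lam E) (CaS_nonneg lam E)
  refine ⟨max 2 R0, le_max_left _ _, fun rs hrs => ?_⟩
  obtain ⟨B, hB⟩ := hR0 rs ((le_max_right _ _).trans hrs)
  have hC88 : (88 : ℝ) ≤ max 88 B := le_max_left _ _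
  have hC0 : (0 : ℝ) < max 88 B := by linarith
  set C := max 88 B with hCd
  refine ⟨2 * C * Real.exp C * (1 + C), by positivity, ?_⟩
  intro yf Vsf I hy hA N _ HC HB
  have hok := DD_ok ((le_max_left _ _).trans hrs) hy (lw_DD hA)
  have hcost : ∀ k, (DD (pS yf rs I) (nuD lam yf Vsf rs I)).mov k →
      CostLL E (CaS lam E) ((DD (pS yf rs I) (nuD lam yf Vsf rs I)).ν k) := by
    intro k hk
    show CostLL E (CaS lam E) (nuD lam yf Vsf rs I k)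
    rw [nuD_mov' hA hk]
    exact costL_nuS_le hA.hlam E
  have hN2 : (0 : ℝ) ≤ (N : ℝ) ^ 2 := by positivity
  have HB' : ∀ i ≤ I, ∀ s ∈ Ioo (tS rs I (i + 1)) 1,
      (DD (pS yf rs I) (nuD lam yf Vsf rs I)).HB N E i s (1 / (rr rs i : ℝ) ^ 30)
        (C * (N : ℝ) ^ 2) := by
    intro i hi s hs
    refine (HB i hi s hs).trans ?_
    gcongr
  have hη : ∀ i ≤ I, (0 : ℝ) ≤ 1 / (rr rs i : ℝ) ^ 30 := fun i _ => by positivity
  have h1 := last_stage (N := N) hok E (C := C) (Ca := CaS lam E)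
    (ηc := fun i => 1 / (rr rs i : ℝ) ^ 30) (ηb := fun i => 1 / (rr rs i : ℝ) ^ 30)
    hη hη hC88 (CaS_nonneg lam E) hcost HC HB' ((hB I).trans (le_max_right _ _))
  have h2 := fun (i : ℕ) (hi : i ≤ I) (δ : ℝ) (hδ : 0 < δ) => bad_times (N := N) hok E (C := C)
    (Ca := CaS lam E)
    (ηc := fun i => 1 / (rr rs i : ℝ) ^ 30) (ηb := fun i => 1 / (rr rs i : ℝ) ^ 30)
    hη hη hC88 (CaS_nonneg lam E) hcost HC HB' ((hB I).trans (le_max_right _ _)) hi hδ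
  refine ⟨fun i hi s hs => (h1.1 i hi s hs).trans ?_, fun i hi => h1.2 i hi,
    fun i hi δ hδ => (h2 i hi δ hδ).2⟩
  refine mul_le_mul_of_nonneg_right ?_ hN2
  have h3 : 0 ≤ 2 * C * Real.exp C := by positivity
  nlinarith

end P365Z.Loss327
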