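import Vale.Agent.P365.Z0.IntegStage
import Vale.Agent.P365.Z0.LossDD

/-!
# P365 T1.5, Z7b: `Z7`
-/

set_option linter.all false

namespace Vale.Agent.P365.Z0

open P365L hiding Wp Wp_im
open P365O P365T1 P365L.TL Matrix Complex MeasureTheory Filter Topology Set
open Vale.Agent.P365.J376 Vale.Agent.P365.Z0.H640
open P365Z (pc pw Off mm_line pw_pos measurableSet_Off TW Lz)
open P365Z.Loss327
open P365T1.Conc P365T1.Seq
open scoped ComplexConjugate ENNReal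

/-! ### numbers -/

theorem log_bS (rs I : ℕ) :
    Real.log (1 / bS rs I) = 2 * Real.log 2 * (rr rs I : ℝ) ^ 20 := by
  rw [bS, one_div, Real.log_inv, Real.log_pow, one_div, Real.log_inv, nS]
  push_cast
  rw [pow20]
  ring

theorem ev_num {K : ℝ} (hK : 0 < K) (A B : ℝ) {δ : ℝ} (hδ : 0 < δ) : ∀ᶠ r : ℕ in atTop,
    K * (r : ℝ) ^ 3 + A ≤ δ * (2 * Real.log 2 * (r : ℝ) ^ 20) ∧
      B + (r : ℝ) ≤ K * (r : ℝ) ^ 3 := by
  have hl : 0 < Real.log 2 := Real.log_pos (by norm_num)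
  have h1 := ev_pow_le_pow K (show 3 < 20 by norm_num) (show 0 < δ * Real.log 2 by positivity)
  have h2 := ev_pow_le_pow A (show 0 < 20 by norm_num) (show 0 < δ * Real.log 2 by positivity)
  have h3 := ev_pow_le_pow B (show 0 < 3 by norm_num) (show 0 < K / 2 by positivity)
  have h4 := ev_pow_le_pow 1 (show 1 < 3 by norm_num) (show 0 < K / 2 by positivity)
  filter_upwards [h1, h2, h3, h4] with r h1 h2 h3 h4
  rw [pow_zero, mul_one] at h2 h3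
  rw [pow_one, one_mul] at h4
  constructor
  · nlinarith
  · linarith

/-- the numbers of the last stage -/
theorem num_last {rs : ℕ} (hrs : 2 ≤ rs) {K : ℝ} (hK : 0 < K) {κ' δ : ℝ} (hκ' : 0 < κ')
    (hδ : 0 < δ) (hδ1 : δ ≤ 1) {A : ℝ} (hA : 0 ≤ A) : ∃ I₀ : ℕ, ∀ I, I₀ ≤ I →
    bS rs I * Real.exp (K * (rr rs I : ℝ) ^ 3) ≤ 1 ∧
    bS rs I ≤ κ' * (bS rs I * Real.exp (K * (rr rs I : ℝ) ^ 3) * e0S rs I) ∧
    Real.log (1 + bS rs I * Real.exp (K * (rr rs I : ℝ) ^ 3) * 33 / bS rs I) ≤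
      δ * Real.log (1 / bS rs I) ∧
    Real.log (19 / bS rs I) ≤ 2 * Real.log (1 / bS rs I) ∧
    (1 - δ) * Real.log (1 / bS rs I) ≤
      Real.log (1 / (bS rs I * Real.exp (K * (rr rs I : ℝ) ^ 3))) ∧
    A ≤ δ * Real.log (1 / bS rs I) := by
  obtain ⟨r₀, hr₀⟩ := eventually_atTop.1 (ev_num hK (Real.log 34 + A) (Real.log (1 / κ')) hδ)
  refine ⟨r₀, fun I hI => ?_⟩
  obtain ⟨h1, h2⟩ := hr₀ (rr rs I) (hI.trans (lt_rr hrs I).le)
  rw [← log_bS] at h1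
  set L := Real.log (1 / bS rs I) with hL
  set X := K * (rr rs I : ℝ) ^ 3 with hX
  have hb := bS_pos rs I
  have hX0 : 0 ≤ X := by positivity
  have hl34 : 0 ≤ Real.log 34 := Real.log_nonneg (by norm_num)
  have hL0 : 0 ≤ L := Real.log_nonneg (by
    rw [le_div_iff₀ hb, one_mul]
    exact bS_le_one rs I)
  have hlog : Real.log (bS rs I) = -L := by
    rw [hL, one_div, Real.log_inv, neg_neg]
  have hbe : bS rs I = Real.exp (-L) := by
    rw [← hlog, Real.exp_log hb]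
  have hδL : δ * L ≤ L := by nlinarith
  refine ⟨?_, ?_, ?_, ?_, ?_, ?_⟩
  · rw [hbe, ← Real.exp_add]
    exact Real.exp_le_one_iff.2 (by linarith)
  · have h3 : 1 ≤ κ' * Real.exp (X - (rr rs I : ℝ)) := by
      have h4 : 1 / κ' ≤ Real.exp (X - (rr rs I : ℝ)) := by
        rw [← Real.log_le_iff_le_exp (by positivity)]
        linarith
      rw [div_le_iff₀ hκ'] at h4
      linarith
    have h5 : κ' * (bS rs I * Real.exp X * e0S rs I) =
        bS rs I * (κ' * Real.exp (X - (rr rs I : ℝ))) := by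
      rw [e0S, sub_eq_add_neg, Real.exp_add]
      ring
    rw [h5]
    nlinarith
  · have h3 : bS rs I * Real.exp X * 33 / bS rs I = 33 * Real.exp X := by
      field_simp
    rw [h3]
    have h4 : 1 ≤ Real.exp X := Real.one_le_exp hX0
    calc Real.log (1 + 33 * Real.exp X) ≤ Real.log (34 * Real.exp X) :=
          Real.log_le_log (by positivity) (by linarith)
      _ = Real.log 34 + X := by
          rw [Real.log_mul (by norm_num) (Real.exp_pos _).ne', Real.log_exp]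
      _ ≤ δ * L := by linarith
  · rw [show (19 : ℝ) / bS rs I = 19 * (1 / bS rs I) by ring,
      Real.log_mul (by norm_num) (by positivity), ← hL]
    have h5 : Real.log 19 ≤ Real.log 34 := Real.log_le_log (by norm_num) (by norm_num)
    linarith
  · rw [one_div, Real.log_inv, Real.log_mul hb.ne' (Real.exp_pos _).ne', Real.log_exp, hlog]
    linarith
  · linarith

/-- the traps are centres -/
theorem mem_Tc {D : V3} {N : ℕ} [NeZero N] {l : Tor N → D.Λ} {x : Tor N}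
    (h : x ∈ P365Z.Tc D l) : D.cen D.I l x := by
  unfold P365Z.Tc at h
  simpa using h

/-- choice of the small parameters -/
theorem choose_kd {Dt C0 cm δ : ℝ} (hDt : 0 < Dt) (hC0 : 0 < C0) (hcm : 0 < cm) (hδ : 0 < δ) :
    ∃ κ dF : ℝ, 0 < κ ∧ 0 < dF ∧ ∀ ηF : ℝ, 0 < ηF → ∃ η : ℝ, 0 < η ∧ η ≤ ηF ∧ η ≤ δ / 16 ∧
      δ / 8 + 4 * η + 2 / cm * (Real.pi * η) + 2 / cm * dF +
        6 * Real.pi * Dt * C0 * (η + κ ^ 2) ≤ δ / 2 := by
  have hpi := Real.pi_pos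
  refine ⟨min 1 (δ / (96 * Real.pi * Dt * C0)), cm * δ / 32, lt_min one_pos (by positivity),
    by positivity, fun ηF hηF => ?_⟩
  have hden : 0 < 4 + 2 * Real.pi / cm + 6 * Real.pi * Dt * C0 := by positivity
  refine ⟨min ηF (min (δ / 16) (δ / (16 * (4 + 2 * Real.pi / cm + 6 * Real.pi * Dt * C0)))),
    lt_min hηF (lt_min (by positivity) (by positivity)), min_le_left _ _,
    (min_le_right _ _).trans (min_le_left _ _), ?_⟩
  set η := min ηF (min (δ / 16) (δ / (16 * (4 + 2 * Real.pi / cm + 6 * Real.pi * Dt * C0))))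
    with hηd
  set κ := min 1 (δ / (96 * Real.pi * Dt * C0)) with hκd
  have hκ : 0 < κ := lt_min one_pos (by positivity)
  have hηden : η * (4 + 2 * Real.pi / cm + 6 * Real.pi * Dt * C0) ≤ δ / 16 := by
    have h3 : η ≤ δ / (16 * (4 + 2 * Real.pi / cm + 6 * Real.pi * Dt * C0)) :=
      (min_le_right _ _).trans (min_le_right _ _)
    rw [le_div_iff₀ (by positivity)] at h3
    linarith
  have e1 : 2 / cm * (cm * δ / 32) = δ / 16 := by
    field_simp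
    norm_num
  have e2 : 6 * Real.pi * Dt * C0 * κ ^ 2 ≤ δ / 16 := by
    have h3 : κ ^ 2 ≤ κ := by
      have h4 : κ ≤ 1 := min_le_left _ _
      nlinarith
    have h5 : κ ≤ δ / (96 * Real.pi * Dt * C0) := min_le_right _ _
    rw [le_div_iff₀ (by positivity)] at h5
    have h6 : 6 * Real.pi * Dt * C0 * κ ^ 2 ≤ 6 * Real.pi * Dt * C0 * κ :=
      mul_le_mul_of_nonneg_left h3 (by positivity)
    linarith
  have e3 : 4 * η + 2 / cm * (Real.pi * η) + 6 * Real.pi * Dt * C0 * η ≤ δ / 16 := by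
    refine le_trans (le_of_eq ?_) hηden
    field_simp
  have e4 : 6 * Real.pi * Dt * C0 * (η + κ ^ 2) =
      6 * Real.pi * Dt * C0 * η + 6 * Real.pi * Dt * C0 * κ ^ 2 := by ring
  rw [e1, e4]
  linarith

/-- the final inequality between numbers -/
theorem fin_num {δ0 δ η L n3 l19 l1 A : ℝ} (hδ0 : 0 < δ0) (hδ01 : δ0 ≤ 1) (hδ : δ0 ≤ δ)
    (hη : 0 < η) (hη16 : η ≤ δ0 / 16) (hL0 : 0 ≤ L) (h3 : n3 ≤ δ0 / 8 * L)
    (h4 : l19 ≤ 2 * L) (h5 : (1 - δ0 / 8) * L ≤ l1) (h6 : A ≤ δ0 / 8 * L) :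
    n3 + η * l19 - (1 - δ0 / 2) * l1 + A ≤ -((1 - δ) * L) := by
  have g1 : η * l19 ≤ δ0 / 8 * L := by
    calc η * l19 ≤ η * (2 * L) := mul_le_mul_of_nonneg_left h4 hη.le
      _ ≤ δ0 / 16 * (2 * L) := mul_le_mul_of_nonneg_right hη16 (by positivity)
      _ = δ0 / 8 * L := by ring
  have g2 : (1 - δ0 / 2) * ((1 - δ0 / 8) * L) ≤ (1 - δ0 / 2) * l1 :=
    mul_le_mul_of_nonneg_left h5 (by linarith)
  have g3 : (1 - δ) * L ≤ (1 - δ0) * L := mul_le_mul_of_nonneg_right (by linarith) hL0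
  have g4 : 0 ≤ δ0 * δ0 * L := by positivity
  nlinarith

/-- fixed `I` and `N` -/
theorem z7_fix {lam : ℝ} {E : ℝ} {yf : ℕ → ℤ × ℤ} {Vsf : ℕ → ℤ × ℤ → ℝ} {rs I : ℕ} {N : ℕ}
    [NeZero N] {ρ : Measure ℝ} (hok : (DD (pS yf rs I) (nuD lam yf Vsf rs I)).Ok ρ)
    {Dt c0 a a' dl C0 C q η ηF κ dF K δ0 δ : ℝ} {Dn : (PP yf rs I).Lb → ℝ}
    (hDt : 0 < Dt) (hc0 : 0 < c0) (haa : a < a') (hdl : 0 < dl) (hC0 : 0 < C0) (hη0 : 0 < η)
    (hη1 : η ≤ 1) (hκ : 0 < κ) (hK : 0 < K) (hC : 0 < C) (hηF : 0 < ηF) (hηηF : η ≤ ηF)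
    (hδ0 : 0 < δ0) (hδ01 : δ0 ≤ 1) (hδ0δ : δ0 ≤ δ) (hη16 : η ≤ δ0 / 16)
    (hsum : δ0 / 8 + 4 * η + 2 / (c0 * min 1 (a' - a)) * (Real.pi * η) +
      2 / (c0 * min 1 (a' - a)) * dF + 6 * Real.pi * Dt * max C0 C * (η + κ ^ 2) ≤ δ0 / 2)
    (n1 : bS rs I * Real.exp (K * (rr rs I : ℝ) ^ 3) ≤ 1)
    (n2 : bS rs I ≤ δ0 / 8 * (bS rs I * Real.exp (K * (rr rs I : ℝ) ^ 3) * e0S rs I))
    (n3 : Real.log (1 + bS rs I * Real.exp (K * (rr rs I : ℝ) ^ 3) * 33 / bS rs I) ≤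
      δ0 / 8 * Real.log (1 / bS rs I))
    (n4 : Real.log (19 / bS rs I) ≤ 2 * Real.log (1 / bS rs I))
    (n5 : (1 - δ0 / 8) * Real.log (1 / bS rs I) ≤
      Real.log (1 / (bS rs I * Real.exp (K * (rr rs I : ℝ) ^ 3))))
    (n6 : 2 * (2 * C / ηF) ≤ δ0 / 8 * Real.log (1 / bS rs I))
    (hPhi : ∀ s ∈ Icc (tS rs I (I + 1)) 1,
      PhiS (DD (pS yf rs I) (nuD lam yf Vsf rs I)) N E (I + 1) s ≤ C * (N : ℝ) ^ 2)
    (hLoss : ∫⁻ s in Ioo (tS rs I (I + 1)) 1, ENNReal.ofReal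
      (LossS (DD (pS yf rs I) (nuD lam yf Vsf rs I)) N E (I + 1) s) ≤
        ENNReal.ofReal (C * (N : ℝ) ^ 2))
    (hTW : ∀ s : ℝ, bS rs I * Real.exp (K * (rr rs I : ℝ) ^ 3) ≤ s → s ≤ 1 →
      TW N (pS yf rs I) (nuD lam yf Vsf rs I) E
        ((DD (pS yf rs I) (nuD lam yf Vsf rs I)).prof (I + 1) s)
        (P365Z.Tc (DD (pS yf rs I) (nuD lam yf Vsf rs I))) Dt c0 a a' dl C0
        (s * e0S rs I) q η Dn)
    (hFar : ∀ (Λ : Type) [Fintype Λ] (p : Λ → ℝ)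
      (ν : Λ → Measure ℝ) (E : ℝ) (e : (Tor N → Λ) → Tor N → ℝ)
      (T : (Tor N → Λ) → Finset (Tor N)) (ε q : ℝ) (Dn : Λ → ℝ),
      TW N p ν E e T Dt c0 a a' dl (max C0 C) ε q ηF Dn →
      PhiG (AT N) p ν E (phi N) e ≤ (max C0 C) * (N : ℝ) ^ 2 →
      AvG p ν E e (fun l W => ∑ x ∈ T l, e l x * ∑ k, Lz (AT N) W (phi N k) x) ≤
        ηF * (N : ℝ) ^ 2 →
      AvG p ν E e (fun l W => ∑ x ∈ T l, ∑ y ∈ (T l).filter
        (fun y => κ / Real.sqrt (q * ε) < (nrm (x - y) : ℝ)),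
          e l y * KK (AT N) W x y) ≤ dF * nT p T) :
    LT (AT N) (pS yf rs I) (nuD lam yf Vsf rs I) E
        (P365Z.Tc (DD (pS yf rs I) (nuD lam yf Vsf rs I))) (fun _ _ => bS rs I) ≤
      -((1 - δ) * Real.log (1 / bS rs I)) *
        nT (pS yf rs I) (P365Z.Tc (N := N) (DD (pS yf rs I) (nuD lam yf Vsf rs I))) := by
  have hb := bS_pos rs I
  have hst : tS rs I (I + 1) ≤ bS rs I * Real.exp (K * (rr rs I : ℝ) ^ 3) := by
    have h3 := tS_last_le rs I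
    have h4 : 1 ≤ Real.exp (K * (rr rs I : ℝ) ^ 3) := Real.one_le_exp (by positivity)
    have h5 : bS rs I * 1 ≤ bS rs I * Real.exp (K * (rr rs I : ℝ) ^ 3) :=
      mul_le_mul_of_nonneg_left h4 hb.le
    have h6 := tS_pos rs I (I + 1)
    linarith
  have hmain := last_stage_LT (D := DD (pS yf rs I) (nuD lam yf Vsf rs I)) (N := N) hok E
    (T := P365Z.Tc (DD (pS yf rs I) (nuD lam yf Vsf rs I))) (fun l x hx => mem_Tc hx)
    (Dt := Dt) (c0 := c0) (a := a) (a' := a') (dl := dl) (C0 := max C0 C) (q := q) (η := η)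
    (ηF := ηF) (κ := κ) (κ' := δ0 / 8) (dF := dF)
    (s₁ := bS rs I * Real.exp (K * (rr rs I : ℝ) ^ 3)) (C := C) (δ₁ := δ0 / 2) (Dn := Dn)
    hDt hc0 haa hdl (lt_max_of_lt_left hC0) hη0 hη1 hκ (by positivity) (by linarith)
    (by positivity) n1 hst
    (fun s h3 h4 => tw_mono (hTW s h3 h4) le_rfl (le_max_left _ _)) n2 (bS_le_one rs I)
    hPhi hLoss hC.le hηF
    (fun s h3 h4 h5 h6 => hFar _ _ _ E _ _ _ _ _
      (tw_mono (hTW s h3 h4) hηηF (le_max_left _ _))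
      (h5.trans (mul_le_mul_of_nonneg_right (le_max_right _ _) (by positivity))) h6)
    (by positivity) hsum
  refine hmain.trans ?_
  have hnT0 : 0 ≤ nT (pS yf rs I) (P365Z.Tc (N := N) (DD (pS yf rs I) (nuD lam yf Vsf rs I))) :=
    Finset.sum_nonneg fun l _ => mul_nonneg
      (Finset.prod_nonneg fun x _ => hok.p_nonneg _) (Nat.cast_nonneg _)
  refine mul_le_mul_of_nonneg_right ?_ hnT0
  have hL0 : 0 ≤ Real.log (1 / bS rs I) := Real.log_nonneg (by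
    rw [le_div_iff₀ hb, one_mul]
    exact bS_le_one rs I)
  exact fin_num hδ0 hδ01 hδ0δ hη0 hη16 hL0 n3 n4 n5 n6

/-- **Z7**, without `Z1` (the loss is `loss_DD`) -/
theorem logT_of {lam : ℝ} (hlam : 0 < lam) (hF : P365Z.FarT) (h12 : P365Z.Z12 lam)
    (hHB : HBconc lam) : P365Z.LogT lam := by
  intro E hE
  obtain ⟨lam', yf, Vsf, R₀, Dt, c0, a, a', dl, C0, K, hl0, hl1, hDt, hc0, ha, haa, hdl, hC0,
    hK, hy, hV, hW⟩ := h12 E hE
  obtain ⟨R1, hR1⟩ := hHB E hE lam' hl1 yf Vsf R₀ hy hV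
  obtain ⟨R2, hR2, hloss⟩ := loss_DD hlam E
  refine ⟨lam', yf, Vsf, max R₀ (max R1 R2), hl1, fun r hr => hy r ((le_max_left _ _).trans hr),
    hV, ?_⟩
  intro rs hrs δ hδ
  have h0 : R₀ ≤ rs := (le_max_left _ _).trans hrs
  have h1 : R1 ≤ rs := (le_max_left _ _).trans ((le_max_right _ _).trans hrs)
  have h2 : R2 ≤ rs := (le_max_right _ _).trans ((le_max_right _ _).trans hrs)
  have h22 : 2 ≤ rs := hR2.trans h2
  obtain ⟨C, hC, hL⟩ := hloss rs h2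
  have hδ0 : 0 < min δ 1 := lt_min hδ one_pos
  obtain ⟨κ, dF, hκ, hdF, hch⟩ := choose_kd hDt (show 0 < max C0 C from lt_max_of_lt_left hC0)
    (show 0 < c0 * min 1 (a' - a) from mul_pos hc0 (lt_min one_pos (by linarith))) hδ0
  obtain ⟨ηF, hηF, hηF1, hFar⟩ := hF Dt c0 a a' dl (max C0 C) κ dF hDt hc0 ha haa hdl
    (lt_max_of_lt_left hC0) hκ hdF
  obtain ⟨η, hη, hηηF, hη16, hsum⟩ := hch ηF hηF
  obtain ⟨I1, hI1⟩ := hW rs h0 η hη
  obtain ⟨I2, hI2⟩ := num_last h22 hK (show 0 < min δ 1 / 8 by positivity)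
    (show 0 < min δ 1 / 8 by positivity) (show min δ 1 / 8 ≤ 1 by
      have := min_le_right δ 1
      linarith)
    (show 0 ≤ 2 * (2 * C / ηF) by positivity)
  refine ⟨max I1 I2, fun I hI hA => ?_⟩
  obtain ⟨N1, hN1⟩ := hI1 I ((le_max_left _ _).trans hI) hA
  obtain ⟨N2, hN2⟩ := hR1 rs h1 I hA
  refine ⟨max N1 N2, fun N hN hdvd hz => ?_⟩
  obtain ⟨HC, q, Dn, hq, hTW⟩ := hN1 N ((le_max_left _ _).trans hN) hdvd hz
  have HB := hN2 N ((le_max_right _ _).trans hN) hdvd hz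
  have hy' : ∀ r, rs ≤ r → yf r ∈ P365SH.Xr r := fun r hr => hy r (h0.trans hr)
  obtain ⟨hPhi, hLoss, -⟩ := hL yf Vsf I hy' hA N HC HB
  obtain ⟨n1, n2, n3, n4, n5, n6⟩ := hI2 I ((le_max_right _ _).trans hI)
  exact z7_fix (DD_ok h22 hy' (lw_DD hA)) hDt hc0 haa hdl hC0 hη (hηηF.trans hηF1) hκ hK hC hηF
    hηηF hδ0 (min_le_right _ _) (min_le_left _ _) hη16 hsum n1 n2 n3 n4 n5 n6
    (fun s hs => hPhi (I + 1) le_rfl s hs) (hLoss I le_rfl) hTW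
    (fun Λ _ p ν E e T ε q Dn h3 h4 h5 => hFar N Λ p ν E e T ε q Dn h3 h4 h5)

/-- **Z7** -/
theorem z7 : P365Z.Z7 := fun _ hlam _ hF h12 hHB => logT_of hlam hF h12 hHB

end Vale.Agent.P365.Z0
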