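import Vale.Agent.P365.Bdl.B1
import Mathlib.Topology.MetricSpace.HausdorffDimension
import Mathlib.MeasureTheory.Measure.Hausdorff

/-!
# P365 / Z0 / final: spectral measures carried by a set of Hausdorff dimension zero.
-/

set_option linter.all false

namespace P365Z0.F700

open MeasureTheory ProbabilityTheory P365L Set

/-- all spectral measures of `H = hop + V` are carried by one Borel set of Hausdorff dimension
zero -/
def ZeroDimSpectrum (V : Site → ℝ) : Prop :=
  ∃ S : Set ℝ, MeasurableSet S ∧ dimH S = 0 ∧
    ∀ (ψ : L2) (μ : Measure ℝ), IsSpectralMeasure V ψ μ → μ Sᶜ = 0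

/-- a set of dimension zero has measure zero for every Hausdorff measure of positive dimension -/
theorem hausdorff_null {S : Set ℝ} (hS : dimH S = 0) {d : ℝ} (hd : 0 < d) :
    Measure.hausdorffMeasure d S = 0 := by
  lift d to NNReal using hd.le
  refine hausdorffMeasure_of_dimH_lt ?_
  rw [hS]
  exact_mod_cast hd

theorem volume_null {S : Set ℝ} (hS : dimH S = 0) : volume S = 0 := by
  have := hausdorff_null hS one_pos
  rwa [hausdorffMeasure_real] at this

/-- zero dimensional spectrum: no part of a spectral measure is absolutely continuous with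
respect to a Hausdorff measure of positive dimension -/
theorem ZeroDimSpectrum.singular_hausdorff {V : Site → ℝ} (h : ZeroDimSpectrum V) {ψ : L2}
    {μ : Measure ℝ} (hμ : IsSpectralMeasure V ψ μ) {d : ℝ} (hd : 0 < d) :
    μ ⟂ₘ Measure.hausdorffMeasure d := by
  obtain ⟨S, hm, hS, H⟩ := h
  refine ⟨Sᶜ, hm.compl, H ψ μ hμ, ?_⟩
  rw [compl_compl]
  exact hausdorff_null hS hd

theorem ZeroDimSpectrum.singular {V : Site → ℝ} (h : ZeroDimSpectrum V) {ψ : L2}
    {μ : Measure ℝ} (hμ : IsSpectralMeasure V ψ μ) : μ ⟂ₘ volume := by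
  have := h.singular_hausdorff hμ one_pos
  rwa [hausdorffMeasure_real] at this

end P365Z0.F700
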