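import Vale.Agent.P365.T1G.Main
import Vale.Agent.P365.T1a.Site

set_option linter.all false

/-!
# P365 Z0, block Z9: the mean of `log w_0` on the tori bounds that on `ℤ²`

`Sf A W z = Im G_zz / |G_zz|²` is the total flux of the unit wave; `Sz V z` is the same quantity
on `ℤ²`.
-/

namespace P365L.Z0.T436

open MeasureTheory ProbabilityTheory Complex Filter Topology
open P365L.Inf P365L.TL P365L.E913 P365T1
open scoped ENNReal InnerProductSpace

section finite

variable {ι : Type*} [Fintype ι] [DecidableEq ι] {A : Matrix ι ι ℝ} {W : ι → ℂ}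

theorem Kmat_gw (hA : A.IsSymm) (hW : ∀ x, (W x).im < 0) (z a : ι) (ha : a ≠ z) :
    (Kmat A W).mulVec (fun y => gw A W z y) a = 0 := by
  have h1 : (fun y => gw A W z y) = (Gr A W z z)⁻¹ • fun y => Gr A W y z := by
    funext y
    rw [Pi.smul_apply, gw, smul_eq_mul, div_eq_inv_mul]
  rw [h1, Matrix.mulVec_smul, Pi.smul_apply, Kmat_mulVec_Gr hA hW, if_neg ha, smul_zero]

/-- **the flux of the unit wave is bounded by the hopping** -/
theorem Sf_le (hA : A.IsSymm) {b : ℝ} (hb : 0 < b) (hW : ∀ x, (W x).im ≤ -b) (z : ι) :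
    Sf A W z ≤ -(W z).im + (∑ a, A a z ^ 2) / b := by
  have hW' : ∀ x, (W x).im < 0 := fun x => (hW x).trans_lt (by linarith)
  set h : ι → ℂ := fun a => if a = z then 0 else gw A W z a with hh
  have hK : ∀ a, (starRingEnd ℂ) (h a) * (Kmat A W).mulVec h a =
      -((A a z : ℂ) * (starRingEnd ℂ) (h a)) := by
    intro a
    by_cases ha : a = z
    · simp [hh, ha]
    have h1 : (fun y => gw A W z y) = h + Pi.single z 1 := by
      funext y
      rw [Pi.add_apply]
      by_cases hy : y = z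
      · subst hy
        rw [Pi.single_eq_same, gw_self hA hW']
        simp [hh]
      · rw [Pi.single_eq_of_ne hy, add_zero]
        simp [hh, hy]
    have h2 := Kmat_gw hA hW' z a ha
    rw [h1, Matrix.mulVec_add, Pi.add_apply, Matrix.mulVec_single_one] at h2
    have h3 : (Kmat A W).col z a = (A a z : ℂ) := by
      rw [Matrix.col_apply, Kmat, Matrix.add_apply, Matrix.map_apply, Matrix.diagonal_apply_ne _ ha,
        add_zero]
    rw [h3] at h2
    have h4 : (Kmat A W).mulVec h a = -(A a z : ℂ) := by linear_combination h2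
    rw [h4]
    ring
  have h0 := im_quadratic (W := W) hA h
  rw [Finset.sum_congr rfl fun a _ => hK a] at h0
  set T : ℝ := ∑ a, (-(W a).im) * ‖h a‖ ^ 2 with hT
  set S : ℝ := ∑ a, ‖h a‖ ^ 2 with hS
  set B : ℝ := ∑ a, A a z ^ 2 with hB
  have hS0 : 0 ≤ S := Finset.sum_nonneg fun a _ => by positivity
  have hB0 : 0 ≤ B := Finset.sum_nonneg fun a _ => by positivity
  have hTS : b * S ≤ T := by
    rw [hS, hT, Finset.mul_sum]
    exact Finset.sum_le_sum fun a _ => mul_le_mul_of_nonneg_right (by linarith [hW a])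
      (by positivity)
  have hT1 : T ≤ ∑ a, |A a z| * ‖h a‖ := by
    have e1 : T = -(∑ a, -((A a z : ℂ) * (starRingEnd ℂ) (h a))).im := by
      rw [h0, hT, ← Finset.sum_neg_distrib]
      exact Finset.sum_congr rfl fun a _ => by ring
    rw [e1]
    refine (neg_le_abs _).trans ((Complex.abs_im_le_norm _).trans ((norm_sum_le _ _).trans
      (le_of_eq ?_)))
    refine Finset.sum_congr rfl fun a _ => ?_
    rw [norm_neg, norm_mul, RCLike.norm_conj, Complex.norm_real, Real.norm_eq_abs]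
  have hCS : (∑ a, |A a z| * ‖h a‖) ^ 2 ≤ B * S := by
    have := Finset.sum_mul_sq_le_sq_mul_sq Finset.univ (fun a => |A a z|) fun a => ‖h a‖
    simpa only [sq_abs] using this
  have hT0 : 0 ≤ T := le_trans (by positivity) hTS
  have h5 : T ^ 2 ≤ B * S := (pow_le_pow_left₀ hT0 hT1 2).trans hCS
  have h6 : T ≤ B / b := by
    rw [le_div_iff₀ hb]
    rcases hT0.eq_or_lt with h7 | h7
    · rw [← h7, zero_mul]
      exact hB0
    · refine le_of_mul_le_mul_left ?_ h7
      have h8 : b * (B * S) ≤ B * T := by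
        calc b * (B * S) = B * (b * S) := by ring
          _ ≤ B * T := mul_le_mul_of_nonneg_left hTS hB0
      calc T * (T * b) = b * T ^ 2 := by ring
        _ ≤ b * (B * S) := mul_le_mul_of_nonneg_left h5 hb.le
        _ ≤ B * T := h8
        _ = T * B := by ring
  have h9 : Sf A W z = -(W z).im + T := by
    unfold Sf
    rw [hT, ← Finset.add_sum_erase _ _ (Finset.mem_univ z),
      ← Finset.add_sum_erase (a := z) _ (fun a => (-(W a).im) * ‖h a‖ ^ 2) (Finset.mem_univ z)]
    rw [gw_self hA hW']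
    have e1 : h z = 0 := by simp [hh]
    rw [e1]
    have e2 : ∑ a ∈ Finset.univ.erase z, (-(W a).im) * ‖gw A W z a‖ ^ 2 =
        ∑ a ∈ Finset.univ.erase z, (-(W a).im) * ‖h a‖ ^ 2 := by
      refine Finset.sum_congr rfl fun a ha => ?_
      have : h a = gw A W z a := by simp [hh, Finset.ne_of_mem_erase ha]
      rw [this]
    rw [e2]
    simp
  rw [h9]
  linarith

theorem Sf_eq_div (hA : A.IsSymm) (hW : ∀ x, (W x).im < 0) (z : ι) :
    Sf A W z = (Gr A W z z).im / ‖Gr A W z z‖ ^ 2 := by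
  have h := mm_eq_Sf hA hW z
  have h1 : ‖Gr A W z z‖ ^ 2 ≠ 0 := by
    have := norm_pos_iff.2 (Gr_self_ne_zero hA hW z)
    positivity
  rw [eq_div_iff h1, ← h]
  rfl

end finite

/-! ### the torus -/

theorem sum_AT_sq_le {N : ℕ} [NeZero N] (z : Tor N) : ∑ a, AT N a z ^ 2 ≤ 4 := by
  simp only [AT_sq]
  have h1 : ∀ a, AT N a z = AT N z a * 1 := fun a => by rw [mul_one, (AT_symm N).apply]
  simp only [h1]
  rw [sum_AT z fun _ => 1]
  simp only [Finset.sum_const, nsmul_eq_mul, mul_one]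
  exact_mod_cast card_nbs_le

theorem Wh_neg {N : ℕ} [NeZero N] {E b : ℝ} (hb : 0 < b) (v : Tor N → ℝ) (x : Tor N) :
    (Wh E b v x).im < 0 := by
  rw [Wh_im]
  linarith

/-- two-sided bound on the torus, every potential -/
theorem Sf_bounds {N : ℕ} [NeZero N] {E b : ℝ} (hb : 0 < b) (v : Tor N → ℝ) (z : Tor N) :
    b ≤ Sf (AT N) (Wh E b v) z ∧ Sf (AT N) (Wh E b v) z ≤ b + 4 / b := by
  constructor
  · have := e_le_Sf (AT_symm N) (Wh_neg (E := E) hb v) z
    rwa [Wh_im, neg_neg] at this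
  · have := Sf_le (AT_symm N) hb (W := Wh E b v) (fun x => by rw [Wh_im]) z
    rw [Wh_im, neg_neg] at this
    refine this.trans ?_
    have h := sum_AT_sq_le z
    gcongr

/-- bound of the logarithm -/
noncomputable def LB (b : ℝ) : ℝ := |Real.log b| + |Real.log (b + 4 / b)|

theorem abs_log_le {b w : ℝ} (hb : 0 < b) (h1 : b ≤ w) (h2 : w ≤ b + 4 / b) :
    |Real.log w| ≤ LB b := by
  have h3 := Real.log_le_log hb h1
  have h4 := Real.log_le_log (hb.trans_le h1) h2
  unfold LB
  rw [abs_le]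
  constructor
  · linarith [neg_abs_le (Real.log b), abs_nonneg (Real.log (b + 4 / b))]
  · linarith [le_abs_self (Real.log (b + 4 / b)), abs_nonneg (Real.log b)]

theorem measurable_Sf {N : ℕ} [NeZero N] {E b : ℝ} (hb : 0 < b) (z : Tor N) :
    Measurable fun v : Tor N → ℝ => Sf (AT N) (Wh E b v) z := by
  have h1 : (fun v : Tor N → ℝ => Sf (AT N) (Wh E b v) z) = fun v =>
      (Gt N v (E + b * I) z z).im / ‖Gt N v (E + b * I) z z‖ ^ 2 := by
    funext v
    rw [Gt_eq]
    exact Sf_eq_div (AT_symm N) (Wh_neg hb v) z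
  rw [h1]
  have h2 := measurable_Gt N (E + b * I) z z
  exact (Complex.measurable_im.comp h2).div (h2.norm.pow_const 2)

theorem integrable_log_Sf {N : ℕ} [NeZero N] {E b : ℝ} (hb : 0 < b) (z : Tor N)
    (P : Measure (Tor N → ℝ)) [IsFiniteMeasure P] :
    Integrable (fun v : Tor N → ℝ => Real.log (Sf (AT N) (Wh E b v) z)) P := by
  refine Integrable.of_bound (Real.measurable_log.comp (measurable_Sf hb z)).aestronglyMeasurable
    (LB b) (Eventually.of_forall fun v => ?_)
  rw [Real.norm_eq_abs]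
  exact abs_log_le hb (Sf_bounds hb v z).1 (Sf_bounds hb v z).2

/-! ### the plane -/

/-- the flux of the unit wave at the origin of `ℤ²`: `Im G_00 / |G_00|²` -/
noncomputable def Sz (V : Site → ℝ) (z : ℂ) : ℝ := (gg V z 0 0).im / ‖gg V z 0 0‖ ^ 2

theorem Sz_pos {V : Site → ℝ} {z : ℂ} (hz : 0 < z.im) : 0 < Sz V z := by
  have h1 := gg_im_pos (V := V) hz 0
  have h2 := norm_pos_iff.2 (gg_ne_zero (V := V) hz 0)
  unfold Sz
  positivity

theorem tor_zero (N : ℕ) : tor N 0 = 0 := by simp [tor]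

theorem tendsto_Sf (V : Site → ℝ) {E b : ℝ} (hb : 0 < b) (M : ℕ → ℕ) [∀ k, NeZero (M k)]
    (hM : Tendsto M atTop atTop) :
    Tendsto (fun k => Sf (AT (M k)) (Wh E b (VT (M k) V)) 0) atTop
      (𝓝 (Sz V (E + b * I))) := by
  have hz : 0 < ((E : ℂ) + b * I).im := by simpa using hb
  have h1 := tor_tendsto hz (res_spec V hz (dl 0)) M hM 0
  have h2 : (Res V (E + b * I) (dl 0)) 0 = gg V (E + b * I) 0 0 := rfl
  rw [h2] at h1
  simp only [tor_zero] at h1
  have h3 : ∀ k, Sf (AT (M k)) (Wh E b (VT (M k) V)) 0 =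
      (Gt (M k) (VT (M k) V) (E + b * I) 0 0).im /
        ‖Gt (M k) (VT (M k) V) (E + b * I) 0 0‖ ^ 2 := by
    intro k
    rw [Gt_eq]
    exact Sf_eq_div (AT_symm _) (Wh_neg hb _) 0
  simp only [h3]
  have h4 : ‖gg V (E + b * I) 0 0‖ ^ 2 ≠ 0 := by
    have := norm_pos_iff.2 (gg_ne_zero (V := V) hz 0)
    positivity
  exact ((Complex.continuous_im.tendsto _).comp h1).div (h1.norm.pow 2) h4

/-- **two-sided bound in the plane** -/
theorem Sz_bounds (V : Site → ℝ) {E b : ℝ} (hb : 0 < b) :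
    b ≤ Sz V (E + b * I) ∧ Sz V (E + b * I) ≤ b + 4 / b := by
  have h := tendsto_Sf V (E := E) hb (fun k => k + 1) (tendsto_add_atTop_nat 1)
  exact ⟨ge_of_tendsto' h fun k => (Sf_bounds hb _ 0).1,
    le_of_tendsto' h fun k => (Sf_bounds hb _ 0).2⟩

variable {Ω : Type*} [MeasurableSpace Ω] {P : Measure Ω} [IsProbabilityMeasure P]
variable {V : Site → Ω → ℝ}

theorem map_tor {N : ℕ} [NeZero N] (hV : ∀ x, Measurable (V x)) (hi : iIndepFun V P)
    {ν : Measure ℝ} [IsProbabilityMeasure ν] (hl : ∀ x, P.map (V x) = ν) :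
    P.map (fun ω (x : Tor N) => V (rep x) ω) = Measure.pi fun _ : Tor N => ν := by
  have hi' : iIndepFun (fun x : Tor N => V (rep x)) P := hi.precomp rep_injective
  have h1 := (iIndepFun_iff_map_fun_eq_pi_map
    (fun y : Tor N => (hV (rep y)).aemeasurable)).mp hi'
  rw [h1]
  simp only [hl]

theorem measurable_Sz {E b : ℝ} (hb : 0 < b) (hV : ∀ x, Measurable (V x)) :
    Measurable fun ω => Sz (fun x => V x ω) (E + b * I) := by
  refine measurable_of_tendsto_metrizable (f := fun k ω =>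
    Sf (AT (k + 1)) (Wh E b (VT (k + 1) fun x => V x ω)) 0) (fun k => ?_) ?_
  · exact (measurable_Sf (N := k + 1) hb 0).comp (measurable_pi_lambda _ fun x => hV (rep x))
  · rw [tendsto_pi_nhds]
    intro ω
    exact tendsto_Sf (fun x => V x ω) hb (fun k => k + 1) (tendsto_add_atTop_nat 1)

theorem integrable_log_Sz {E b : ℝ} (hb : 0 < b) (hV : ∀ x, Measurable (V x)) :
    Integrable (fun ω => Real.log (Sz (fun x => V x ω) (E + b * I))) P := by
  refine Integrable.of_bound
    (Real.measurable_log.comp (measurable_Sz (E := E) hb hV)).aestronglyMeasurable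
    (LB b) (Eventually.of_forall fun ω => ?_)
  rw [Real.norm_eq_abs]
  exact abs_log_le hb (Sz_bounds _ hb).1 (Sz_bounds _ hb).2

/-- **Z9, limit form**: the mean of `log w_0` on the tori converges to that on `ℤ²`. -/
theorem tendsto_log {ν : Measure ℝ} [IsProbabilityMeasure ν] (hV : ∀ x, Measurable (V x))
    (hi : iIndepFun V P) (hl : ∀ x, P.map (V x) = ν) {E b : ℝ} (hb : 0 < b) (M : ℕ → ℕ)
    [∀ k, NeZero (M k)] (hM : Tendsto M atTop atTop) :
    Tendsto (fun k => ∫ v, Real.log (Sf (AT (M k)) (Wh E b v) 0)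
      ∂(Measure.pi fun _ : Tor (M k) => ν)) atTop
      (𝓝 (∫ ω, Real.log (Sz (fun x => V x ω) (E + b * I)) ∂P)) := by
  have h1 : ∀ k, ∫ v, Real.log (Sf (AT (M k)) (Wh E b v) 0)
      ∂(Measure.pi fun _ : Tor (M k) => ν) =
      ∫ ω, Real.log (Sf (AT (M k)) (Wh E b (VT (M k) fun x => V x ω)) 0) ∂P := by
    intro k
    rw [← map_tor (N := M k) hV hi hl, integral_map]
    · rfl
    · exact (measurable_pi_lambda _ fun x => hV (rep x)).aemeasurable
    · exact (Real.measurable_log.comp (measurable_Sf hb 0)).aestronglyMeasurable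
  simp only [h1]
  refine tendsto_integral_of_dominated_convergence (fun _ => LB b) (fun k => ?_)
    (integrable_const _) (fun k => Eventually.of_forall fun ω => ?_)
    (Eventually.of_forall fun ω => ?_)
  · exact (Real.measurable_log.comp ((measurable_Sf (N := M k) hb 0).comp
      (measurable_pi_lambda _ fun x => hV (rep x)))).aestronglyMeasurable
  · rw [Real.norm_eq_abs]
    exact abs_log_le hb (Sf_bounds hb _ 0).1 (Sf_bounds hb _ 0).2
  · exact (tendsto_Sf (fun x => V x ω) hb M hM).log (Sz_pos (by simpa using hb)).ne'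

/-- **Z9**: a bound of the mean of `log w_0` on arbitrarily large tori holds on `ℤ²`. -/
theorem log_le {ν : Measure ℝ} [IsProbabilityMeasure ν] (hV : ∀ x, Measurable (V x))
    (hi : iIndepFun V P) (hl : ∀ x, P.map (V x) = ν) {E b : ℝ} (hb : 0 < b) {c : ℝ}
    (h : ∀ N₀ : ℕ, ∃ N, N₀ ≤ N ∧ ∃ _ : NeZero N,
      ∫ v, Real.log (Sf (AT N) (Wh E b v) 0) ∂(Measure.pi fun _ : Tor N => ν) ≤ c) :
    ∫ ω, Real.log (Sz (fun x => V x ω) (E + b * I)) ∂P ≤ c := by
  choose M hM0 hM1 hM2 using h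
  have hMt : Tendsto M atTop atTop := tendsto_atTop_mono hM0 tendsto_id
  exact le_of_tendsto' (tendsto_log hV hi hl hb M hMt) hM2

/-- **Z9** for the canonical product measure. -/
theorem log_le_pi {ν : Measure ℝ} [IsProbabilityMeasure ν] {E b : ℝ} (hb : 0 < b) {c : ℝ}
    (h : ∀ N₀ : ℕ, ∃ N, N₀ ≤ N ∧ ∃ _ : NeZero N,
      ∫ v, Real.log (Sf (AT N) (Wh E b v) 0) ∂(Measure.pi fun _ : Tor N => ν) ≤ c) :
    ∫ V : Site → ℝ, Real.log (Sz V (E + b * I)) ∂(Measure.infinitePi fun _ : Site => ν) ≤ c :=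
  log_le (P := Measure.infinitePi fun _ : Site => ν) (V := fun (x : Site) (V : Site → ℝ) => V x)
    (fun x => measurable_pi_apply x) iIndep_coord
    (fun x => Measure.infinitePi_map_eval (fun _ : Site => ν) x) hb h

end P365L.Z0.T436
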