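import Vale.Agent.P365.J376.Fin
import Vale.Agent.P365.Z0.H562.Z10T
import Vale.Agent.P365.Z0.Fin700

set_option linter.all false

/-!
# P365 T1.5 / Z11: the final statement from the means of `log w_0` on the tori
-/

namespace P365Z0.F700

open MeasureTheory ProbabilityTheory P365L

/-- **Z11** -/
theorem final_of_logTor (h : ∀ lam : ℝ, 0 < lam → P365L.Z0.LogTor (TL.nuL lam) lam) :
    (∀ {Ω : Type} [MeasurableSpace Ω] (P : Measure Ω) [IsProbabilityMeasure P]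
      (w : Site → Ω → ℝ), (∀ x, Measurable (w x)) → iIndepFun w P →
      (∀ x, P.map (w x) = cond volume (Set.Icc (-1) 1)) → ∀ lam : ℝ, 0 < lam →
      ∀ᵐ o ∂P,
        ZeroDimSpectrum (fun x => lam * w x o) ∧
        (∀ (ψ : L2) (μ : Measure ℝ), IsSpectralMeasure (fun x => lam * w x o) ψ μ →
          μ ⟂ₘ volume ∧ ∀ d : ℝ, 0 < d → μ ⟂ₘ Measure.hausdorffMeasure d) ∧
        ∀ I : Set ℝ, ¬ PurelyAC (fun x => lam * w x o) I) ∧
    (∀ (V : Site → ℝ) (ψ : L2), ∃ μ : Measure ℝ, IsSpectralMeasure V ψ μ ∧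
      μ.real Set.univ = ‖ψ‖ ^ 2) := by
  refine ⟨?_, exists_spectralMeasure⟩
  intro Ω _ P _ w hm hi hl lam hlam
  filter_upwards [P365L.Z0.z910 hlam (h lam hlam) P w hm hi hl] with o ho
  exact ⟨ho, fun ψ μ hμ => ⟨ho.singular hμ, fun d hd => ho.singular_hausdorff hμ hd⟩,
    J376.not_purelyAC fun ψ μ hμ => ho.singular hμ⟩

end P365Z0.F700
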