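import Vale.Agent.P365.T1.FarT16
import Vale.Agent.P365.Minami.Poisson

set_option linter.all false

/-!
# P365, zero-dimensional spectrum (Z0), block Z4: bad masses, general product law.

World: `W x = (v x - E) - i e x`, `v` of law `Measure.pi ν`.  On the line of `z`
`Im G_zz = w / ((v_z - p)² + w²)` with `p = E + Re sg_z`, `w = e_z + Im sg_z = Sf_z`, both
independent of `v z`.
-/

namespace P365Z

open P365L P365O P365T1 MeasureTheory ProbabilityTheory Complex Function Set
open scoped ENNReal ComplexConjugate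

section line

variable {ι : Type*} [Fintype ι] [DecidableEq ι] {A : Matrix ι ι ℝ} {E : ℝ} {e : ι → ℝ}

/-- position of the resonance of `z` on the line of `v z` -/
noncomputable def pc (A : Matrix ι ι ℝ) (E : ℝ) (e v : ι → ℝ) (z : ι) : ℝ :=
  E + (sg A (WV E e v) z).re

/-- width of the resonance of `z` -/
noncomputable def pw (A : Matrix ι ι ℝ) (E : ℝ) (e v : ι → ℝ) (z : ι) : ℝ :=
  e z + (sg A (WV E e v) z).im

theorem pw_pos (hA : A.IsSymm) (he : ∀ x, 0 < e x) (v : ι → ℝ) (z : ι) : 0 < pw A E e v z := by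
  have h := sg_im_nonneg hA (WV_im_neg (E := E) he v) z
  unfold pw
  linarith [he z]

theorem e_le_pw (hA : A.IsSymm) (he : ∀ x, 0 < e x) (v : ι → ℝ) (z : ι) :
    e z ≤ pw A E e v z := by
  have h := sg_im_nonneg hA (WV_im_neg (E := E) he v) z
  unfold pw
  linarith

theorem pw_eq_Sf (hA : A.IsSymm) (he : ∀ x, 0 < e x) (v : ι → ℝ) (z : ι) :
    pw A E e v z = Sf A (WV E e v) z := by
  have h := sg_im hA (WV_im_neg (E := E) he v) z
  have hz : (WV E e v z).im = -e z := by simp [WV]
  rw [hz, neg_neg] at h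
  unfold pw
  linarith

theorem sg_update_v (hA : A.IsSymm) (he : ∀ x, 0 < e x) (v : ι → ℝ) (z : ι) (u : ℝ) :
    sg A (WV E e (update v z u)) z = sg A (WV E e v) z := by
  have h1 : WV E e (update v z u) =
      update (WV E e v) z ((((u - E : ℝ) : ℂ)) - (e z : ℂ) * Complex.I) := by
    ext i
    by_cases hi : i = z
    · subst hi; simp [WV]
    · simp [WV, hi]
  have hw : ((((u - E : ℝ) : ℂ)) - (e z : ℂ) * Complex.I).im < 0 := by
    have := he z
    simp
    exact this
  rw [h1, sg_upd hA (WV_im_neg (E := E) he v) hw]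

theorem pc_update (hA : A.IsSymm) (he : ∀ x, 0 < e x) (v : ι → ℝ) (z : ι) (u : ℝ) :
    pc A E e (update v z u) z = pc A E e v z := by
  rw [pc, pc, sg_update_v hA he]

theorem pw_update (hA : A.IsSymm) (he : ∀ x, 0 < e x) (v : ι → ℝ) (z : ι) (u : ℝ) :
    pw A E e (update v z u) z = pw A E e v z := by
  rw [pw, pw, sg_update_v hA he]

/-- `Im G_zz` along the line of `z` -/
theorem mm_pt (hA : A.IsSymm) (he : ∀ x, 0 < e x) (v : ι → ℝ) (z : ι) :
    mm A (WV E e v) z = pw A E e v z / ((v z - pc A E e v z) ^ 2 + pw A E e v z ^ 2) := by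
  have hW := WV_im_neg (E := E) he v
  rw [mm, Gr_self_eq hA hW, Complex.inv_im, Complex.normSq_apply]
  simp only [WV, pc, pw, Complex.sub_im, Complex.ofReal_im, Complex.mul_im, Complex.ofReal_re,
    Complex.I_im, Complex.I_re, Complex.sub_re, Complex.mul_re]
  congr 1
  · ring
  · ring

theorem mm_line (hA : A.IsSymm) (he : ∀ x, 0 < e x) (v : ι → ℝ) (z : ι) (u : ℝ) :
    mm A (WV E e (update v z u)) z =
      pw A E e v z / ((u - pc A E e v z) ^ 2 + pw A E e v z ^ 2) := by
  rw [mm_pt hA he, pc_update hA he, pw_update hA he, update_self]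

theorem mm_nonneg' (hA : A.IsSymm) (he : ∀ x, 0 < e x) (v : ι → ℝ) (z : ι) :
    0 ≤ mm A (WV E e v) z := (mm_pos hA (WV_im_neg (E := E) he v) z).le

theorem measurable_mmv (z : ι) : Measurable fun v : ι → ℝ => mm A (WV E e v) z :=
  (P365T1.measurable_mm z).comp (measurable_WV E e)

theorem measurable_sgv (z : ι) : Measurable fun v : ι → ℝ => sg A (WV E e v) z := by
  unfold sg
  have h1 : Measurable fun v : ι → ℝ => WV E e v z :=
    (measurable_pi_apply z).comp (measurable_WV E e)
  exact h1.sub (((measurable_Gr_id z z).comp (measurable_WV E e)).inv)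

theorem measurable_pc (z : ι) : Measurable fun v : ι → ℝ => pc A E e v z :=
  (Complex.measurable_re.comp (measurable_sgv z)).const_add _

theorem measurable_pw (z : ι) : Measurable fun v : ι → ℝ => pw A E e v z :=
  (Complex.measurable_im.comp (measurable_sgv z)).const_add _

end line

/-! ### one variable -/

/-- the tail of a resonance -/
theorem poisson_tail {ν : Measure ℝ} {D : ℝ} (hD : DensLe D ν) (p : ℝ) {q : ℝ} (hq : 0 < q)
    {X : ℝ} (hX : 0 < X) :
    ∫⁻ u, {u : ℝ | X * q < |u - p|}.indicator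
      (fun u => ENNReal.ofReal (q / ((u - p) ^ 2 + q ^ 2))) u ∂ν ≤
      ENNReal.ofReal (2 * Real.pi * D / X) := by
  have hXq : 0 < X * q := mul_pos hX hq
  calc ∫⁻ u, {u : ℝ | X * q < |u - p|}.indicator
          (fun u => ENNReal.ofReal (q / ((u - p) ^ 2 + q ^ 2))) u ∂ν
      ≤ ∫⁻ u, ENNReal.ofReal (2 / X) *
          ENNReal.ofReal ((X * q) / ((u - p) ^ 2 + (X * q) ^ 2)) ∂ν := by
        refine lintegral_mono fun u => ?_
        by_cases hu : u ∈ {u : ℝ | X * q < |u - p|}
        · rw [Set.indicator_of_mem hu, ← ENNReal.ofReal_mul (by positivity)]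
          refine ENNReal.ofReal_le_ofReal ?_
          have h1 : (X * q) ^ 2 ≤ (u - p) ^ 2 := by
            rw [← sq_abs (u - p)]
            exact pow_le_pow_left₀ hXq.le (le_of_lt hu) 2
          have h0 : 0 < (u - p) ^ 2 := lt_of_lt_of_le (by positivity) h1
          have h2 : 2 / X * (X * q / ((u - p) ^ 2 + (X * q) ^ 2)) =
              2 * q / ((u - p) ^ 2 + (X * q) ^ 2) := by
            field_simp
          rw [h2, div_le_div_iff₀ (by positivity) (by positivity)]
          nlinarith [mul_pos hq hq, mul_nonneg hq.le (sub_nonneg.2 h1), sq_nonneg q,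
            mul_pos hq (mul_pos hq hq)]
        · rw [Set.indicator_of_notMem hu]
          exact zero_le
    _ = ENNReal.ofReal (2 / X) *
          ∫⁻ u, ENNReal.ofReal ((X * q) / ((u - p) ^ 2 + (X * q) ^ 2)) ∂ν :=
        lintegral_const_mul' _ _ ENNReal.ofReal_ne_top
    _ ≤ ENNReal.ofReal (2 / X) * ENNReal.ofReal (Real.pi * D) := by
        gcongr
        exact poisson_le hD p hXq
    _ = ENNReal.ofReal (2 * Real.pi * D / X) := by
        rw [← ENNReal.ofReal_mul (by positivity)]
        congr 1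
        ring

/-! ### one site -/

section site

variable {ι : Type*} [Fintype ι] [DecidableEq ι] {A : Matrix ι ι ℝ} {E : ℝ} {e : ι → ℝ}
  {ν : ι → Measure ℝ} [∀ x, IsProbabilityMeasure (ν x)]

/-- one-site resampling, nonnegative integrals -/
theorem lint_resample (z : ι) {F : (ι → ℝ) → ℝ≥0∞} (hF : Measurable F) :
    ∫⁻ v, F v ∂(Measure.pi ν) = ∫⁻ v, ∫⁻ u, F (update v z u) ∂(ν z) ∂(Measure.pi ν) := by
  rw [← lintegral_lmarginal ν {z} hF]
  refine lintegral_congr fun v => ?_
  rw [lmarginal_singleton]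

/-- weighted one-site averaging -/
theorem site_le (hA : A.IsSymm) (he : ∀ x, 0 < e x) {z : ι} {D : ℝ} (hD : DensLe D (ν z))
    {Ψ Ψ' : (ι → ℝ) → ℝ≥0∞} (hΨ : Measurable Ψ) (hle : ∀ v u, Ψ (update v z u) ≤ Ψ' v) :
    ∫⁻ v, ENNReal.ofReal (mm A (WV E e v) z) * Ψ v ∂(Measure.pi ν) ≤
      ENNReal.ofReal (Real.pi * D) * ∫⁻ v, Ψ' v ∂(Measure.pi ν) := by
  have hm : Measurable fun v : ι → ℝ => ENNReal.ofReal (mm A (WV E e v) z) :=
    (measurable_mmv z).ennreal_ofReal
  rw [lint_resample z (F := fun v => ENNReal.ofReal (mm A (WV E e v) z) * Ψ v) (hm.mul hΨ),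
    ← lintegral_const_mul' _ _ ENNReal.ofReal_ne_top]
  refine lintegral_mono fun v => ?_
  calc ∫⁻ u, ENNReal.ofReal (mm A (WV E e (update v z u)) z) * Ψ (update v z u) ∂(ν z)
      ≤ ∫⁻ u, ENNReal.ofReal (mm A (WV E e (update v z u)) z) * Ψ' v ∂(ν z) :=
        lintegral_mono fun u => mul_le_mul_right (hle v u) _
    _ = (∫⁻ u, ENNReal.ofReal (mm A (WV E e (update v z u)) z) ∂(ν z)) * Ψ' v := by
        refine lintegral_mul_const _ ?_
        exact hm.comp (measurable_update v)
    _ ≤ ENNReal.ofReal (Real.pi * D) * Ψ' v :=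
        mul_le_mul_left (lint_mm_site hA he v z hD) _

/-- detuned configurations at `z` -/
def Det (A : Matrix ι ι ℝ) (E : ℝ) (e : ι → ℝ) (X : ℝ) (z : ι) : Set (ι → ℝ) :=
  {v | X * pw A E e v z < |v z - pc A E e v z|}

theorem measurableSet_Det (X : ℝ) (z : ι) : MeasurableSet (Det A E e X z) :=
  measurableSet_lt ((measurable_pw z).const_mul X)
    (((measurable_pi_apply z).sub (measurable_pc z)).abs)

/-- **detuned mass**: `E m_z 1{|v_z - p_z| > X w_z} ≤ 2πD/X` -/
theorem det_mass (hA : A.IsSymm) (he : ∀ x, 0 < e x) {z : ι} {D : ℝ} (hD : DensLe D (ν z))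
    {X : ℝ} (hX : 0 < X) :
    ∫⁻ v, (Det A E e X z).indicator (fun v => ENNReal.ofReal (mm A (WV E e v) z)) v
      ∂(Measure.pi ν) ≤ ENNReal.ofReal (2 * Real.pi * D / X) := by
  have hm : Measurable fun v : ι → ℝ => ENNReal.ofReal (mm A (WV E e v) z) :=
    (measurable_mmv z).ennreal_ofReal
  rw [lint_resample z (hm.indicator (measurableSet_Det X z))]
  calc _ ≤ ∫⁻ _v : ι → ℝ, ENNReal.ofReal (2 * Real.pi * D / X) ∂(Measure.pi ν) := by
        refine lintegral_mono fun v => ?_
        refine le_trans (le_of_eq ?_) (poisson_tail hD (pc A E e v z) (pw_pos (E := E) hA he v z) hX)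
        refine lintegral_congr fun u => ?_
        by_cases hu : X * pw A E e v z < |u - pc A E e v z|
        · have m1 : update v z u ∈ Det A E e X z := by
            show X * pw A E e (update v z u) z < |update v z u z - pc A E e (update v z u) z|
            rw [pw_update hA he, pc_update hA he, update_self]
            exact hu
          have m2 : u ∈ {u : ℝ | X * pw A E e v z < |u - pc A E e v z|} := hu
          rw [Set.indicator_of_mem m1, Set.indicator_of_mem m2, mm_line hA he]
        · have m1 : update v z u ∉ Det A E e X z := by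
            show ¬ X * pw A E e (update v z u) z <
              |update v z u z - pc A E e (update v z u) z|
            rw [pw_update hA he, pc_update hA he, update_self]
            exact hu
          have m2 : u ∉ {u : ℝ | X * pw A E e v z < |u - pc A E e v z|} := hu
          rw [Set.indicator_of_notMem m1, Set.indicator_of_notMem m2]
    _ = _ := by rw [lintegral_const, measure_univ, mul_one]

/-- configurations whose resonance at `z` is not near `[-a, a]` -/
def Off (A : Matrix ι ι ℝ) (E : ℝ) (e : ι → ℝ) (a σ : ℝ) (z : ι) : Set (ι → ℝ) :=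
  {v | ¬ (|pc A E e v z| ≤ a ∧ pw A E e v z ≤ σ)}

theorem measurableSet_Off (a σ : ℝ) (z : ι) : MeasurableSet (Off A E e a σ z) := by
  unfold Off
  refine MeasurableSet.compl ?_
  exact (measurableSet_le (measurable_pc z).abs measurable_const).inter
    (measurableSet_le (measurable_pw z) measurable_const)

/-- the mass of the configurations of `Off` -/
theorem off_mass (hA : A.IsSymm) (he : ∀ x, 0 < e x) {z : ι} {D : ℝ} (hD : DensLe D (ν z))
    (a σ : ℝ) :
    ∫⁻ v, (Off A E e a σ z).indicator (fun v => ENNReal.ofReal (mm A (WV E e v) z)) v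
      ∂(Measure.pi ν) ≤
      ENNReal.ofReal (Real.pi * D) * Measure.pi ν (Off A E e a σ z) := by
  have hs := measurableSet_Off (A := A) (E := E) (e := e) a σ z
  have h1 := site_le (E := E) hA he hD (ν := ν)
    (Ψ := (Off A E e a σ z).indicator fun _ => (1 : ℝ≥0∞))
    (Ψ' := (Off A E e a σ z).indicator fun _ => (1 : ℝ≥0∞))
    (measurable_const.indicator hs) (fun v u => le_of_eq ?_)
  · rw [lintegral_indicator_const hs, one_mul] at h1
    refine le_trans (le_of_eq (lintegral_congr fun v => ?_)) h1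
    by_cases hv : v ∈ Off A E e a σ z
    · rw [Set.indicator_of_mem hv, Set.indicator_of_mem hv, mul_one]
    · rw [Set.indicator_of_notMem hv, Set.indicator_of_notMem hv, mul_zero]
  · have hiff : update v z u ∈ Off A E e a σ z ↔ v ∈ Off A E e a σ z := by
      show (¬ (|pc A E e (update v z u) z| ≤ a ∧ pw A E e (update v z u) z ≤ σ)) ↔
        ¬ (|pc A E e v z| ≤ a ∧ pw A E e v z ≤ σ)
      rw [pc_update hA he, pw_update hA he]
    by_cases hv : v ∈ Off A E e a σ z
    · rw [Set.indicator_of_mem hv, Set.indicator_of_mem (hiff.2 hv)]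
    · rw [Set.indicator_of_notMem hv, Set.indicator_of_notMem fun h => hv (hiff.1 h)]

/-- **edge mass**: `E m_z 1{|v_z| > a'} ≤ πD P(Off) + σ/(a'-a)²` -/
theorem edge_mass (hA : A.IsSymm) (he : ∀ x, 0 < e x) {z : ι} {D : ℝ} (hD : DensLe D (ν z))
    {a a' σ : ℝ} (haa : a < a') :
    ∫⁻ v, {v : ι → ℝ | a' < |v z|}.indicator
        (fun v => ENNReal.ofReal (mm A (WV E e v) z)) v ∂(Measure.pi ν) ≤
      ENNReal.ofReal (Real.pi * D) * Measure.pi ν (Off A E e a σ z) +
        ENNReal.ofReal (σ / (a' - a) ^ 2) := by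
  have hm : Measurable fun v : ι → ℝ => ENNReal.ofReal (mm A (WV E e v) z) :=
    (measurable_mmv z).ennreal_ofReal
  have hs := measurableSet_Off (A := A) (E := E) (e := e) a σ z
  calc ∫⁻ v, {v : ι → ℝ | a' < |v z|}.indicator
        (fun v => ENNReal.ofReal (mm A (WV E e v) z)) v ∂(Measure.pi ν)
      ≤ ∫⁻ v, ((Off A E e a σ z).indicator (fun v => ENNReal.ofReal (mm A (WV E e v) z)) v +
          ENNReal.ofReal (σ / (a' - a) ^ 2)) ∂(Measure.pi ν) := by
        refine lintegral_mono fun v => ?_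
        by_cases h1 : v ∈ {v : ι → ℝ | a' < |v z|}
        · rw [Set.indicator_of_mem h1]
          by_cases h2 : v ∈ Off A E e a σ z
          · rw [Set.indicator_of_mem h2]
            exact le_self_add
          · rw [Set.indicator_of_notMem h2, zero_add]
            refine ENNReal.ofReal_le_ofReal ?_
            have h3 : |pc A E e v z| ≤ a ∧ pw A E e v z ≤ σ := by
              by_contra hcon
              exact h2 hcon
            have h4 : a' < |v z| := h1
            have h5 : a' - a ≤ |v z - pc A E e v z| := by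
              have := abs_sub_abs_le_abs_sub (v z) (pc A E e v z)
              linarith [h3.1]
            have h6 : (a' - a) ^ 2 ≤ (v z - pc A E e v z) ^ 2 := by
              rw [← sq_abs (v z - pc A E e v z)]
              exact pow_le_pow_left₀ (by linarith) h5 2
            have h7 : 0 < (a' - a) ^ 2 := by
              have : 0 < a' - a := by linarith
              positivity
            have h8 := pw_pos (E := E) hA he v z
            rw [mm_pt hA he]
            calc pw A E e v z / ((v z - pc A E e v z) ^ 2 + pw A E e v z ^ 2)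
                ≤ pw A E e v z / (a' - a) ^ 2 := by
                  refine div_le_div_of_nonneg_left h8.le h7 ?_
                  nlinarith [sq_nonneg (pw A E e v z)]
              _ ≤ σ / (a' - a) ^ 2 := div_le_div_of_nonneg_right h3.2 h7.le
        · rw [Set.indicator_of_notMem h1]
          exact zero_le
    _ = ∫⁻ v, (Off A E e a σ z).indicator (fun v => ENNReal.ofReal (mm A (WV E e v) z)) v
          ∂(Measure.pi ν) + ENNReal.ofReal (σ / (a' - a) ^ 2) := by
        rw [lintegral_add_right _ measurable_const, lintegral_const, measure_univ, mul_one]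
    _ ≤ _ := by
        gcongr
        exact off_mass hA he hD a σ

/-- the sum of the masses in `B` -/
noncomputable def SB (A : Matrix ι ι ℝ) (b : ι → ℝ) (B : Finset ι) (W : ι → ℂ) : ℝ :=
  ∑ y ∈ B, b y * mm A W y

theorem measurable_SB (b : ι → ℝ) (B : Finset ι) :
    Measurable fun v : ι → ℝ => SB A b B (WV E e v) := by
  unfold SB
  exact Finset.measurable_sum _ fun y _ => (measurable_mmv y).const_mul _

theorem SB_nonneg (hA : A.IsSymm) (he : ∀ x, 0 < e x) {b : ι → ℝ} (hb : ∀ x, 0 ≤ b x)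
    (B : Finset ι) (v : ι → ℝ) : 0 ≤ SB A b B (WV E e v) :=
  Finset.sum_nonneg fun y _ => mul_nonneg (hb y) (mm_nonneg' hA he v y)

theorem WV_eq_Wc (E : ℝ) (e v : ι → ℝ) :
    WV E e v = Poi.Wc (fun _ => -E) (fun _ => 1) e v := by
  funext x
  unfold WV Poi.Wc
  push_cast
  ring

/-- a real shift of one potential changes `SB` by at most one -/
theorem SB_shift (hA : A.IsSymm) (he : ∀ x, 0 < e x) {b : ι → ℝ} (hb : ∀ x, 0 ≤ b x)
    (hbe : ∀ x, b x ≤ e x) (B : Finset ι) (v : ι → ℝ) (z : ι) (u : ℝ) :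
    |SB A b B (WV E e (update v z u)) - SB A b B (WV E e v)| ≤ 1 := by
  have h := Poi.shift_le_one (U := fun _ => -E) (g := fun _ => (1 : ℝ)) hA he hb hbe B v z u
  rw [WV_eq_Wc, WV_eq_Wc]
  exact h

/-- `E S_B ≤ ∑_B b π D` -/
theorem lint_SB_le (hA : A.IsSymm) (he : ∀ x, 0 < e x) {b : ι → ℝ} (hb : ∀ x, 0 ≤ b x)
    (B : Finset ι) {D : ι → ℝ} (hD0 : ∀ y ∈ B, 0 ≤ D y) (hD : ∀ y ∈ B, DensLe (D y) (ν y)) :
    ∫⁻ v, ENNReal.ofReal (SB A b B (WV E e v)) ∂(Measure.pi ν) ≤
      ENNReal.ofReal (∑ y ∈ B, b y * (Real.pi * D y)) := by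
  have h1 : ∀ v : ι → ℝ, ENNReal.ofReal (SB A b B (WV E e v)) =
      ∑ y ∈ B, ENNReal.ofReal (b y) * ENNReal.ofReal (mm A (WV E e v) y) := by
    intro v
    rw [SB, ENNReal.ofReal_sum_of_nonneg fun y _ => mul_nonneg (hb y) (mm_nonneg' hA he v y)]
    exact Finset.sum_congr rfl fun y _ => ENNReal.ofReal_mul (hb y)
  simp_rw [h1]
  rw [lintegral_finsetSum _ fun y _ => ((measurable_mmv y).ennreal_ofReal).const_mul _,
    ENNReal.ofReal_sum_of_nonneg fun y hy =>
      mul_nonneg (hb y) (mul_nonneg Real.pi_pos.le (hD0 y hy))]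
  refine Finset.sum_le_sum fun y hy => ?_
  rw [lintegral_const_mul' _ _ ENNReal.ofReal_ne_top, ENNReal.ofReal_mul (hb y)]
  gcongr
  exact lint_mm_le hA he ν y (hD y hy)

/-- `E m_z S_B ≤ πD (∑_B b π D + 1)` -/
theorem lint_mm_SB_le (hA : A.IsSymm) (he : ∀ x, 0 < e x) {b : ι → ℝ} (hb : ∀ x, 0 ≤ b x)
    (hbe : ∀ x, b x ≤ e x) (B : Finset ι) {D : ι → ℝ} (hD0 : ∀ y ∈ B, 0 ≤ D y)
    (hD : ∀ y ∈ B, DensLe (D y) (ν y)) {z : ι} {Dz : ℝ} (hDz : DensLe Dz (ν z)) :
    ∫⁻ v, ENNReal.ofReal (mm A (WV E e v) z) * ENNReal.ofReal (SB A b B (WV E e v))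
      ∂(Measure.pi ν) ≤
      ENNReal.ofReal (Real.pi * Dz) *
        ENNReal.ofReal (∑ y ∈ B, b y * (Real.pi * D y) + 1) := by
  refine (site_le (E := E) hA he hDz (ν := ν)
    (Ψ := fun v => ENNReal.ofReal (SB A b B (WV E e v)))
    (Ψ' := fun v => ENNReal.ofReal (SB A b B (WV E e v)) + 1)
    (measurable_SB b B).ennreal_ofReal (fun v u => ?_)).trans ?_
  · have h := SB_shift (E := E) hA he hb hbe B v z u
    have h2 := (abs_le.1 h).2
    have h3 : (1 : ℝ≥0∞) = ENNReal.ofReal 1 := by simp
    rw [h3, ← ENNReal.ofReal_add (SB_nonneg hA he hb B v) zero_le_one]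
    exact ENNReal.ofReal_le_ofReal (by linarith)
  · gcongr
    rw [lintegral_add_right _ measurable_const, lintegral_const, measure_univ, mul_one,
      ENNReal.ofReal_add (Finset.sum_nonneg fun y hy =>
        mul_nonneg (hb y) (mul_nonneg Real.pi_pos.le (hD0 y hy))) zero_le_one,
      ENNReal.ofReal_one]
    gcongr
    exact lint_SB_le hA he hb B hD0 hD

/-- mass of the configurations with a crowded ball: `E m_z 1{S_B > L} ≤ πD (∑_B b π D + 1)/L` -/
theorem crowd_mass (hA : A.IsSymm) (he : ∀ x, 0 < e x) {b : ι → ℝ} (hb : ∀ x, 0 ≤ b x)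
    (hbe : ∀ x, b x ≤ e x) (B : Finset ι) {D : ι → ℝ} (hD0 : ∀ y ∈ B, 0 ≤ D y)
    (hD : ∀ y ∈ B, DensLe (D y) (ν y)) {z : ι} {Dz : ℝ} (hDz : DensLe Dz (ν z)) {L : ℝ}
    (hL : 0 < L) :
    ∫⁻ v, {v : ι → ℝ | L < SB A b B (WV E e v)}.indicator
        (fun v => ENNReal.ofReal (mm A (WV E e v) z)) v ∂(Measure.pi ν) ≤
      ENNReal.ofReal (1 / L) * (ENNReal.ofReal (Real.pi * Dz) *
        ENNReal.ofReal (∑ y ∈ B, b y * (Real.pi * D y) + 1)) := by
  refine le_trans ?_ (mul_le_mul_right (lint_mm_SB_le (E := E) hA he hb hbe B hD0 hD hDz) _)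
  rw [← lintegral_const_mul' _ _ ENNReal.ofReal_ne_top]
  refine lintegral_mono fun v => ?_
  by_cases hv : v ∈ {v : ι → ℝ | L < SB A b B (WV E e v)}
  · rw [Set.indicator_of_mem hv]
    have h1 : L < SB A b B (WV E e v) := hv
    have hm := mm_nonneg' (E := E) hA he v z
    have hS := SB_nonneg (E := E) hA he hb B v
    rw [← ENNReal.ofReal_mul hm, ← ENNReal.ofReal_mul (by positivity)]
    refine ENNReal.ofReal_le_ofReal ?_
    have h2 : 1 ≤ 1 / L * SB A b B (WV E e v) := by
      rw [one_div, ← div_eq_inv_mul, le_div_iff₀ hL]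
      linarith
    calc mm A (WV E e v) z = mm A (WV E e v) z * 1 := (mul_one _).symm
      _ ≤ mm A (WV E e v) z * (1 / L * SB A b B (WV E e v)) := mul_le_mul_of_nonneg_left h2 hm
      _ = _ := by ring
  · rw [Set.indicator_of_notMem hv]
    exact zero_le

/-- configurations with a small diagonal entry at `z` -/
theorem small_mass {z : ι} {d0 : ℝ} :
    ∫⁻ v, {v : ι → ℝ | ‖Gr A (WV E e v) z z‖ < d0}.indicator
        (fun v => ENNReal.ofReal (mm A (WV E e v) z)) v ∂(Measure.pi ν) ≤
      ENNReal.ofReal d0 := by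
  calc _ ≤ ∫⁻ _v : ι → ℝ, ENNReal.ofReal d0 ∂(Measure.pi ν) := by
        refine lintegral_mono fun v => ?_
        by_cases hv : v ∈ {v : ι → ℝ | ‖Gr A (WV E e v) z z‖ < d0}
        · rw [Set.indicator_of_mem hv]
          refine ENNReal.ofReal_le_ofReal ?_
          exact ((le_abs_self _).trans (Complex.abs_im_le_norm _)).trans (le_of_lt hv)
        · rw [Set.indicator_of_notMem hv]
          exact zero_le
    _ = _ := by rw [lintegral_const, measure_univ, mul_one]

/-! ### the good sites -/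

/-- a good site: resonance seen from the actual potential, entry not small, potential in the flat
part of the law -/
structure Gd (A : Matrix ι ι ℝ) (E : ℝ) (e : ι → ℝ) (X d0 a' : ℝ) (v : ι → ℝ) (z : ι) : Prop where
  tuned : |v z - pc A E e v z| ≤ X * pw A E e v z
  big : d0 ≤ ‖Gr A (WV E e v) z z‖
  flat : |v z| ≤ a'

theorem measurable_Grv (z : ι) : Measurable fun v : ι → ℝ => Gr A (WV E e v) z z :=
  (measurable_Gr_id z z).comp (measurable_WV E e)

theorem measurableSet_Gd (X d0 a' : ℝ) (z : ι) :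
    MeasurableSet {v : ι → ℝ | Gd A E e X d0 a' v z} := by
  have h : {v : ι → ℝ | Gd A E e X d0 a' v z} =
      {v | |v z - pc A E e v z| ≤ X * pw A E e v z} ∩
        ({v | d0 ≤ ‖Gr A (WV E e v) z z‖} ∩ {v | |v z| ≤ a'}) := by
    ext v
    exact ⟨fun h => ⟨h.1, h.2, h.3⟩, fun h => ⟨h.1, h.2.1, h.2.2⟩⟩
  rw [h]
  refine (measurableSet_le (((measurable_pi_apply z).sub (measurable_pc z)).abs)
    ((measurable_pw z).const_mul X)).inter
    ((measurableSet_le measurable_const (measurable_Grv z).norm).inter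
      (measurableSet_le (measurable_pi_apply z).abs measurable_const))

/-- **bad mass of one site** -/
theorem bad_mass (hA : A.IsSymm) (he : ∀ x, 0 < e x) {z : ι} {D : ℝ} (hD0 : 0 ≤ D)
    (hD : DensLe D (ν z)) {X d0 a a' σ : ℝ} (hX : 0 < X) (hd0 : 0 ≤ d0) (haa : a < a')
    (hσ : 0 ≤ σ) :
    ∫⁻ v, {v : ι → ℝ | ¬ Gd A E e X d0 a' v z}.indicator
        (fun v => ENNReal.ofReal (mm A (WV E e v) z)) v ∂(Measure.pi ν) ≤
      ENNReal.ofReal (d0 + 2 * Real.pi * D / X + σ / (a' - a) ^ 2) +
        ENNReal.ofReal (Real.pi * D) * Measure.pi ν (Off A E e a σ z) := by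
  have hpi := Real.pi_pos
  have hm : Measurable fun v : ι → ℝ => ENNReal.ofReal (mm A (WV E e v) z) :=
    (measurable_mmv z).ennreal_ofReal
  have ms1 : MeasurableSet {v : ι → ℝ | ‖Gr A (WV E e v) z z‖ < d0} :=
    measurableSet_lt (measurable_Grv z).norm measurable_const
  have ms3 : MeasurableSet {v : ι → ℝ | a' < |v z|} :=
    measurableSet_lt measurable_const (measurable_pi_apply z).abs
  have ms2 := measurableSet_Det (A := A) (E := E) (e := e) X z
  calc _ ≤ ∫⁻ v, (({v : ι → ℝ | ‖Gr A (WV E e v) z z‖ < d0}.indicator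
          (fun v => ENNReal.ofReal (mm A (WV E e v) z)) v +
        (Det A E e X z).indicator (fun v => ENNReal.ofReal (mm A (WV E e v) z)) v) +
        {v : ι → ℝ | a' < |v z|}.indicator (fun v => ENNReal.ofReal (mm A (WV E e v) z)) v)
          ∂(Measure.pi ν) := by
        refine lintegral_mono fun v => ?_
        by_cases hv : v ∈ {v : ι → ℝ | ¬ Gd A E e X d0 a' v z}
        · rw [Set.indicator_of_mem hv]
          by_cases h1 : v ∈ {v : ι → ℝ | ‖Gr A (WV E e v) z z‖ < d0}
          · rw [Set.indicator_of_mem h1, add_assoc]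
            exact le_self_add
          · by_cases h2 : v ∈ Det A E e X z
            · rw [Set.indicator_of_notMem h1, Set.indicator_of_mem h2, zero_add]
              exact le_self_add
            · have h3 : v ∈ {v : ι → ℝ | a' < |v z|} := by
                by_contra hcon
                exact hv ⟨not_lt.1 h2, not_lt.1 h1, not_lt.1 hcon⟩
              rw [Set.indicator_of_notMem h1, Set.indicator_of_notMem h2,
                Set.indicator_of_mem h3, zero_add, zero_add]
        · rw [Set.indicator_of_notMem hv]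
          exact zero_le
    _ ≤ (ENNReal.ofReal d0 + ENNReal.ofReal (2 * Real.pi * D / X)) +
          (ENNReal.ofReal (Real.pi * D) * Measure.pi ν (Off A E e a σ z) +
            ENNReal.ofReal (σ / (a' - a) ^ 2)) := by
        have k1 := hm.indicator ms1
        have k2 := hm.indicator ms2
        have k3 := hm.indicator ms3
        rw [lintegral_add_right _ k3, lintegral_add_right _ k2]
        exact add_le_add (add_le_add small_mass (det_mass hA he hD hX))
          (edge_mass hA he hD haa)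
    _ = _ := by
        have h4 : 0 ≤ σ / (a' - a) ^ 2 := by positivity
        have h5 : 0 ≤ 2 * Real.pi * D / X := by positivity
        rw [ENNReal.ofReal_add (by positivity) h4, ENNReal.ofReal_add hd0 h5]
        ring

end site

end P365Z
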