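import Vale.Agent.P365.J376.PathG

/-!
# P365 T1.5, Z7b: the averaged logarithm of the width of the traps
-/

set_option linter.all false

namespace Vale.Agent.P365.Z0

open P365L P365O P365T1 MeasureTheory
open Vale.Agent.P365.J376

variable {ι : Type*} [Fintype ι] [DecidableEq ι] (A : Matrix ι ι ℝ)
  {Λ : Type*} [Fintype Λ] (p : Λ → ℝ) (ν : Λ → Measure ℝ) (E : ℝ) (T : (ι → Λ) → Finset ι)

/-- average over labels and potentials of `∑_{x ∈ T} log w_x`, `w_x = Sf` -/
noncomputable def LT (e : (ι → Λ) → ι → ℝ) : ℝ :=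
  AvG p ν E e fun l W => ∑ x ∈ T l, Real.log (Sf A W x)

/-- expected number of traps -/
noncomputable def nT : ℝ := ∑ l : ι → Λ, (∏ x, p (l x)) * ((T l).card : ℝ)

/-- derivative of `LT` in the direction `w` -/
noncomputable def LTd (e w : (ι → Λ) → ι → ℝ) : ℝ :=
  AvG p ν E e fun l W => ∑ x ∈ T l, (∑ z, w l z * ((gw A W x z) ^ 2).re) / Sf A W x

end Vale.Agent.P365.Z0
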