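import Vale.Agent.P365.J376.V3Main
import Vale.Agent.P365.T1.Flow394
import Vale.Agent.P365.Z0.Bad
import Vale.Agent.P365.Z0.IntegDefs
import Vale.Agent.P365.Z0.Fin700

/-!
# P365 T1.5 (zero-dimensional spectrum for the exact law): literal interfaces

Coordinator: helper556.  Every `def ... : Prop` below is the conclusion of one block.
-/

set_option linter.all false

namespace P365Z

open P365L P365L.TL P365O P365T1 Vale.Agent.P365.J376 Vale.Agent.P365.Z0 MeasureTheory Set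
open P365T1.Conc P365T1.Seq
open scoped ENNReal

/-! ### Z1: the loss kept from 77's identity `dEn_eq2` -/

section gen

variable {ι : Type*} [Fintype ι] [DecidableEq ι] (A : Matrix ι ι ℝ)

/-- kept loss: the first term of `dEn_eq2`, equal to `4 m_z μ_z² (m_z/|G_zz|)²` -/
noncomputable def Lz (W : ι → ℂ) (f : ι → ℝ) (z : ι) : ℝ :=
  4 * Bf A W f z ^ 2 * Sf A W z * ‖Gr A W z z‖ ^ 4

/-- averaged loss in the direction `w` -/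
noncomputable def LossG {Λ : Type*} [Fintype Λ] (p : Λ → ℝ) (ν : Λ → Measure ℝ) (E : ℝ)
    {κ : Type*} [Fintype κ] (f : κ → ι → ℝ) (e w : (ι → Λ) → ι → ℝ) : ℝ :=
  AvG p ν E e fun l W => ∑ x, w l x * ∑ k, Lz A W (f k) x

end gen

/-- the cost inequality with the loss kept -/
def CostLeL (E C : ℝ) (ν : Measure ℝ) : Prop :=
  ∀ (ι : Type) [Fintype ι] [DecidableEq ι] (A : Matrix ι ι ℝ) (W : ι → ℂ) (f : ι → ℝ) (z : ι),
    A.IsSymm → (∀ x, (W x).im < 0) →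
      (∫ v, Lz A (rez W z (v - E)) f z ∂ν) - (∫ v, dEn A (rez W z (v - E)) f z ∂ν) ≤
        C * Yf A W f z

/-- `V3.Hubs` with the stronger cost inequality -/
structure HubsL (D : V3) (ρ : Measure ℝ) (E C : ℝ) (N : ℕ) [NeZero N] : Prop where
  ok : D.Ok ρ
  ex : ∃ (Ca : ℝ) (ηc ηb : ℕ → ℝ), 0 ≤ Ca ∧ (∀ i ≤ D.I, 0 ≤ ηc i) ∧ (∀ i ≤ D.I, 0 ≤ ηb i) ∧
    (∀ k, D.mov k → CostLeL E Ca (D.ν k)) ∧
    (∀ i ≤ D.I, ∀ s ∈ Ioo (D.t (i + 1)) 1, D.HC N E i s (ηc i)) ∧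
    (∀ i ≤ D.I, ∀ s ∈ Ioo (D.t (i + 1)) 1, D.HB N E i s (ηb i) (C * (N : ℝ) ^ 2)) ∧
    10 * Real.log (1 / D.t 0) + ∑ i ∈ Finset.range (D.I + 1),
      Ca * (ηc i + ηb i) * Real.log (1 / D.t (i + 1)) ≤ C

/-- **Z1** (helper327): energy bound and integrated loss on the last stage -/
def Z1 : Prop :=
  (∀ E lam l : ℝ, 0 < l → l < lam → ∃ Ca : ℝ, 0 ≤ Ca ∧ CostLeL E Ca (nuS lam l)) ∧
  ∀ C : ℝ, 88 ≤ C → ∃ C1 : ℝ, 0 < C1 ∧ ∀ (D : V3) (ρ : Measure ℝ) (E : ℝ) (N : ℕ) [NeZero N],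
    HubsL D ρ E C N →
      (∀ s ∈ Icc (D.t (D.I + 1)) 1,
        PhiG (AT N) D.p D.ν E (phi N) (D.prof (D.I + 1) s) ≤ C1 * (N : ℝ) ^ 2) ∧
      IntervalIntegrable (fun s => LossG (AT N) D.p D.ν E (phi N) (D.prof (D.I + 1) s)
        (D.Ws (D.I + 1))) volume (D.t (D.I + 1)) 1 ∧
      ∫ s in (D.t (D.I + 1))..1, LossG (AT N) D.p D.ν E (phi N) (D.prof (D.I + 1) s)
        (D.Ws (D.I + 1)) ≤ C1 * (N : ℝ) ^ 2

/-! ### the trap world (fixed strength) -/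

/-- a world of traps: labels with masses `p` and laws `ν`, profile `e`, traps `T l`; `ε` = trap
absorption, `q` = number of traps per site, `η` = everything that is small -/
structure TW (N : ℕ) [NeZero N] {Λ : Type} [Fintype Λ] (p : Λ → ℝ) (ν : Λ → Measure ℝ) (E : ℝ)
    (e : (Tor N → Λ) → Tor N → ℝ) (T : (Tor N → Λ) → Finset (Tor N))
    (Dt c0 a a' dl C0 ε q η : ℝ) (Dn : Λ → ℝ) : Prop where
  prob : ∀ k, IsProbabilityMeasure (ν k)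
  p_nonneg : ∀ k, 0 ≤ p k
  p_sum : ∑ k, p k = 1
  eps_pos : 0 < ε
  eps_le : ε ≤ η
  q_pos : 0 < q
  e_pos : ∀ l x, 0 < e l x
  e_lo : ∀ l, ∀ x ∈ T l, ε ≤ e l x
  e_hi : ∀ l, ∀ x ∈ T l, e l x ≤ 3 * ε
  /-- bounded density at the traps -/
  dens : ∀ l, ∀ x ∈ T l, DensLe Dt (ν (l x))
  /-- density at least `c0` on `[-(a' + dl), a' + dl]` at the traps -/
  core : ∀ l, ∀ x ∈ T l, DensGe c0 (a' + dl) (ν (l x))
  Dn_nonneg : ∀ k, 0 ≤ Dn k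
  densN : ∀ k, DensLe (Dn k) (ν k)
  /-- everything outside of the traps is negligible -/
  bulk : ∀ l, ∀ x ∉ T l, e l x * (1 + Dn (l x)) ≤ η * (q * ε)
  /-- (Z6) the resonances of the traps are inside and narrow -/
  loc : ∀ l, ∀ x ∈ T l, Measure.pi (fun y => ν (l y)) (Off (AT N) E (e l) a η x) ≤
    ENNReal.ofReal η
  /-- (Z4) number of traps -/
  card : nT p T = q * (N : ℝ) ^ 2
  /-- (Z4) number of pairs of traps -/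
  pair : ∀ r : ℝ, 0 ≤ r → ∑ l : Tor N → Λ, (∏ x, p (l x)) *
    (((T l ×ˢ T l).filter fun u => (nrm (u.1 - u.2) : ℝ) ≤ r ∧ u.1 ≠ u.2).card : ℝ) ≤
      C0 * (q * (N : ℝ) ^ 2) * (1 + q * r ^ 2)

/-- **Z5a** (helper351, second 159): small loss forces small near energy between traps -/
def StatT : Prop :=
  ∀ Dt c0 a a' dl C0 R θ : ℝ, 0 < Dt → 0 < c0 → 0 ≤ a → a < a' → 0 < dl → 0 < C0 → 0 < R → 0 < θ →
    ∃ η : ℝ, 0 < η ∧ η ≤ 1 ∧ ∀ (N : ℕ) [NeZero N] (Λ : Type) [Fintype Λ] (p : Λ → ℝ)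
      (ν : Λ → Measure ℝ) (E : ℝ) (e : (Tor N → Λ) → Tor N → ℝ)
      (T : (Tor N → Λ) → Finset (Tor N)) (ε q : ℝ) (Dn : Λ → ℝ) (k : Fin 4),
      TW N p ν E e T Dt c0 a a' dl C0 ε q η Dn →
      PhiG (AT N) p ν E (phi N) e ≤ C0 * (N : ℝ) ^ 2 →
      AvG p ν E e (fun l W => ∑ x ∈ T l, e l x * Lz (AT N) W (phi N k) x) ≤
        η * (N : ℝ) ^ 2 →
      AvG p ν E e (fun l W => ∑ x ∈ T l, ∑ y ∈ (T l).filter
        (fun y => (nrm (x - y) : ℝ) ≤ R / Real.sqrt (q * ε)),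
          e l x * e l y * KK (AT N) W x y * (phi N k x - phi N k y) ^ 2) ≤ θ * (N : ℝ) ^ 2

/-- **Z5b** (from `StatT`): the far mass between traps is small -/
def FarT : Prop :=
  ∀ Dt c0 a a' dl C0 κ δ : ℝ, 0 < Dt → 0 < c0 → 0 ≤ a → a < a' → 0 < dl → 0 < C0 → 0 < κ → 0 < δ →
    ∃ η : ℝ, 0 < η ∧ η ≤ 1 ∧ ∀ (N : ℕ) [NeZero N] (Λ : Type) [Fintype Λ] (p : Λ → ℝ)
      (ν : Λ → Measure ℝ) (E : ℝ) (e : (Tor N → Λ) → Tor N → ℝ)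
      (T : (Tor N → Λ) → Finset (Tor N)) (ε q : ℝ) (Dn : Λ → ℝ),
      TW N p ν E e T Dt c0 a a' dl C0 ε q η Dn →
      PhiG (AT N) p ν E (phi N) e ≤ C0 * (N : ℝ) ^ 2 →
      AvG p ν E e (fun l W => ∑ x ∈ T l, e l x * ∑ k, Lz (AT N) W (phi N k) x) ≤
        η * (N : ℝ) ^ 2 →
      AvG p ν E e (fun l W => ∑ x ∈ T l, ∑ y ∈ (T l).filter
        (fun y => κ / Real.sqrt (q * ε) < (nrm (x - y) : ℝ)),
          e l y * KK (AT N) W x y) ≤ δ * nT p T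

/-! ### the concrete chain -/

/-- traps: centres of the matched blocks of the last family -/
noncomputable def Tc (D : V3) {N : ℕ} [NeZero N] (l : Tor N → D.Λ) : Finset (Tor N) := by
  classical
  exact Finset.univ.filter fun x => D.cen D.I l x

/-- **Z12** the last stage of the concrete chain is a trap world at all strengths
`s ≥ exp (K r_I³) b` -/
def Z12 (lam : ℝ) : Prop :=
  ∀ E : ℝ, |E| < 4 + lam → ∃ (lam' : ℝ) (yf : ℕ → ℤ × ℤ) (Vsf : ℕ → ℤ × ℤ → ℝ) (R₀ : ℕ)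
    (Dt c0 a a' dl C0 K : ℝ), 0 < lam' ∧ lam' < lam ∧ 0 < Dt ∧ 0 < c0 ∧ 0 ≤ a ∧ a < a' ∧ 0 < dl ∧
    0 < C0 ∧ 0 < K ∧ (∀ r, R₀ ≤ r → yf r ∈ P365SH.Xr r) ∧ (∀ r z, |Vsf r z| ≤ lam') ∧
    ∀ rs, R₀ ≤ rs → ∀ η : ℝ, 0 < η → ∃ I₀ : ℕ, ∀ I, I₀ ≤ I → AdmS lam yf Vsf rs I →
      ∃ N₁ : ℕ, ∀ N : ℕ, N₁ ≤ N → (∀ i ≤ I, mS rs i ∣ N) → ∀ _ : NeZero N,
        (∀ i ≤ I, ∀ s ∈ Ioo (tS rs I (i + 1)) 1,
          (DD (pS yf rs I) (nuD lam yf Vsf rs I)).HC N E i s (1 / (rr rs i : ℝ) ^ 30)) ∧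
        ∃ (q : ℝ) (Dn : (PP yf rs I).Lb → ℝ), Real.exp (-(K * (rr rs I : ℝ) ^ 3)) ≤ q ∧
          ∀ s : ℝ, bS rs I * Real.exp (K * (rr rs I : ℝ) ^ 3) ≤ s → s ≤ 1 →
            TW N (pS yf rs I) (nuD lam yf Vsf rs I) E
              ((DD (pS yf rs I) (nuD lam yf Vsf rs I)).prof (I + 1) s)
              (Tc (DD (pS yf rs I) (nuD lam yf Vsf rs I))) Dt c0 a a' dl C0
              (s * e0S rs I) q η Dn

/-- **Z7b** (helper851, second 550): the averaged log-width of the traps in the homogeneous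
world -/
def LogT (lam : ℝ) : Prop :=
  ∀ E : ℝ, |E| < 4 + lam → ∃ (lam' : ℝ) (yf : ℕ → ℤ × ℤ) (Vsf : ℕ → ℤ × ℤ → ℝ) (R : ℕ),
    lam' < lam ∧ (∀ r, R ≤ r → yf r ∈ P365SH.Xr r) ∧ (∀ r z, |Vsf r z| ≤ lam') ∧
    ∀ rs, R ≤ rs → ∀ δ : ℝ, 0 < δ → ∃ I₀ : ℕ, ∀ I, I₀ ≤ I → AdmS lam yf Vsf rs I →
      ∃ N₁ : ℕ, ∀ N : ℕ, N₁ ≤ N → (∀ i ≤ I, mS rs i ∣ N) → ∀ _ : NeZero N,
        LT (AT N) (pS yf rs I) (nuD lam yf Vsf rs I) E
            (Tc (DD (pS yf rs I) (nuD lam yf Vsf rs I))) (fun _ _ => bS rs I) ≤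
          -((1 - δ) * Real.log (1 / bS rs I)) *
            nT (pS yf rs I) (Tc (N := N) (DD (pS yf rs I) (nuD lam yf Vsf rs I)))

/-- **Z8** (helper594): the exact iid law.  The sequence `bS rs I` does not depend on `E`. -/
def LogIn (lam : ℝ) : Prop :=
  ∀ E : ℝ, |E| < 4 + lam → ∃ R : ℕ, ∀ rs, R ≤ rs → ∀ δ : ℝ, 0 < δ → ∃ I₀ : ℕ, ∀ I, I₀ ≤ I →
    ∀ N₀ : ℕ, ∃ N, N₀ ≤ N ∧ ∃ _ : NeZero N,
      ∫ v, Real.log (Sf (AT N) (Wh E (bS rs I) v) 0) ∂(Measure.pi fun _ : Tor N => nuL lam) ≤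
        -((1 - δ) * Real.log (1 / bS rs I))

/-- **end** (Z9 = 436 landed, Z10 = 562, Z11 = 700) -/
def ZeroDim (lam : ℝ) : Prop :=
  ∀ {Ω : Type} [MeasurableSpace Ω] (P : Measure Ω) [IsProbabilityMeasure P] (w : Site → Ω → ℝ),
    (∀ x, Measurable (w x)) → ProbabilityTheory.iIndepFun w P →
    (∀ x, P.map (w x) = ProbabilityTheory.cond volume (Set.Icc (-1) 1)) →
      ∀ᵐ ω ∂P, P365Z0.F700.ZeroDimSpectrum fun x => lam * w x ω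

/-- **Z7**: `Z7 := Z1 → FarT → Z12 lam → HBconc lam → LogT lam` -/
def Z7 : Prop := ∀ lam : ℝ, 0 < lam → Z1 → FarT → Z12 lam → HBconc lam → LogT lam

/-- **Z8** -/
def Z8 : Prop := ∀ lam : ℝ, 0 < lam → LogT lam → LogIn lam

/-- **Z10** -/
def Z10 : Prop := ∀ lam : ℝ, 0 < lam → LogIn lam → ZeroDim lam

end P365Z
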