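import Vale.Agent.P365.Z0.Iface
import Vale.Agent.P365.Z0.H562.Z10G
import Vale.Agent.P365.Z0.End700
import Vale.Agent.P365.T1c.NormAll376

/-!
# P365 T1.5, Z13: everything together (skeleton)
-/

set_option linter.all false

namespace P365Z

open P365L P365L.TL P365T1.HBasm

/-- (HB) is a theorem -/
theorem hbconc {lam : ℝ} (hlam : 0 < lam) : P365T1.Conc.HBconc lam :=
  hb_conc_of hlam fun _ hE => norm_all hlam hE

/-- **Z13**: the blocks give the exact law -/
theorem logTor_of_blocks (h12 : ∀ lam : ℝ, 0 < lam → Z12 lam) (h1 : Z1) (h5 : FarT) (h7 : Z7)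
    (h8 : Z8) : ∀ lam : ℝ, 0 < lam → P365L.Z0.LogTor (nuL lam) lam := fun lam hlam =>
  P365L.Z0.logTor_of_bS (h8 lam hlam (h7 lam hlam h1 h5 (h12 lam hlam) (hbconc hlam)))

/-- the same from `LogT` alone -/
theorem logTor_of_logT (hT : ∀ lam : ℝ, 0 < lam → LogT lam) (h8 : Z8) :
    ∀ lam : ℝ, 0 < lam → P365L.Z0.LogTor (nuL lam) lam := fun lam hlam =>
  P365L.Z0.logTor_of_bS (h8 lam hlam (hT lam hlam))

end P365Z
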