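import Vale.Agent.P365.Z0.Hat622

/-!
# P365-T1.5 (block Z2): the pathwise near inequality for a general absorption profile and a set
`Tr` of allowed sites (traps); `O ⊆ Tr` allowed centres, `Gd ⊆ Tr` good sites.
-/

set_option linter.all false

namespace P365L.Z622

open Matrix Complex
open scoped ComplexConjugate

variable {ι : Type*} [Fintype ι] [DecidableEq ι]
variable {A : Matrix ι ι ℝ} {W : ι → ℂ} {φ : ι → ℝ} {ε : ℝ} {d : ι → ι → ℝ}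

/-! ### homogeneous profile, allowed set -/

/-- masses of the balls around `b` of allowed centres -/
theorem cnt (hA : A.IsSymm) (hn : ∀ x, (W x).im < 0) (hε : 0 < ε)
    (hds : ∀ x y, d x y = d y x) (hdt : ∀ x y z, d x z ≤ d x y + d y z)
    {r : ℝ} {O : Finset ι} {L : ℝ} (hL : 0 ≤ L)
    (hO : ∀ w ∈ O, ε * ∑ z ∈ Bl d w (2 * r), mm A W z ≤ L) {F : ι → ℝ} (hF0 : ∀ b, 0 ≤ F b) :
    ∑ w ∈ O, ε * mm A W w * ∑ b ∈ Bl d w r, F b ≤ L * ∑ b, F b := by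
  have h1 : ∀ w ∈ O, ε * mm A W w * ∑ b ∈ Bl d w r, F b =
      ∑ b, (if b ∈ Bl d w r then ε * mm A W w * F b else 0) := by
    intro w _
    rw [Finset.mul_sum, ← Finset.sum_filter]
    congr 1
    ext b
    simp
  rw [Finset.sum_congr rfl h1, Finset.sum_comm, Finset.mul_sum]
  refine Finset.sum_le_sum fun b _ => ?_
  have k1 : ∑ w ∈ O, (if b ∈ Bl d w r then ε * mm A W w * F b else 0) =
      (∑ w ∈ O.filter (fun w => b ∈ Bl d w r), ε * mm A W w) * F b := by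
    rw [Finset.sum_filter, Finset.sum_mul]
    refine Finset.sum_congr rfl fun w _ => ?_
    split_ifs
    · rfl
    · rw [zero_mul]
  rw [k1]
  refine mul_le_mul_of_nonneg_right ?_ (hF0 b)
  rcases (O.filter (fun w => b ∈ Bl d w r)).eq_empty_or_nonempty with he | ⟨w0, hw0⟩
  · rw [he, Finset.sum_empty]
    exact hL
  · rw [Finset.mem_filter, mem_Bl] at hw0
    refine le_trans ?_ (hO w0 hw0.1)
    rw [Finset.mul_sum]
    refine Finset.sum_le_sum_of_subset_of_nonneg ?_ fun w _ _ =>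
      mul_nonneg hε.le (mm_pos hA hn w).le
    intro w hw
    rw [Finset.mem_filter, mem_Bl] at hw
    rw [mem_Bl]
    have := hdt w b w0
    have := hds w b
    linarith [hw.2, hw0.2]

/-- the far term and the term of the sites which are not allowed, summed over the columns -/
theorem far_sum_T (hA : A.IsSymm) (hε : 0 < ε) (hW : ∀ x, (W x).im = -ε)
    (hds : ∀ x y, d x y = d y x) (hdt : ∀ x y z, d x z ≤ d x y + d y z)
    {r r' : ℝ} {O Gd Tr : Finset ι} {L : ℝ} (hL : 0 ≤ L)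
    (hO : ∀ w ∈ O, ε * ∑ z ∈ Bl d w (2 * r), mm A W z ≤ L) :
    ∑ w ∈ O, mm A W w *
      (ε * ∑ z ∈ (Bl d w r' ∩ Tr)ᶜ, ε * ∑ b ∈ Bl d w r ∩ Gd, KK A W z b) ≤
      L * (ε * ∑ b, ∑ z ∈ (Bl d b (r' - r))ᶜ, KK A W z b + ∑ z ∈ Trᶜ, mm A W z) := by
  have hn := hom_neg hε hW
  have h0 := far_sum (r' := r') (Gd := Gd) hA hε hW hds hdt hL hO
  -- the sites which are not allowed
  have h1 : ∑ w ∈ O, mm A W w * (ε * ∑ z ∈ Trᶜ, ε * ∑ b ∈ Bl d w r ∩ Gd, KK A W z b) ≤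
      L * ∑ z ∈ Trᶜ, mm A W z := by
    have k1 : ∀ w ∈ O, mm A W w * (ε * ∑ z ∈ Trᶜ, ε * ∑ b ∈ Bl d w r ∩ Gd, KK A W z b) ≤
        ε * mm A W w * ∑ b ∈ Bl d w r, ∑ z ∈ Trᶜ, ε * KK A W z b := by
      intro w _
      have hmw := mm_pos hA hn w
      have k2 : ∑ z ∈ Trᶜ, ε * ∑ b ∈ Bl d w r ∩ Gd, KK A W z b ≤
          ∑ b ∈ Bl d w r, ∑ z ∈ Trᶜ, ε * KK A W z b := by
        rw [Finset.sum_comm (s := Bl d w r)]
        refine Finset.sum_le_sum fun z _ => ?_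
        rw [← Finset.mul_sum]
        exact mul_le_mul_of_nonneg_left (Finset.sum_le_sum_of_subset_of_nonneg
          Finset.inter_subset_left fun b _ _ => KK_nonneg _ _) hε.le
      have k3 := mul_le_mul_of_nonneg_left k2 (mul_nonneg hε.le hmw.le)
      calc mm A W w * (ε * ∑ z ∈ Trᶜ, ε * ∑ b ∈ Bl d w r ∩ Gd, KK A W z b) =
            ε * mm A W w * ∑ z ∈ Trᶜ, ε * ∑ b ∈ Bl d w r ∩ Gd, KK A W z b := by ring
        _ ≤ _ := k3
    refine (Finset.sum_le_sum k1).trans ?_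
    refine (cnt hA hn hε hds hdt hL hO (F := fun b => ∑ z ∈ Trᶜ, ε * KK A W z b) fun b =>
      Finset.sum_nonneg fun z _ => mul_nonneg hε.le (KK_nonneg _ _)).trans ?_
    refine mul_le_mul_of_nonneg_left ?_ hL
    rw [Finset.sum_comm]
    refine Finset.sum_le_sum fun z _ => ?_
    rw [← Finset.mul_sum]
    have := sum_e_KK_le hA hε hW Finset.univ z
    refine le_trans (le_of_eq ?_) this
    congr 1
    exact Finset.sum_congr rfl fun b _ => KK_symm hA z b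
  have h2 : ∀ w ∈ O, mm A W w *
      (ε * ∑ z ∈ (Bl d w r' ∩ Tr)ᶜ, ε * ∑ b ∈ Bl d w r ∩ Gd, KK A W z b) ≤
      mm A W w * (ε * ∑ z ∈ (Bl d w r')ᶜ, ε * ∑ b ∈ Bl d w r ∩ Gd, KK A W z b) +
      mm A W w * (ε * ∑ z ∈ Trᶜ, ε * ∑ b ∈ Bl d w r ∩ Gd, KK A W z b) := by
    intro w _
    rw [← mul_add, ← mul_add]
    refine mul_le_mul_of_nonneg_left (mul_le_mul_of_nonneg_left ?_ hε.le) (mm_pos hA hn w).le
    have hpos : ∀ z, 0 ≤ ε * ∑ b ∈ Bl d w r ∩ Gd, KK A W z b := fun z =>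
      mul_nonneg hε.le (Finset.sum_nonneg fun b _ => KK_nonneg _ _)
    have hsub : (Bl d w r' ∩ Tr)ᶜ ⊆ (Bl d w r')ᶜ ∪ Trᶜ := by
      intro z hz
      rw [Finset.mem_compl, Finset.mem_inter, not_and_or] at hz
      rw [Finset.mem_union, Finset.mem_compl, Finset.mem_compl]
      exact hz
    refine (Finset.sum_le_sum_of_subset_of_nonneg hsub fun z _ _ => hpos z).trans ?_
    have := Finset.sum_union_inter (s₁ := (Bl d w r')ᶜ) (s₂ := Trᶜ)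
      (f := fun z => ε * ∑ b ∈ Bl d w r ∩ Gd, KK A W z b)
    have h3 : 0 ≤ ∑ z ∈ (Bl d w r')ᶜ ∩ Trᶜ, ε * ∑ b ∈ Bl d w r ∩ Gd, KK A W z b :=
      Finset.sum_nonneg fun z _ => hpos z
    linarith
  refine (Finset.sum_le_sum h2).trans ?_
  rw [Finset.sum_add_distrib, mul_add]
  linarith

/-- an allowed column -/
theorem near_ok_T (hA : A.IsSymm) (hε : 0 < ε) (hW : ∀ x, (W x).im = -ε)
    (hd0 : ∀ x, d x x = 0) (hφ : ∀ x y, |φ x - φ y| ≤ d x y)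
    {r r' : ℝ} (hr : 0 ≤ r) (hrr : r ≤ r') {Gd Tr : Finset ι} (hGT : Gd ⊆ Tr) {L L' : ℝ}
    (hL : 0 ≤ L) (hL' : 0 ≤ L') {w : ι} (hwT : w ∈ Tr)
    (hO : ε * ∑ z ∈ Bl d w (2 * r), mm A W z ≤ L)
    (hO' : ε * ∑ z ∈ Bl d w (2 * r'), mm A W z ≤ L') {t t' : ℝ} (ht : 0 < t) (ht' : 0 < t') :
    ε * ∑ z ∈ Bl d w r, KK A W z w * (φ z - φ w) ^ 2 ≤
      r ^ 2 * (ε * ∑ z ∈ Bl d w r \ Gd, KK A W z w) +
      4 / 3 * (32 * (mm A W w * muf A W φ w ^ 2) +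
      16 * (ε * ∑ z ∈ (Bl d w r' ∩ Tr).erase w, kap A W z w * ‖Tm A W φ z w‖ ^ 2) +
      2 / t * (ε * ∑ z ∈ (Bl d w r' ∩ Tr).erase w,
        (kap A W z w + lamS A W (Bl d w r ∩ Gd) z w) * ‖Tm A W φ z w‖ ^ 2) +
      t * r ^ 2 * ((L' * (2 * L + 13) + 2) * mm A W w) +
      2 / t' * (ε * ∑ z, ‖Tm A W φ z w‖ ^ 2) +
      2 * t' * r ^ 2 * (mm A W w *
        (ε * ∑ z ∈ (Bl d w r' ∩ Tr)ᶜ, ε * ∑ b ∈ Bl d w r ∩ Gd, KK A W z b))) := by
  have hn := hom_neg hε hW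
  have hmw := mm_pos hA hn w
  have hSB : Bl d w r ∩ Gd ⊆ Bl d w r' ∩ Tr := Finset.inter_subset_inter (Bl_mono hrr) hGT
  have hwB : w ∈ Bl d w r' ∩ Tr := by
    rw [Finset.mem_inter, mem_Bl, hd0]
    exact ⟨hr.trans hrr, hwT⟩
  have ha : ∀ z ∈ Bl d w r ∩ Gd, |φ z - φ w| ≤ r := fun z hz =>
    (hφ z w).trans (mem_Bl.1 (Finset.mem_inter.1 hz).1)
  have h1 := near_col (a := φ) hA hε hW hSB hwB hr ha ht ht'
  have h2 := near_bad hA hε hW hφ (Bl d w r \ Gd) (Finset.sdiff_subset (s := Bl d w r) (t := Gd))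
  have h3 : ∑ z ∈ Bl d w r, KK A W z w * (φ z - φ w) ^ 2 =
      ∑ z ∈ Bl d w r \ Gd, KK A W z w * (φ z - φ w) ^ 2 +
      ∑ z ∈ Bl d w r ∩ Gd, KK A W z w * (φ z - φ w) ^ 2 := by
    have k1 := Finset.sum_sdiff (f := fun z => KK A W z w * (φ z - φ w) ^ 2)
      (Finset.inter_subset_left (s₁ := Bl d w r) (s₂ := Gd))
    rw [Finset.sdiff_inter_self_left] at k1
    exact k1.symm
  set XB := ε * ∑ z ∈ Bl d w r' ∩ Tr, mm A W z with hXB
  set XS := ε * ∑ z ∈ Bl d w r ∩ Gd, mm A W z with hXS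
  have h4 : XB ≤ L' := (XS_mono hA hε hW
    (Finset.inter_subset_left.trans (Bl_mono (by linarith)))).trans hO'
  have h5 : XS ≤ L := (XS_mono hA hε hW
    (Finset.inter_subset_left.trans (Bl_mono (by linarith)))).trans hO
  have h6 : 0 ≤ XB := mul_nonneg hε.le (Finset.sum_nonneg fun z _ => (mm_pos hA hn z).le)
  have h7 : 0 ≤ XS := mul_nonneg hε.le (Finset.sum_nonneg fun z _ => (mm_pos hA hn z).le)
  have h8 : XB * (2 * XS + 13) + 2 ≤ L' * (2 * L + 13) + 2 := by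
    have : XB * (2 * XS + 13) ≤ L' * (2 * L + 13) := by
      apply mul_le_mul h4 (by linarith) (by linarith) hL'
    linarith
  have h9 : t * r ^ 2 * (mm A W w * (XB * (2 * XS + 13) + 2)) ≤
      t * r ^ 2 * ((L' * (2 * L + 13) + 2) * mm A W w) := by
    have := mul_le_mul_of_nonneg_left h8 (mul_nonneg (mul_nonneg ht.le (sq_nonneg r)) hmw.le)
    linarith
  have h10 : 2 / t' * (ε * ∑ z ∈ (Bl d w r' ∩ Tr)ᶜ, ‖Tm A W φ z w‖ ^ 2) ≤
      2 / t' * (ε * ∑ z, ‖Tm A W φ z w‖ ^ 2) := by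
    refine mul_le_mul_of_nonneg_left (mul_le_mul_of_nonneg_left
      (Finset.sum_le_sum_of_subset_of_nonneg (Finset.subset_univ _) fun z _ _ => sq_nonneg _)
      hε.le) (by positivity)
  rw [h3, mul_add]
  linarith

/-- **homogeneous profile, allowed set `Tr`** -/
theorem near_sum_hom (hA : A.IsSymm) (hε : 0 < ε) (hW : ∀ x, (W x).im = -ε)
    (hd0 : ∀ x, d x x = 0) (hds : ∀ x y, d x y = d y x) (hdt : ∀ x y z, d x z ≤ d x y + d y z)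
    (hφ : ∀ x y, |φ x - φ y| ≤ d x y)
    {r r' : ℝ} (hr : 0 ≤ r) (hrr : r ≤ r') {O Gd Tr : Finset ι} (hOT : O ⊆ Tr) (hGT : Gd ⊆ Tr)
    {L L' : ℝ} (hL : 0 ≤ L) (hL' : 0 ≤ L')
    (hO : ∀ w ∈ O, ε * ∑ z ∈ Bl d w (2 * r), mm A W z ≤ L)
    (hO' : ∀ w ∈ O, ε * ∑ z ∈ Bl d w (2 * r'), mm A W z ≤ L') {t t' : ℝ} (ht : 0 < t)
    (ht' : 0 < t') :
    ε ^ 2 * ∑ w, ∑ z ∈ Bl d w r, KK A W z w * (φ z - φ w) ^ 2 ≤
      ε * r ^ 2 * (∑ w ∈ Oᶜ, mm A W w + ∑ z ∈ Gdᶜ, mm A W z) +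
      4 / 3 * (32 * (ε * ∑ w, mm A W w * muf A W φ w ^ 2) +
      16 * (ε ^ 2 * ∑ w ∈ O, ∑ z ∈ (Bl d w r' ∩ Tr).erase w,
        kap A W z w * ‖Tm A W φ z w‖ ^ 2) +
      2 / t * (ε ^ 2 * ∑ w ∈ O, ∑ z ∈ (Bl d w r' ∩ Tr).erase w,
        (kap A W z w + lamS A W (Bl d w r ∩ Gd) z w) * ‖Tm A W φ z w‖ ^ 2) +
      t * (ε * r ^ 2) * ((L' * (2 * L + 13) + 2) * ∑ w, mm A W w) +
      2 / t' * (ε ^ 2 * ∑ w, ∑ z, ‖Tm A W φ z w‖ ^ 2) +
      2 * t' * (ε * r ^ 2) * (L * (ε * ∑ b, ∑ z ∈ (Bl d b (r' - r))ᶜ, KK A W z b +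
        ∑ z ∈ Trᶜ, mm A W z))) := by
  have hn := hom_neg hε hW
  have hm0 : ∀ w, 0 ≤ mm A W w := fun w => (mm_pos hA hn w).le
  have h0 : ε ^ 2 * ∑ w, ∑ z ∈ Bl d w r, KK A W z w * (φ z - φ w) ^ 2 =
      ε * (∑ w ∈ O, ε * ∑ z ∈ Bl d w r, KK A W z w * (φ z - φ w) ^ 2) +
      ε * ∑ w ∈ Oᶜ, ε * ∑ z ∈ Bl d w r, KK A W z w * (φ z - φ w) ^ 2 := by
    rw [← mul_add, Finset.sum_add_sum_compl, ← Finset.mul_sum]
    ring
  have h1 : ∑ w ∈ Oᶜ, ε * ∑ z ∈ Bl d w r, KK A W z w * (φ z - φ w) ^ 2 ≤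
      r ^ 2 * ∑ w ∈ Oᶜ, mm A W w := by
    rw [Finset.mul_sum]
    refine Finset.sum_le_sum fun w _ => ?_
    refine (near_bad hA hε hW hφ (Bl d w r) (Finset.Subset.refl _)).trans ?_
    exact mul_le_mul_of_nonneg_left (sum_e_KK_le hA hε hW _ w) (sq_nonneg r)
  have h2 := lin_comb O fun w hw =>
      near_ok_T hA hε hW hd0 hφ hr hrr hGT hL hL' (hOT hw) (hO w hw) (hO' w hw) ht ht'
  have h3 : ∑ w ∈ O, ε * ∑ z ∈ Bl d w r \ Gd, KK A W z w ≤ ∑ z ∈ Gdᶜ, mm A W z := by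
    have k1 : ∀ w ∈ O, ε * ∑ z ∈ Bl d w r \ Gd, KK A W z w ≤ ∑ z ∈ Gdᶜ, ε * KK A W z w := by
      intro w _
      rw [Finset.mul_sum]
      refine Finset.sum_le_sum_of_subset_of_nonneg ?_ fun z _ _ =>
        mul_nonneg hε.le (KK_nonneg _ _)
      intro z hz
      rw [Finset.mem_compl]
      exact (Finset.mem_sdiff.1 hz).2
    refine (Finset.sum_le_sum k1).trans ?_
    rw [Finset.sum_comm]
    refine Finset.sum_le_sum fun z _ => ?_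
    have k2 := sum_e_KK_le hA hε hW O z
    rw [Finset.mul_sum] at k2
    refine le_trans (le_of_eq ?_) k2
    refine Finset.sum_congr rfl fun w _ => ?_
    rw [KK_symm hA z w]
  have h4 := far_sum_T (r' := r') (Gd := Gd) (Tr := Tr) hA hε hW hds hdt hL hO
  have h5 : ∑ w ∈ O, mm A W w * muf A W φ w ^ 2 ≤ ∑ w, mm A W w * muf A W φ w ^ 2 :=
    Finset.sum_le_sum_of_subset_of_nonneg (Finset.subset_univ _) fun w _ _ =>
      mul_nonneg (hm0 w) (sq_nonneg _)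
  have h6 : ∑ w ∈ O, mm A W w ≤ ∑ w, mm A W w :=
    Finset.sum_le_sum_of_subset_of_nonneg (Finset.subset_univ _) fun w _ _ => hm0 w
  have h7 : ∑ w ∈ O, ε * ∑ z, ‖Tm A W φ z w‖ ^ 2 ≤ ε * ∑ w, ∑ z, ‖Tm A W φ z w‖ ^ 2 := by
    rw [← Finset.mul_sum]
    exact mul_le_mul_of_nonneg_left (Finset.sum_le_sum_of_subset_of_nonneg
      (Finset.subset_univ _) fun w _ _ => Finset.sum_nonneg fun z _ => sq_nonneg _) hε.le
  have g1 := mul_le_mul_of_nonneg_left h3 (mul_nonneg hε.le (sq_nonneg r))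
  have g2 := mul_le_mul_of_nonneg_left h1 hε.le
  have g3 := mul_le_mul_of_nonneg_left h2 hε.le
  have g4 := mul_le_mul_of_nonneg_left h4
    (show 0 ≤ 2 * t' * (ε * r ^ 2) by positivity)
  have g5 := mul_le_mul_of_nonneg_left h5 hε.le
  have hC : 0 ≤ t * (ε * r ^ 2) * (L' * (2 * L + 13) + 2) := by positivity
  have g6 := mul_le_mul_of_nonneg_left h6 hC
  have g7 := mul_le_mul_of_nonneg_left h7 (show 0 ≤ 2 / t' * ε by positivity)
  have e1 : ∑ w ∈ O, ε * ∑ z ∈ (Bl d w r' ∩ Tr).erase w, kap A W z w * ‖Tm A W φ z w‖ ^ 2 =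
      ε * ∑ w ∈ O, ∑ z ∈ (Bl d w r' ∩ Tr).erase w, kap A W z w * ‖Tm A W φ z w‖ ^ 2 :=
    (Finset.mul_sum _ _ _).symm
  have e2 : ∑ w ∈ O, ε * ∑ z ∈ (Bl d w r' ∩ Tr).erase w,
        (kap A W z w + lamS A W (Bl d w r ∩ Gd) z w) * ‖Tm A W φ z w‖ ^ 2 =
      ε * ∑ w ∈ O, ∑ z ∈ (Bl d w r' ∩ Tr).erase w,
        (kap A W z w + lamS A W (Bl d w r ∩ Gd) z w) * ‖Tm A W φ z w‖ ^ 2 :=
    (Finset.mul_sum _ _ _).symm
  rw [e1, e2] at g3
  rw [h0]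
  linarith

/-! ### general profile -/

/-- **the near inequality for a general absorption profile `e = -Im W` and a set `Tr` of allowed
sites**: the energy of the pairs at distance `≤ r` is bounded by the bad masses, the loss, the
two `J`, `Λ` sums over allowed pairs, and small terms (far energy, share of the sites off `Tr`) -/
theorem near_sum_T (hA : A.IsSymm) (hW : ∀ x, (W x).im < 0)
    (hd0 : ∀ x, d x x = 0) (hds : ∀ x y, d x y = d y x) (hdt : ∀ x y z, d x z ≤ d x y + d y z)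
    (hφ : ∀ x y, |φ x - φ y| ≤ d x y)
    {r r' : ℝ} (hr : 0 ≤ r) (hrr : r ≤ r') {O Gd Tr : Finset ι} (hOT : O ⊆ Tr) (hGT : Gd ⊆ Tr)
    {L L' : ℝ} (hL : 0 ≤ L) (hL' : 0 ≤ L')
    (hO : ∀ w ∈ O, ∑ z ∈ Bl d w (2 * r), ee W z * mm A W z ≤ L)
    (hO' : ∀ w ∈ O, ∑ z ∈ Bl d w (2 * r'), ee W z * mm A W z ≤ L') {t t' : ℝ} (ht : 0 < t)
    (ht' : 0 < t') :
    ∑ w, ∑ z ∈ Bl d w r, ee W z * ee W w * KK A W z w * (φ z - φ w) ^ 2 ≤
      r ^ 2 * (∑ w ∈ Oᶜ, ee W w * mm A W w + ∑ z ∈ Gdᶜ, ee W z * mm A W z) +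
      4 / 3 * (32 * (∑ w, ee W w * mm A W w * muf A W φ w ^ 2) +
      16 * (∑ w ∈ O, ∑ z ∈ (Bl d w r' ∩ Tr).erase w,
        kap A W z w * (ee W z * ee W w * ‖Tm A W φ z w‖ ^ 2)) +
      2 / t * (∑ w ∈ O, ∑ z ∈ (Bl d w r' ∩ Tr).erase w,
        (kap A W z w + lamS A W (Bl d w r ∩ Gd) z w) *
          (ee W z * ee W w * ‖Tm A W φ z w‖ ^ 2)) +
      t * r ^ 2 * ((L' * (2 * L + 13) + 2) * ∑ w, ee W w * mm A W w) +
      2 / t' * (∑ w, ∑ z, ee W z * ee W w * ‖Tm A W φ z w‖ ^ 2) +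
      2 * t' * r ^ 2 * (L * (∑ b, ∑ z ∈ (Bl d b (r' - r))ᶜ, ee W z * ee W b * KK A W z b +
        ∑ z ∈ Trᶜ, ee W z * mm A W z))) := by
  have h := near_sum_hom (A := Ah A W) (W := Wh W) (φ := φ) (ε := 1) (d := d) (Ah_symm hA)
    one_pos (fun x => Wh_im hW x) hd0 hds hdt hφ hr hrr hOT hGT hL hL'
    (fun w hw => by
      rw [one_mul]
      simp only [mm_hat hA hW]
      exact hO w hw)
    (fun w hw => by
      rw [one_mul]
      simp only [mm_hat hA hW]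
      exact hO' w hw) ht ht'
  simp only [mm_hat hA hW, KK_hat hA hW, muf_hat hA hW, kap_hat hA hW, lamS_hat hA hW,
    Tm_hat_norm hA hW, one_pow, one_mul] at h
  exact h

/-- the total of `e e |T|²` is a quarter of the energy -/
theorem sum_Tm_gen (hA : A.IsSymm) (hW : ∀ x, (W x).im < 0) :
    ∑ w, ∑ z, ee W z * ee W w * ‖Tm A W φ z w‖ ^ 2 =
      (1 / 4) * ∑ w, ∑ z, ee W z * ee W w * KK A W z w * (φ z - φ w) ^ 2 := by
  rw [Finset.mul_sum]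
  refine Finset.sum_congr rfl fun w _ => ?_
  have h := Tm_col_norm_gen (a := φ) hA hW w
  have h1 : ∑ z, ee W z * ee W w * ‖Tm A W φ z w‖ ^ 2 =
      ee W w * ∑ z, ee W z * ‖Tm A W φ z w‖ ^ 2 := by
    rw [Finset.mul_sum]
    exact Finset.sum_congr rfl fun z _ => by ring
  have h2 : ∑ z, ee W z * ee W w * KK A W z w * (φ z - φ w) ^ 2 =
      ee W w * ∑ z, ee W z * KK A W z w * (φ z - φ w) ^ 2 := by
    rw [Finset.mul_sum]
    exact Finset.sum_congr rfl fun z _ => by ring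
  rw [h1, h2, h]
  ring

end P365L.Z622
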