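import Vale.Agent.P365.Z0.S351.I5

/-!
# P365-T1.5 (block Z2'): the near inequality restricted to allowed centres and good sites, ball
masses over the traps only (`P365Z0.S351.NearZ`).
-/

set_option linter.all false

namespace P365L.Z622

open Matrix Complex
open scoped ComplexConjugate

variable {ι : Type*} [Fintype ι] [DecidableEq ι]
variable {A : Matrix ι ι ℝ} {W : ι → ℂ} {φ : ι → ℝ} {ε : ℝ} {d : ι → ι → ℝ}

/-- masses of the balls around `b` of allowed centres, trap masses only -/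
theorem cntZ (hA : A.IsSymm) (hn : ∀ x, (W x).im < 0) (hε : 0 < ε)
    (hds : ∀ x y, d x y = d y x) (hdt : ∀ x y z, d x z ≤ d x y + d y z)
    {r : ℝ} {O T : Finset ι} (hOT : O ⊆ T) {L : ℝ} (hL : 0 ≤ L)
    (hO : ∀ w ∈ O, ε * ∑ z ∈ Bl d w (2 * r) ∩ T, mm A W z ≤ L) {F : ι → ℝ}
    (hF0 : ∀ b, 0 ≤ F b) :
    ∑ w ∈ O, ε * mm A W w * ∑ b ∈ Bl d w r, F b ≤ L * ∑ b, F b := by
  have h1 : ∀ w ∈ O, ε * mm A W w * ∑ b ∈ Bl d w r, F b =
      ∑ b, (if b ∈ Bl d w r then ε * mm A W w * F b else 0) := by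
    intro w _
    rw [Finset.mul_sum, ← Finset.sum_filter]
    congr 1
    ext b
    simp
  rw [Finset.sum_congr rfl h1, Finset.sum_comm, Finset.mul_sum]
  refine Finset.sum_le_sum fun b _ => ?_
  have k1 : ∑ w ∈ O, (if b ∈ Bl d w r then ε * mm A W w * F b else 0) =
      (∑ w ∈ O.filter (fun w => b ∈ Bl d w r), ε * mm A W w) * F b := by
    rw [Finset.sum_filter, Finset.sum_mul]
    refine Finset.sum_congr rfl fun w _ => ?_
    split_ifs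
    · rfl
    · rw [zero_mul]
  rw [k1]
  refine mul_le_mul_of_nonneg_right ?_ (hF0 b)
  rcases (O.filter (fun w => b ∈ Bl d w r)).eq_empty_or_nonempty with he | ⟨w0, hw0⟩
  · rw [he, Finset.sum_empty]
    exact hL
  · rw [Finset.mem_filter, mem_Bl] at hw0
    refine le_trans ?_ (hO w0 hw0.1)
    rw [Finset.mul_sum]
    refine Finset.sum_le_sum_of_subset_of_nonneg ?_ fun w _ _ =>
      mul_nonneg hε.le (mm_pos hA hn w).le
    intro w hw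
    rw [Finset.mem_filter, mem_Bl] at hw
    rw [Finset.mem_inter, mem_Bl]
    have := hdt w b w0
    have := hds w b
    exact ⟨by linarith [hw.2, hw0.2], hOT hw.1⟩

/-- the complement term of one column, summed over the columns -/
theorem far_sum_Z (hA : A.IsSymm) (hε : 0 < ε) (hW : ∀ x, (W x).im = -ε)
    (hds : ∀ x y, d x y = d y x) (hdt : ∀ x y z, d x z ≤ d x y + d y z)
    {r r' : ℝ} {O Gd T : Finset ι} (hOT : O ⊆ T) {L : ℝ} (hL : 0 ≤ L)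
    (hO : ∀ w ∈ O, ε * ∑ z ∈ Bl d w (2 * r) ∩ T, mm A W z ≤ L) :
    ∑ w ∈ O, mm A W w *
      (ε * ∑ z ∈ (Bl d w r' ∩ Gd)ᶜ, ε * ∑ b ∈ Bl d w r ∩ Gd, KK A W z b) ≤
      L * (ε * ∑ b, ∑ z ∈ (Bl d b (r' - r))ᶜ, KK A W z b + ∑ z ∈ Gdᶜ, mm A W z) := by
  have hn := hom_neg hε hW
  set F : ι → ℝ := fun b => ε * ∑ z ∈ (Bl d b (r' - r))ᶜ, KK A W z b +
    ∑ z ∈ Gdᶜ, ε * KK A W z b with hF
  have hF0 : ∀ b, 0 ≤ F b := fun b => add_nonneg
    (mul_nonneg hε.le (Finset.sum_nonneg fun z _ => KK_nonneg _ _))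
    (Finset.sum_nonneg fun z _ => mul_nonneg hε.le (KK_nonneg _ _))
  have h1 : ∀ w ∈ O, mm A W w *
      (ε * ∑ z ∈ (Bl d w r' ∩ Gd)ᶜ, ε * ∑ b ∈ Bl d w r ∩ Gd, KK A W z b) ≤
      ε * mm A W w * ∑ b ∈ Bl d w r, F b := by
    intro w _
    have hmw := mm_pos hA hn w
    have k1 : ε * ∑ z ∈ (Bl d w r' ∩ Gd)ᶜ, ε * ∑ b ∈ Bl d w r ∩ Gd, KK A W z b ≤
        ε * ∑ b ∈ Bl d w r, F b := by
      refine mul_le_mul_of_nonneg_left ?_ hε.le
      have k2 : ∑ z ∈ (Bl d w r' ∩ Gd)ᶜ, ε * ∑ b ∈ Bl d w r ∩ Gd, KK A W z b =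
          ∑ b ∈ Bl d w r ∩ Gd, ∑ z ∈ (Bl d w r' ∩ Gd)ᶜ, ε * KK A W z b := by
        rw [Finset.sum_comm (s := Bl d w r ∩ Gd)]
        exact Finset.sum_congr rfl fun z _ => Finset.mul_sum _ _ _
      rw [k2]
      refine (Finset.sum_le_sum fun b hb => ?_).trans
        (Finset.sum_le_sum_of_subset_of_nonneg Finset.inter_subset_left fun b _ _ => hF0 b)
      rw [Finset.mem_inter, mem_Bl] at hb
      have hpos : ∀ z, 0 ≤ ε * KK A W z b := fun z => mul_nonneg hε.le (KK_nonneg _ _)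
      have hsub : (Bl d w r' ∩ Gd)ᶜ ⊆ (Bl d b (r' - r))ᶜ ∪ Gdᶜ := by
        intro z hz
        rw [Finset.mem_compl, Finset.mem_inter, not_and_or, mem_Bl] at hz
        rw [Finset.mem_union, Finset.mem_compl, Finset.mem_compl, mem_Bl]
        rcases hz with hz | hz
        · left
          intro hzb
          apply hz
          have := hdt z b w
          linarith [hb.1]
        · exact Or.inr hz
      refine (Finset.sum_le_sum_of_subset_of_nonneg hsub fun z _ _ => hpos z).trans ?_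
      have k3 := Finset.sum_union_inter (s₁ := (Bl d b (r' - r))ᶜ) (s₂ := Gdᶜ)
        (f := fun z => ε * KK A W z b)
      have k4 : 0 ≤ ∑ z ∈ (Bl d b (r' - r))ᶜ ∩ Gdᶜ, ε * KK A W z b :=
        Finset.sum_nonneg fun z _ => hpos z
      have k5 : ε * ∑ z ∈ (Bl d b (r' - r))ᶜ, KK A W z b =
        ∑ z ∈ (Bl d b (r' - r))ᶜ, ε * KK A W z b := Finset.mul_sum _ _ _
      rw [hF]
      simp only
      rw [k5]
      linarith
    calc mm A W w * (ε * ∑ z ∈ (Bl d w r' ∩ Gd)ᶜ, ε * ∑ b ∈ Bl d w r ∩ Gd, KK A W z b) ≤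
          mm A W w * (ε * ∑ b ∈ Bl d w r, F b) := mul_le_mul_of_nonneg_left k1 hmw.le
      _ = _ := by ring
  refine (Finset.sum_le_sum h1).trans ?_
  refine (cntZ hA hn hε hds hdt hOT hL hO hF0).trans ?_
  refine mul_le_mul_of_nonneg_left ?_ hL
  rw [hF]
  simp only [Finset.sum_add_distrib]
  have g1 : ∑ b, ε * ∑ z ∈ (Bl d b (r' - r))ᶜ, KK A W z b =
      ε * ∑ b, ∑ z ∈ (Bl d b (r' - r))ᶜ, KK A W z b := (Finset.mul_sum _ _ _).symm
  rw [g1]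
  have g2 : ∑ b, ∑ z ∈ Gdᶜ, ε * KK A W z b ≤ ∑ z ∈ Gdᶜ, mm A W z := by
    rw [Finset.sum_comm]
    refine Finset.sum_le_sum fun z _ => ?_
    rw [← Finset.mul_sum]
    have := sum_e_KK_le hA hε hW Finset.univ z
    refine le_trans (le_of_eq ?_) this
    congr 1
    exact Finset.sum_congr rfl fun b _ => KK_symm hA z b
  linarith

/-- one allowed column -/
theorem near_ok_Z (hA : A.IsSymm) (hε : 0 < ε) (hW : ∀ x, (W x).im = -ε)
    (hd0 : ∀ x, d x x = 0) (hφ : ∀ x y, |φ x - φ y| ≤ d x y)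
    {r r' : ℝ} (hr : 0 ≤ r) (hrr : r ≤ r') {Gd T : Finset ι} (hGT : Gd ⊆ T) {L L' : ℝ}
    (hL : 0 ≤ L) (hL' : 0 ≤ L') {w : ι} (hwG : w ∈ Gd)
    (hO : ε * ∑ z ∈ Bl d w (2 * r) ∩ T, mm A W z ≤ L)
    (hO' : ε * ∑ z ∈ Bl d w (2 * r') ∩ T, mm A W z ≤ L') {t t' : ℝ} (ht : 0 < t)
    (ht' : 0 < t') :
    ε * ∑ z ∈ Bl d w r ∩ Gd, KK A W z w * (φ z - φ w) ^ 2 ≤
      0 * 0 +
      4 / 3 * (32 * (mm A W w * muf A W φ w ^ 2) +
      16 * (ε * ∑ z ∈ (Bl d w r' ∩ Gd).erase w, kap A W z w * ‖Tm A W φ z w‖ ^ 2) +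
      2 / t * (ε * ∑ z ∈ (Bl d w r' ∩ Gd).erase w,
        (kap A W z w + lamS A W (Bl d w r ∩ Gd) z w) * ‖Tm A W φ z w‖ ^ 2) +
      t * r ^ 2 * ((L' * (2 * L + 13) + 2) * mm A W w) +
      2 / t' * (ε * ∑ z, ‖Tm A W φ z w‖ ^ 2) +
      2 * t' * r ^ 2 * (mm A W w *
        (ε * ∑ z ∈ (Bl d w r' ∩ Gd)ᶜ, ε * ∑ b ∈ Bl d w r ∩ Gd, KK A W z b))) := by
  have hn := hom_neg hε hW
  have hmw := mm_pos hA hn w
  have hSB : Bl d w r ∩ Gd ⊆ Bl d w r' ∩ Gd :=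
    Finset.inter_subset_inter (Bl_mono hrr) (Finset.Subset.refl _)
  have hwB : w ∈ Bl d w r' ∩ Gd := by
    rw [Finset.mem_inter, mem_Bl, hd0]
    exact ⟨hr.trans hrr, hwG⟩
  have ha : ∀ z ∈ Bl d w r ∩ Gd, |φ z - φ w| ≤ r := fun z hz =>
    (hφ z w).trans (mem_Bl.1 (Finset.mem_inter.1 hz).1)
  have h1 := near_col (a := φ) hA hε hW hSB hwB hr ha ht ht'
  set XB := ε * ∑ z ∈ Bl d w r' ∩ Gd, mm A W z with hXB
  set XS := ε * ∑ z ∈ Bl d w r ∩ Gd, mm A W z with hXS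
  have h4 : XB ≤ L' := (XS_mono hA hε hW
    (Finset.inter_subset_inter (Bl_mono (by linarith)) hGT)).trans hO'
  have h5 : XS ≤ L := (XS_mono hA hε hW
    (Finset.inter_subset_inter (Bl_mono (by linarith)) hGT)).trans hO
  have h6 : 0 ≤ XB := mul_nonneg hε.le (Finset.sum_nonneg fun z _ => (mm_pos hA hn z).le)
  have h7 : 0 ≤ XS := mul_nonneg hε.le (Finset.sum_nonneg fun z _ => (mm_pos hA hn z).le)
  have h8 : XB * (2 * XS + 13) + 2 ≤ L' * (2 * L + 13) + 2 := by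
    have : XB * (2 * XS + 13) ≤ L' * (2 * L + 13) := by
      apply mul_le_mul h4 (by linarith) (by linarith) hL'
    linarith
  have h9 : t * r ^ 2 * (mm A W w * (XB * (2 * XS + 13) + 2)) ≤
      t * r ^ 2 * ((L' * (2 * L + 13) + 2) * mm A W w) := by
    have := mul_le_mul_of_nonneg_left h8 (mul_nonneg (mul_nonneg ht.le (sq_nonneg r)) hmw.le)
    linarith
  have h10 : 2 / t' * (ε * ∑ z ∈ (Bl d w r' ∩ Gd)ᶜ, ‖Tm A W φ z w‖ ^ 2) ≤
      2 / t' * (ε * ∑ z, ‖Tm A W φ z w‖ ^ 2) := by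
    refine mul_le_mul_of_nonneg_left (mul_le_mul_of_nonneg_left
      (Finset.sum_le_sum_of_subset_of_nonneg (Finset.subset_univ _) fun z _ _ => sq_nonneg _)
      hε.le) (by positivity)
  linarith

/-- homogeneous profile, allowed centres `O ⊆ Gd ⊆ T` -/
theorem near_hom_Z (hA : A.IsSymm) (hε : 0 < ε) (hW : ∀ x, (W x).im = -ε)
    (hd0 : ∀ x, d x x = 0) (hds : ∀ x y, d x y = d y x) (hdt : ∀ x y z, d x z ≤ d x y + d y z)
    (hφ : ∀ x y, |φ x - φ y| ≤ d x y)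
    {r r' : ℝ} (hr : 0 ≤ r) (hrr : r ≤ r') {O Gd T : Finset ι} (hGT : Gd ⊆ T) (hOG : O ⊆ Gd)
    {L L' : ℝ} (hL : 0 ≤ L) (hL' : 0 ≤ L')
    (hO : ∀ w ∈ O, ε * ∑ z ∈ Bl d w (2 * r) ∩ T, mm A W z ≤ L)
    (hO' : ∀ w ∈ O, ε * ∑ z ∈ Bl d w (2 * r') ∩ T, mm A W z ≤ L') {t t' : ℝ} (ht : 0 < t)
    (ht' : 0 < t') :
    ∑ w ∈ O, ε * ∑ z ∈ Bl d w r ∩ Gd, KK A W z w * (φ z - φ w) ^ 2 ≤
      4 / 3 * (32 * ∑ w ∈ O, mm A W w * muf A W φ w ^ 2 +
      16 * ∑ w ∈ O, ε * ∑ z ∈ (Bl d w r' ∩ Gd).erase w, kap A W z w * ‖Tm A W φ z w‖ ^ 2 +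
      2 / t * ∑ w ∈ O, ε * ∑ z ∈ (Bl d w r' ∩ Gd).erase w,
        (kap A W z w + lamS A W (Bl d w r ∩ Gd) z w) * ‖Tm A W φ z w‖ ^ 2 +
      t * r ^ 2 * ((L' * (2 * L + 13) + 2) * ∑ w ∈ O, mm A W w) +
      2 / t' * (ε * ∑ w, ∑ z, ‖Tm A W φ z w‖ ^ 2) +
      2 * t' * r ^ 2 * (L * (ε * ∑ b, ∑ z ∈ (Bl d b (r' - r))ᶜ, KK A W z b +
        ∑ z ∈ Gdᶜ, mm A W z))) := by
  have hOT : O ⊆ T := hOG.trans hGT
  have h2 := lin_comb O fun w hw =>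
      near_ok_Z hA hε hW hd0 hφ hr hrr hGT hL hL' (hOG hw) (hO w hw) (hO' w hw) ht ht'
  have h4 := far_sum_Z (r' := r') (Gd := Gd) hA hε hW hds hdt hOT hL hO
  have h7 : ∑ w ∈ O, ε * ∑ z, ‖Tm A W φ z w‖ ^ 2 ≤ ε * ∑ w, ∑ z, ‖Tm A W φ z w‖ ^ 2 := by
    rw [← Finset.mul_sum]
    exact mul_le_mul_of_nonneg_left (Finset.sum_le_sum_of_subset_of_nonneg
      (Finset.subset_univ _) fun w _ _ => Finset.sum_nonneg fun z _ => sq_nonneg _) hε.le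
  have g4 := mul_le_mul_of_nonneg_left h4
    (show 0 ≤ 2 * t' * r ^ 2 by positivity)
  have g7 := mul_le_mul_of_nonneg_left h7 (show 0 ≤ 2 / t' by positivity)
  linarith

end P365L.Z622

namespace P365Z0.S351

open P365L P365L.Z622 Matrix Complex

/-- **block Z2'** -/
theorem nearZ : NearZ := by
  intro ι _ _ A W φ d T Gd O r r' L L' t t' hA hW hd0 hds hdt hφ hr hrr hGT hOG hL hL' hO hO'
    ht ht'
  have h := near_hom_Z (A := Ah A W) (W := Wh W) (φ := φ) (ε := 1) (d := d) (Ah_symm hA)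
    one_pos (fun x => Wh_im hW x) hd0 hds hdt hφ hr hrr hGT hOG hL hL'
    (fun w hw => by
      rw [one_mul]
      simp only [mm_hat hA hW]
      exact hO w hw)
    (fun w hw => by
      rw [one_mul]
      simp only [mm_hat hA hW]
      exact hO' w hw) ht ht'
  simp only [mm_hat hA hW, KK_hat hA hW, muf_hat hA hW, kap_hat hA hW, lamS_hat hA hW,
    Tm_hat_norm hA hW, one_mul] at h
  simp only [mul_assoc] at h ⊢
  exact h

end P365Z0.S351
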