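import Vale.Agent.P365.Z0.Loss

/-!
# P365, Z0, block Z1 (2): the mean loss rate, hub inequality with the loss kept.
-/

set_option linter.all false

namespace P365Z.Loss327

open P365L P365O P365T1 P365L.TL Matrix Complex MeasureTheory Filter Topology Set
open Vale.Agent.P365.J376
open scoped ComplexConjugate ENNReal

section meas

variable {ι : Type*} [Fintype ι] [DecidableEq ι] {A : Matrix ι ι ℝ}
  {Ω : Type*} [MeasurableSpace Ω]

theorem measurable_Ls_Wp {a h : Ω → ι → ℝ} (ha : ∀ x, Measurable fun ω => a ω x)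
    (hh : ∀ x, Measurable fun ω => h ω x) (f : ι → ℝ) (z : ι) :
    Measurable fun ω => Ls A (Wp (a ω) (h ω)) f z := by
  have hg : ∀ x, Measurable fun ω => gw A (Wp (a ω) (h ω)) z x := by
    intro x
    unfold gw
    exact (measurable_Gr_Wp ha hh x z).div (measurable_Gr_Wp ha hh z z)
  have h1 : ∀ x, Measurable fun ω => (-(Wp (a ω) (h ω) x).im) * ‖gw A (Wp (a ω) (h ω)) z x‖ ^ 2 := by
    intro x
    simp only [Vale.Agent.P365.J376.Wp_im, neg_neg]
    exact (hh x).mul ((hg x).norm.pow_const 2)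
  unfold Ls
  refine ((Measurable.const_mul ?_ 4).mul ?_).mul ((measurable_Gr_Wp ha hh z z).norm.pow_const 4)
  · refine Measurable.pow_const ?_ 2
    unfold Bf
    exact Finset.measurable_sum _ fun x _ => (h1 x).mul_const _
  · unfold Sf
    exact Finset.measurable_sum _ fun x _ => h1 x

theorem measurable_Ls_WV (E : ℝ) (e : ι → ℝ) (f : ι → ℝ) (z : ι) :
    Measurable fun v : ι → ℝ => Ls A (WV E e v) f z :=
  measurable_Ls_Wp (a := fun (v : ι → ℝ) x => v x - E) (h := fun _ => e)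
    (fun x => measurable_coord_sub E x) (fun x => measurable_const) f z

theorem integrable_Ls_sub (hA : A.IsSymm) (m : Measure (ι → ℝ)) [IsFiniteMeasure m] (E : ℝ)
    {e : ι → ℝ} (he : ∀ x, 0 < e x) (f : ι → ℝ) (z : ι) :
    Integrable (fun v => Ls A (WV E e v) f z - dEn A (WV E e v) f z) m := by
  have h0 : Measurable fun v : ι → ℝ => Ls A (WV E e v) f z - dEn A (WV E e v) f z :=
    (measurable_Ls_WV E e f z).sub (measurable_dEn_Wp (a := fun (v : ι → ℝ) x => v x - E)
      (h := fun _ => e) (fun x => measurable_coord_sub E x) (fun x => measurable_const) f z)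
  refine ((integrable_Mf hA m E he f z).const_mul 10).mono' h0.aestronglyMeasurable
    (Eventually.of_forall fun v => ?_)
  rw [Real.norm_eq_abs]
  exact abs_Ls_sub_dEn_le hA (WV_neg he v) f z

theorem integrable_Ls (hA : A.IsSymm) (m : Measure (ι → ℝ)) [IsFiniteMeasure m] (E : ℝ)
    {e : ι → ℝ} (he : ∀ x, 0 < e x) (f : ι → ℝ) (z : ι) :
    Integrable (fun v => Ls A (WV E e v) f z) m := by
  have h := (integrable_Ls_sub hA m E he f z).add (integrable_dEn hA m E he f z)
  refine h.congr (Eventually.of_forall fun v => ?_)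
  simp

end meas

section cost

variable {ι : Type} [Fintype ι] [DecidableEq ι] {A : Matrix ι ι ℝ}

/-- law error of one site under the product law -/
theorem Ex_Ls_sub_le (hA : A.IsSymm) (ν : ι → Measure ℝ) [∀ x, IsProbabilityMeasure (ν x)]
    {E : ℝ} {e : ι → ℝ} (he : ∀ x, 0 < e x) (f : ι → ℝ) (x : ι) {C : ℝ}
    (hC : CostLL E C (ν x)) :
    Ex ν E e (fun W => Ls A W f x - dEn A W f x) ≤ C * Ex ν E e (fun W => Yf A W f x) := by
  have hint := integrable_Ls_sub hA (Measure.pi ν) E he f x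
  have hmp := MAff.measurePreserving_resample ν x
  have hf' : Integrable (fun p : (ι → ℝ) × ℝ =>
      Ls A (WV E e (Function.update p.1 x p.2)) f x -
        dEn A (WV E e (Function.update p.1 x p.2)) f x)
      ((Measure.pi ν).prod (ν x)) := hmp.integrable_comp_of_integrable hint
  unfold Ex
  have h1 := integral_resample' ν x _ hint
  rw [h1, ← integral_const_mul]
  refine integral_mono hf'.integral_prod_left ((integrable_Yf hA _ E he f x).const_mul C)
    fun c => ?_
  have h2 := hC ι A (WV E e c) f x hA (WV_neg he c)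
  show ∫ t, (Ls A (WV E e (Function.update c x t)) f x -
    dEn A (WV E e (Function.update c x t)) f x) ∂(ν x) ≤ C * Yf A (WV E e c) f x
  simp only [WV_update]
  exact h2

variable {Λ : Type*} [Fintype Λ] {p : Λ → ℝ} {ν : Λ → Measure ℝ} {E : ℝ}
  {κ : Type*} [Fintype κ] {f : κ → ι → ℝ}

/-- the mean loss rate in direction `w` -/
noncomputable def LossG {ι : Type*} [Fintype ι] [DecidableEq ι] (A : Matrix ι ι ℝ)
    {Λ : Type*} [Fintype Λ] (p : Λ → ℝ) (ν : Λ → Measure ℝ) (E : ℝ)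
    {κ : Type*} [Fintype κ] (f : κ → ι → ℝ) (e w : (ι → Λ) → ι → ℝ) : ℝ :=
  AvG p ν E e fun l W => ∑ x, w l x * ∑ k, Ls A W (f k) x

theorem LossG_nonneg (hA : A.IsSymm) (hp : ∀ k, 0 ≤ p k)
    {e w : (ι → Λ) → ι → ℝ} (he : ∀ l x, 0 < e l x) (hw0 : ∀ l x, 0 ≤ w l x) :
    0 ≤ LossG A p ν E f e w := by
  refine Finset.sum_nonneg fun l _ => mul_nonneg (Finset.prod_nonneg fun x _ => hp _) ?_
  exact Ex_nonneg _ _ _ fun v => Finset.sum_nonneg fun x _ => mul_nonneg (hw0 l x)
    (Finset.sum_nonneg fun k _ => Ls_nonneg hA (WV_neg (he l) v) _ _)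

/-- loss plus cost is at most the law error -/
theorem LossG_add_CostG_le (hA : A.IsSymm) [∀ k, IsProbabilityMeasure (ν k)] (hp : ∀ k, 0 ≤ p k)
    {e w : (ι → Λ) → ι → ℝ} (he : ∀ l x, 0 < e l x) (hw0 : ∀ l x, 0 ≤ w l x) {C : Λ → ℝ}
    (hC : ∀ l x, w l x ≠ 0 → CostLL E (C (l x)) (ν (l x))) :
    LossG A p ν E f e w + CostG A p ν E f e w ≤ ∑ l : ι → Λ, (∏ x, p (l x)) *
      ∑ x, (w l x * C (l x)) * ∑ k, Ex (fun x => ν (l x)) E (e l) (fun W => Yf A W (f k) x) := by
  unfold LossG CostG AvG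
  rw [← Finset.sum_add_distrib]
  refine Finset.sum_le_sum fun l _ => ?_
  rw [← mul_add]
  refine mul_le_mul_of_nonneg_left ?_ (Finset.prod_nonneg fun x _ => hp _)
  have h1 : Ex (fun x => ν (l x)) E (e l) (fun W => ∑ x, w l x * ∑ k, Ls A W (f k) x) +
      Ex (fun x => ν (l x)) E (e l) (fun W => ∑ x, w l x * ∑ k, -dEn A W (f k) x) =
      ∑ x, w l x * ∑ k, Ex (fun x => ν (l x)) E (e l)
        (fun W => Ls A W (f k) x - dEn A W (f k) x) := by
    unfold Ex
    rw [← integral_add]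
    · have e1 : ∀ v : ι → ℝ, ∑ x, w l x * ∑ k, Ls A (WV E (e l) v) (f k) x +
          ∑ x, w l x * ∑ k, -dEn A (WV E (e l) v) (f k) x =
          ∑ x, w l x * ∑ k, (Ls A (WV E (e l) v) (f k) x - dEn A (WV E (e l) v) (f k) x) := by
        intro v
        rw [← Finset.sum_add_distrib]
        refine Finset.sum_congr rfl fun x _ => ?_
        rw [← mul_add, ← Finset.sum_add_distrib]
        refine congrArg _ (Finset.sum_congr rfl fun k _ => by ring)
      simp only [e1]
      rw [integral_finset_sum]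
      · refine Finset.sum_congr rfl fun x _ => ?_
        rw [integral_const_mul, integral_finset_sum]
        intro k _
        exact integrable_Ls_sub hA _ E (he l) (f k) x
      · intro x _
        exact (integrable_finset_sum _ fun k _ =>
          integrable_Ls_sub hA _ E (he l) (f k) x).const_mul _
    · exact integrable_finset_sum _ fun x _ => (integrable_finset_sum _ fun k _ =>
        integrable_Ls hA _ E (he l) (f k) x).const_mul _
    · exact integrable_sum_dEn hA _ E (he l) f (w l)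
  rw [h1]
  refine Finset.sum_le_sum fun x _ => ?_
  by_cases hx : w l x = 0
  · rw [hx]
    simp
  · rw [mul_assoc]
    refine mul_le_mul_of_nonneg_left ?_ (hw0 l x)
    rw [Finset.mul_sum]
    exact Finset.sum_le_sum fun k _ =>
      Ex_Ls_sub_le hA (fun x => ν (l x)) (he l) (f k) x (hC l x hx)

/-- the hub inequality with the loss kept, from its `lintegral` form -/
theorem LossG_le_of_lintegral (hA : A.IsSymm) [∀ k, IsProbabilityMeasure (ν k)]
    (hp : ∀ k, 0 ≤ p k) {e w : (ι → Λ) → ι → ℝ} (he : ∀ l x, 0 < e l x)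
    (hw0 : ∀ l x, 0 ≤ w l x) {C : Λ → ℝ} (hC0 : ∀ k, 0 ≤ C k)
    (hC : ∀ l x, w l x ≠ 0 → CostLL E (C (l x)) (ν (l x))) {r c : ℝ} (hr : 0 ≤ r) (hc : 0 ≤ c)
    (H : ∑ l : ι → Λ, ENNReal.ofReal (∏ x, p (l x)) * ∑ x, ENNReal.ofReal (w l x * C (l x)) *
        ∑ k, ∫⁻ v, ENNReal.ofReal (Yf A (WV E (e l) v) (f k) x) ∂(Measure.pi fun x => ν (l x)) ≤
      ENNReal.ofReal r * (∑ l : ι → Λ, ENNReal.ofReal (∏ x, p (l x)) *
        ∑ x, ENNReal.ofReal (e l x) *
          ∑ k, ∫⁻ v, ENNReal.ofReal (Mf A (WV E (e l) v) (f k) x)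
            ∂(Measure.pi fun x => ν (l x)) + ENNReal.ofReal c)) :
    LossG A p ν E f e w + CostG A p ν E f e w ≤ r * (PhiG A p ν E f e + c) := by
  refine (LossG_add_CostG_le hA hp he hw0 hC).trans ?_
  have hPhi0 : 0 ≤ PhiG A p ν E f e := PhiG_nonneg hp fun l x => (he l x).le
  rw [← ENNReal.ofReal_le_ofReal_iff (mul_nonneg hr (add_nonneg hPhi0 hc)),
    ENNReal.ofReal_mul hr, ENNReal.ofReal_add hPhi0 hc, PhiG_eq_sum_Mf hA he]
  rw [ofReal_sum_prod hp (fun l x => mul_nonneg (hw0 l x) (hC0 _)) fun l x k =>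
      Ex_nonneg _ _ _ fun v => Yf_nonneg (WV_neg (he l) v) _ _,
    ofReal_sum_prod hp (fun l x => (he l x).le) fun l x k =>
      Ex_nonneg _ _ _ fun v => Mf_nonneg (WV_neg (he l) v) _ _]
  simp_rw [ofReal_Ex_Yf hA _ (he _), ofReal_Ex_Mf hA _ (he _)]
  exact H

end cost

/-! ### the stages of `V3` -/

section hub

variable {D : V3} {N : ℕ} [NeZero N] {ρ : Measure ℝ}

/-- the mean loss rate at stage `i`, strength `s` (per unit of `s`) -/
noncomputable def LossS (D : V3) (N : ℕ) [NeZero N] (E : ℝ) (i : ℕ) (s : ℝ) : ℝ :=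
  LossG (AT N) D.p D.ν E (phi N) (D.prof (N := N) i s) (D.Ws i)

/-- the energy at stage `i`, strength `s` -/
noncomputable def PhiS (D : V3) (N : ℕ) [NeZero N] (E : ℝ) (i : ℕ) (s : ℝ) : ℝ :=
  PhiG (AT N) D.p D.ν E (phi N) (D.prof (N := N) i s)

/-- the cost at stage `i`, strength `s` -/
noncomputable def CostS (D : V3) (N : ℕ) [NeZero N] (E : ℝ) (i : ℕ) (s : ℝ) : ℝ :=
  CostG (AT N) D.p D.ν E (phi N) (D.prof (N := N) i s) (D.Ws i)

/-- **hub with the loss kept** -/
theorem hub_loss (h : D.Ok ρ) (E : ℝ) {i : ℕ} (hi : i ≤ D.I) {s ηc ηb c Ca : ℝ}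
    (hs : 0 < s) (hηc : 0 ≤ ηc) (hηb : 0 ≤ ηb) (hc : 0 ≤ c) (hCa : 0 ≤ Ca)
    (hcost : ∀ k, D.mov k → CostLL E Ca (D.ν k))
    (HC : D.HC N E i s ηc) (HB : D.HB N E i s ηb c) :
    LossS D N E (i + 1) s + CostS D N E (i + 1) s ≤
      Ca * (ηc + ηb) / s * (PhiS D N E (i + 1) s + c) := by
  classical
  haveI := h.prob
  have hi1 : i + 1 ≤ D.I + 1 := by omega
  unfold LossS CostS PhiS
  refine LossG_le_of_lintegral (C := fun _ => Ca) (AT_symm N) h.p_nonneg
    (fun l x => h.prof_pos hi1 hs.le l x)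
    (fun l x => h.Ws_nonneg hi1 l x) (fun _ => hCa) (fun l x hx => hcost _ ?_)
    (by positivity) hc ?_
  · by_contra hcon
    exact hx (h.Ws_of_not_mov hi1 hcon)
  -- split the weight
  set Y : (Tor N → D.Λ) → Tor N → ℝ≥0∞ := fun l x =>
    ∑ k : Fin 4, ∫⁻ v, ENNReal.ofReal (Yf (AT N) (WV E (D.prof (i + 1) s l) v) (phi N k) x)
      ∂(Measure.pi fun x => D.ν (l x)) with hY
  set M : (Tor N → D.Λ) → Tor N → ℝ≥0∞ := fun l x =>
    ∑ k : Fin 4, ∫⁻ v, ENNReal.ofReal (Mf (AT N) (WV E (D.prof (i + 1) s l) v) (phi N k) x)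
      ∂(Measure.pi fun x => D.ν (l x)) with hM
  set P : (Tor N → D.Λ) → ℝ≥0∞ := fun l => ENNReal.ofReal (∏ x, D.p (l x)) with hP
  set R : ℝ≥0∞ := ∑ l : Tor N → D.Λ, P l * ∑ x, ENNReal.ofReal (D.prof (i + 1) s l x) * M l x
    with hR
  have hcen : ∀ l x, D.cen i l x → Y l x ≤ ENNReal.ofReal ηc * M l x := by
    intro l x hlx
    rw [hY, hM, Finset.mul_sum]
    exact Finset.sum_le_sum fun k _ => HC l x hlx k
  have hsplit : ∀ l x, ENNReal.ofReal (D.Ws (i + 1) l x * Ca) * Y l x ≤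
      ENNReal.ofReal (Ca * ηc / s) * (ENNReal.ofReal (D.prof (i + 1) s l x) * M l x) +
      ENNReal.ofReal Ca *
        (ENNReal.ofReal (if D.mov (l x) ∧ ¬ D.cen i l x then D.Ws (i + 1) l x else 0) *
          Y l x) := by
    intro l x
    have hW0 := h.Ws_nonneg hi1 l x
    by_cases hlx : D.cen i l x
    · refine le_trans ?_ le_self_add
      calc ENNReal.ofReal (D.Ws (i + 1) l x * Ca) * Y l x
          ≤ ENNReal.ofReal (D.Ws (i + 1) l x * Ca) * (ENNReal.ofReal ηc * M l x) :=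
            mul_le_mul_right (hcen l x hlx) _
        _ = ENNReal.ofReal (D.Ws (i + 1) l x * Ca * ηc) * M l x := by
            rw [← mul_assoc, ← ENNReal.ofReal_mul (mul_nonneg hW0 hCa)]
        _ ≤ ENNReal.ofReal (Ca * ηc / s * D.prof (i + 1) s l x) * M l x := by
            refine mul_le_mul_left (ENNReal.ofReal_le_ofReal ?_) _
            have h1 := h.s_mul_Ws_le (i + 1) s l x
            have h2 : 0 ≤ Ca * ηc := mul_nonneg hCa hηc
            rw [div_mul_eq_mul_div, le_div_iff₀ hs]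
            nlinarith
        _ = _ := by
            rw [ENNReal.ofReal_mul (by positivity), mul_assoc]
    · by_cases hmv : D.mov (l x)
      · rw [if_pos ⟨hmv, hlx⟩, mul_comm (D.Ws (i + 1) l x) Ca, ENNReal.ofReal_mul hCa,
          mul_assoc]
        exact le_add_self
      · rw [h.Ws_of_not_mov hi1 hmv]
        simp
  calc ∑ l : Tor N → D.Λ, P l * ∑ x, ENNReal.ofReal (D.Ws (i + 1) l x * Ca) * Y l x
      ≤ ∑ l : Tor N → D.Λ, P l * ∑ x,
        (ENNReal.ofReal (Ca * ηc / s) * (ENNReal.ofReal (D.prof (i + 1) s l x) * M l x) +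
        ENNReal.ofReal Ca *
          (ENNReal.ofReal (if D.mov (l x) ∧ ¬ D.cen i l x then D.Ws (i + 1) l x else 0) *
            Y l x)) := by
        gcongr with l _ x _
        exact hsplit l x
    _ = ENNReal.ofReal (Ca * ηc / s) * R + ENNReal.ofReal Ca *
        ∑ l : Tor N → D.Λ, P l * ∑ x,
          ENNReal.ofReal (if D.mov (l x) ∧ ¬ D.cen i l x then D.Ws (i + 1) l x else 0) *
            Y l x := by
        rw [hR, Finset.mul_sum, Finset.mul_sum, ← Finset.sum_add_distrib]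
        refine Finset.sum_congr rfl fun l _ => ?_
        rw [Finset.sum_add_distrib, ← Finset.mul_sum, ← Finset.mul_sum]
        ring
    _ ≤ ENNReal.ofReal (Ca * ηc / s) * R + ENNReal.ofReal Ca *
        (ENNReal.ofReal (ηb / s) * (R + ENNReal.ofReal c)) := by
        gcongr
        exact HB
    _ ≤ ENNReal.ofReal (Ca * ηc / s) * (R + ENNReal.ofReal c) +
        ENNReal.ofReal (Ca * ηb / s) * (R + ENNReal.ofReal c) := by
        refine add_le_add (mul_le_mul_right le_self_add _) (le_of_eq ?_)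
        rw [← mul_assoc, ← ENNReal.ofReal_mul hCa, mul_div_assoc]
    _ = ENNReal.ofReal (Ca * (ηc + ηb) / s) * (R + ENNReal.ofReal c) := by
        rw [← add_mul, ← ENNReal.ofReal_add (by positivity) (by positivity)]
        congr 2
        ring

end hub

end P365Z.Loss327
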