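import Vale.Agent.P365.Z0.OneL
import Vale.Agent.P365.Z0.Bad

/-!
# P365-Z0 (block Z3b): the lower bound of `Io` on the window of a good site

`Gd` is `P365Z.Gd` (tuned, big, flat).  On the line of `y`, `u(x) = pc + x * pw`.
-/

set_option linter.all false

namespace P365Z0

open Matrix Complex MeasureTheory Set P365L P365L.Poi P365T1 P365Z
open P365L.Stat (measurable_upd_line)
open scoped ComplexConjugate ENNReal Real

variable {ι : Type*} [Fintype ι] [DecidableEq ι]
variable {A : Matrix ι ι ℝ} {E : ℝ} {e : ι → ℝ} {μ : ι → Measure ℝ}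

/-- present position of `v y` in units of the width -/
noncomputable def xo (A : Matrix ι ι ℝ) (E : ℝ) (e v : ι → ℝ) (y : ι) : ℝ :=
  (v y - pc A E e v y) / pw A E e v y

/-- the kicked potential: `v y = pc + x * pw` -/
noncomputable def kick (A : Matrix ι ι ℝ) (E : ℝ) (e : ι → ℝ) (y : ι) (v : ι → ℝ) (x : ℝ) :
    ι → ℝ :=
  Function.update v y (pc A E e v y + x * pw A E e v y)

theorem kick_xo (hA : A.IsSymm) (he : ∀ x, 0 < e x) (v : ι → ℝ) (y : ι) :
    kick A E e y v (xo A E e v y) = v := by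
  unfold kick xo
  have h := (pw_pos (E := E) hA he v y).ne'
  rw [div_mul_cancel₀ _ h, add_sub_cancel, Function.update_eq_self]

theorem xo_update (hA : A.IsSymm) (he : ∀ x, 0 < e x) (v : ι → ℝ) (y : ι) (t : ℝ) :
    xo A E e (Function.update v y t) y = (t - pc A E e v y) / pw A E e v y := by
  rw [xo, pc_update hA he, pw_update hA he, Function.update_self]

theorem kick_update (hA : A.IsSymm) (he : ∀ x, 0 < e x) (v : ι → ℝ) (y : ι) (t x : ℝ) :
    kick A E e y (Function.update v y t) x = kick A E e y v x := by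
  rw [kick, pc_update hA he, pw_update hA he, Function.update_idem, kick]

/-- `G_yy (v_y - pc - i pw) = 1` up to sign: the norm -/
theorem norm_Gr_self (hA : A.IsSymm) (he : ∀ x, 0 < e x) (v : ι → ℝ) (y : ι) :
    ‖Gr A (WV E e v) y y‖ ^ 2 * ((v y - pc A E e v y) ^ 2 + pw A E e v y ^ 2) = 1 := by
  have hW := WV_im_neg (E := E) he v
  have hp := pw_pos (E := E) hA he v y
  rw [Gr_self_eq hA hW, norm_inv, inv_pow, ← Complex.normSq_eq_norm_sq, Complex.normSq_apply]
  simp only [WV, pc, pw, Complex.sub_im, Complex.ofReal_im, Complex.mul_im, Complex.ofReal_re,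
    Complex.I_im, Complex.I_re, Complex.sub_re, Complex.mul_re] at hp ⊢
  rw [inv_mul_eq_one₀]
  · ring
  · nlinarith [sq_nonneg (v y - (E + (sg A (fun x => ((v x - E : ℝ) : ℂ) - (e x : ℂ) * I) y).re)),
      mul_pos hp hp]

theorem abs_xo_le (hA : A.IsSymm) (he : ∀ x, 0 < e x) {X d0 a' : ℝ} {v : ι → ℝ} {y : ι}
    (hg : Gd A E e X d0 a' v y) : |xo A E e v y| ≤ X := by
  have hp := pw_pos (E := E) hA he v y
  rw [xo, abs_div, abs_of_pos hp, div_le_iff₀ hp]
  exact hg.tuned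

/-- the width of a big site -/
theorem d0_pw_le (hA : A.IsSymm) (he : ∀ x, 0 < e x) {d0 : ℝ} (hd : 0 ≤ d0) {v : ι → ℝ} {y : ι}
    (hg : d0 ≤ ‖Gr A (WV E e v) y y‖) : d0 * pw A E e v y ≤ 1 := by
  have hp := pw_pos (E := E) hA he v y
  have h1 := norm_Gr_self (E := E) hA he v y
  have h2 : d0 ^ 2 ≤ ‖Gr A (WV E e v) y y‖ ^ 2 := pow_le_pow_left₀ hd hg 2
  have h3 : (d0 * pw A E e v y) ^ 2 ≤ 1 ^ 2 := by
    rw [one_pow, ← h1, mul_pow]
    have h4 : pw A E e v y ^ 2 ≤ (v y - pc A E e v y) ^ 2 + pw A E e v y ^ 2 := by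
      linarith [sq_nonneg (v y - pc A E e v y)]
    exact mul_le_mul h2 h4 (sq_nonneg _) (by positivity)
  have h0 : 0 ≤ d0 * pw A E e v y := mul_nonneg hd hp.le
  nlinarith

/-- `m_y` at the kicked potential -/
theorem mm_kick (hA : A.IsSymm) (he : ∀ x, 0 < e x) (v : ι → ℝ) (y : ι) (x : ℝ) :
    pw A E e v y * mm A (WV E e (kick A E e y v x)) y = 1 / (1 + x ^ 2) := by
  have hp := pw_pos (E := E) hA he v y
  rw [kick, mm_line hA he]
  have h1 : (pc A E e v y + x * pw A E e v y - pc A E e v y) ^ 2 + pw A E e v y ^ 2 =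
      pw A E e v y ^ 2 * (1 + x ^ 2) := by ring
  rw [h1]
  have h2 : (0 : ℝ) < 1 + x ^ 2 := by positivity
  field_simp

/-- half-width of the window -/
noncomputable def lw (dl d0 : ℝ) : ℝ := min 1 (dl * d0)

/-- the window in the variable `x` -/
noncomputable def Jw (A : Matrix ι ι ℝ) (E : ℝ) (e : ι → ℝ) (dl d0 : ℝ) (v : ι → ℝ) (y : ι) :
    Set ℝ :=
  Icc (xo A E e v y - lw dl d0) (xo A E e v y + lw dl d0)

theorem lw_pos {dl d0 : ℝ} (hdl : 0 < dl) (hd : 0 < d0) : 0 < lw dl d0 :=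
  lt_min one_pos (mul_pos hdl hd)

theorem Jw_abs (hA : A.IsSymm) (he : ∀ x, 0 < e x) {X d0 a' dl : ℝ} {v : ι → ℝ} {y : ι}
    (hg : Gd A E e X d0 a' v y) {x : ℝ} (hx : x ∈ Jw A E e dl d0 v y) : |x| ≤ X + 1 := by
  have h1 := abs_le.1 (abs_xo_le hA he hg)
  have h2 : lw dl d0 ≤ 1 := min_le_left _ _
  rw [abs_le]
  exact ⟨by linarith [hx.1], by linarith [hx.2]⟩

/-- the kicked value stays in `[-(a' + dl), a' + dl]` -/
theorem Jw_flat (hA : A.IsSymm) (he : ∀ x, 0 < e x) {X d0 a' dl : ℝ} (hd : 0 < d0)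
    (hdl : 0 < dl) {v : ι → ℝ} {y : ι} (hg : Gd A E e X d0 a' v y) {x : ℝ}
    (hx : x ∈ Jw A E e dl d0 v y) :
    |pc A E e v y + x * pw A E e v y| ≤ a' + dl := by
  have hp := pw_pos (E := E) hA he v y
  have hdp := d0_pw_le (E := E) hA he hd.le hg.big
  have h1 : pc A E e v y + x * pw A E e v y = v y + (x - xo A E e v y) * pw A E e v y := by
    have : xo A E e v y * pw A E e v y = v y - pc A E e v y := by
      rw [xo, div_mul_cancel₀ _ hp.ne']
    rw [sub_mul, this]; ring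
  rw [h1]
  refine (abs_add_le _ _).trans (add_le_add hg.flat ?_)
  rw [abs_mul, abs_of_pos hp]
  have h2 : |x - xo A E e v y| ≤ lw dl d0 := by
    rw [abs_le]
    exact ⟨by linarith [hx.1], by linarith [hx.2]⟩
  have h3 : lw dl d0 ≤ dl * d0 := min_le_right _ _
  calc |x - xo A E e v y| * pw A E e v y ≤ dl * d0 * pw A E e v y :=
        mul_le_mul_of_nonneg_right (h2.trans h3) hp.le
    _ = dl * (d0 * pw A E e v y) := by ring
    _ ≤ dl * 1 := mul_le_mul_of_nonneg_left hdp hdl.le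
    _ = dl := mul_one _

theorem measurable_kick (v : ι → ℝ) (y : ι) : Measurable fun x : ℝ => kick A E e y v x := by
  unfold kick
  exact (measurable_upd_line v y).comp (by fun_prop)

/-- **lower bound of the resampling on the window** -/
theorem Io_geJ (hA : A.IsSymm) (he : ∀ x, 0 < e x) {y : ι} {c0 a' dl d0 X : ℝ}
    (hc0 : 0 ≤ c0) (hdl : 0 < dl) (hd : 0 < d0) (hμ : DensGe c0 (a' + dl) (μ y)) {v : ι → ℝ}
    (hg : Gd A E e X d0 a' v y) {Ψ : (ι → ℝ) → ℝ≥0∞} (hm : Measurable Ψ) :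
    ENNReal.ofReal (c0 / (1 + (X + 1) ^ 2)) *
      ∫⁻ x in Jw A E e dl d0 v y, Ψ (kick A E e y v x) ≤ Io μ A E e y Ψ v := by
  have hp := pw_pos (E := E) hA he v y
  set F : ℝ → ℝ≥0∞ := fun t => ENNReal.ofReal (mm A (WV E e (Function.update v y t)) y) *
    Ψ (Function.update v y t) with hF
  have hFm : Measurable F :=
    ((measurable_mmL A E e y).comp (measurable_upd_line v y)).mul
      (hm.comp (measurable_upd_line v y))
  set f : ℝ → ℝ := fun x => pc A E e v y + x * pw A E e v y with hf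
  set S : Set ℝ := f '' Jw A E e dl d0 v y with hS
  have hSa : S ⊆ Icc (-(a' + dl)) (a' + dl) := by
    rintro t ⟨x, hx, rfl⟩
    exact abs_le.1 (Jw_flat hA he hd hdl hg hx)
  have h1 : ENNReal.ofReal c0 * ∫⁻ t in Icc (-(a' + dl)) (a' + dl), F t ≤ Io μ A E e y Ψ v := by
    calc ENNReal.ofReal c0 * ∫⁻ t in Icc (-(a' + dl)) (a' + dl), F t
        = ∫⁻ t, F t ∂(ENNReal.ofReal c0 •
            (volume : Measure ℝ).restrict (Icc (-(a' + dl)) (a' + dl))) := by
          rw [lintegral_smul_measure, smul_eq_mul]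
      _ ≤ ∫⁻ t, F t ∂(μ y) := lintegral_mono' hμ le_rfl
  have h2 : ∫⁻ t in S, F t ≤ ∫⁻ t in Icc (-(a' + dl)) (a' + dl), F t := lintegral_mono_set hSa
  have h3 : ∫⁻ t in S, F t =
      ∫⁻ x in Jw A E e dl d0 v y, ENNReal.ofReal (pw A E e v y) * F (f x) := by
    have h4 := lintegral_image_eq_lintegral_abs_deriv_mul (s := Jw A E e dl d0 v y)
      (f := f) (f' := fun _ => pw A E e v y) measurableSet_Icc (fun u _ => by
        have : HasDerivAt f (pw A E e v y) u := by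
          have h5 := ((hasDerivAt_id u).mul_const (pw A E e v y)).const_add (pc A E e v y)
          rw [one_mul] at h5
          exact h5
        exact this.hasDerivWithinAt) (fun u _ u' _ huu => by
          simp only [f] at huu
          exact mul_right_cancel₀ hp.ne' (add_left_cancel huu)) F
    rw [abs_of_pos hp] at h4
    exact h4
  have h4 : ENNReal.ofReal (1 / (1 + (X + 1) ^ 2)) *
      ∫⁻ x in Jw A E e dl d0 v y, Ψ (kick A E e y v x) ≤ ∫⁻ t in S, F t := by
    have hmk : Measurable fun x => Ψ (kick A E e y v x) := hm.comp (measurable_kick v y)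
    rw [h3, ← lintegral_const_mul _ hmk]
    refine setLIntegral_mono' measurableSet_Icc fun x hx => ?_
    have h5 := mm_kick (E := E) hA he v y x
    have h6 : 1 / (1 + (X + 1) ^ 2) ≤ 1 / (1 + x ^ 2) := by
      have h7 : x ^ 2 ≤ (X + 1) ^ 2 := by
        rw [← sq_abs]
        exact pow_le_pow_left₀ (abs_nonneg _) (Jw_abs hA he hg hx) 2
      exact one_div_le_one_div_of_le (by positivity) (by linarith)
    show ENNReal.ofReal (1 / (1 + (X + 1) ^ 2)) * Ψ (kick A E e y v x) ≤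
      ENNReal.ofReal (pw A E e v y) * (ENNReal.ofReal (mm A (WV E e (kick A E e y v x)) y) *
        Ψ (kick A E e y v x))
    rw [← mul_assoc, ← ENNReal.ofReal_mul hp.le, h5]
    exact mul_le_mul' (ENNReal.ofReal_le_ofReal h6) le_rfl
  refine le_trans (le_of_eq ?_) ((mul_le_mul' le_rfl (h4.trans h2)).trans h1)
  rw [← mul_assoc, ← ENNReal.ofReal_mul hc0, mul_one_div]

/-- **the same, when `Ψ ≥ m` off a set of measure at most half of the window** -/
theorem Io_ge_half (hA : A.IsSymm) (he : ∀ x, 0 < e x) {y : ι} {c0 a' dl d0 X : ℝ}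
    (hc0 : 0 ≤ c0) (hdl : 0 < dl) (hd : 0 < d0) (hμ : DensGe c0 (a' + dl) (μ y)) {v : ι → ℝ}
    (hg : Gd A E e X d0 a' v y) {Ψ : (ι → ℝ) → ℝ≥0∞} (hm : Measurable Ψ) {m : ℝ≥0∞}
    {Bs : Set ℝ} (hB : volume (Jw A E e dl d0 v y ∩ Bs) ≤ ENNReal.ofReal (lw dl d0))
    (hmin : ∀ x ∈ Jw A E e dl d0 v y, x ∉ Bs → m ≤ Ψ (kick A E e y v x)) :
    ENNReal.ofReal (c0 * lw dl d0 / (1 + (X + 1) ^ 2)) * m ≤ Io μ A E e y Ψ v := by
  refine le_trans ?_ (Io_geJ hA he hc0 hdl hd hμ hg hm)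
  have hl := lw_pos hdl hd
  set J := Jw A E e dl d0 v y with hJ
  set M : Set ℝ := {x | m ≤ Ψ (kick A E e y v x)} with hM
  have hMm : MeasurableSet M := measurableSet_le measurable_const (hm.comp (measurable_kick v y))
  have hsub : J \ (J ∩ Bs) ⊆ J ∩ M := by
    rintro x ⟨hxJ, hxB⟩
    exact ⟨hxJ, hmin x hxJ fun h => hxB ⟨hxJ, h⟩⟩
  have hvolJ : volume J = ENNReal.ofReal (lw dl d0) + ENNReal.ofReal (lw dl d0) := by
    rw [hJ, Jw, Real.volume_Icc, ← ENNReal.ofReal_add hl.le hl.le]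
    congr 1; ring
  have hvol : ENNReal.ofReal (lw dl d0) ≤ volume (J ∩ M) := by
    have h1 : volume J - volume (J ∩ Bs) ≤ volume (J ∩ M) :=
      le_measure_diff.trans (measure_mono hsub)
    refine le_trans ?_ h1
    rw [hvolJ]
    exact ENNReal.le_sub_of_add_le_right (ne_top_of_le_ne_top ENNReal.ofReal_ne_top hB)
      (add_le_add le_rfl hB)
  have h5 : ENNReal.ofReal (c0 * lw dl d0 / (1 + (X + 1) ^ 2)) =
      ENNReal.ofReal (c0 / (1 + (X + 1) ^ 2)) * ENNReal.ofReal (lw dl d0) := by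
    rw [← ENNReal.ofReal_mul (by positivity)]
    congr 1; ring
  rw [h5, mul_assoc]
  refine mul_le_mul' le_rfl ?_
  calc ENNReal.ofReal (lw dl d0) * m ≤ m * volume (J ∩ M) := by
        rw [mul_comm]; exact mul_le_mul' le_rfl hvol
    _ = ∫⁻ x in J ∩ M, m := (setLIntegral_const _ _).symm
    _ ≤ ∫⁻ x in J ∩ M, Ψ (kick A E e y v x) :=
        setLIntegral_mono' (measurableSet_Icc.inter hMm) fun x hx => hx.2
    _ ≤ ∫⁻ x in J, Ψ (kick A E e y v x) := lintegral_mono_set inter_subset_left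

end P365Z0
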