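import Vale.Agent.P365.Z0.One
import Vale.Agent.P365.Stat.KickPt

/-!
# P365-Z0 (block Z3b, `lintegral` form): resampling of one site, general product law

* `Io μ A E e y Ψ v = ∫⁻ t, m_y Ψ (update v y t) dμ_y(t)`.
* `Io_resample`: `∫⁻ m_y Io Ψ ≤ π D ∫⁻ m_y Ψ`.
* `Io_ge`: lower bound by `n` sample points `v_y + β (j h + u)`.
* measurability of `Gr`, `mm`, `KK`, `muf`, `Tm`, `Qm` along `WV E e`.
-/

set_option linter.all false

namespace P365Z0

open Matrix Complex MeasureTheory Set P365L P365L.Stat P365L.Poi P365T1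
open scoped ComplexConjugate ENNReal Real

variable {ι : Type*} [Fintype ι] [DecidableEq ι]
variable {A : Matrix ι ι ℝ} {E : ℝ} {e : ι → ℝ} {μ : ι → Measure ℝ}

/-! ### measurability -/

theorem measurable_WV_coord (E : ℝ) (e : ι → ℝ) (x : ι) :
    Measurable fun v : ι → ℝ => WV E e v x := by
  unfold WV
  have h : Measurable fun v : ι → ℝ => v x - E := by fun_prop
  exact (Complex.measurable_ofReal.comp h).sub_const _

theorem measurable_Gr_WV (A : Matrix ι ι ℝ) (E : ℝ) (e : ι → ℝ) (x y : ι) :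
    Measurable fun v : ι → ℝ => Gr A (WV E e v) x y :=
  measurable_Gr (fun v => WV E e v) (fun z => measurable_WV_coord E e z) x y

theorem measurable_mm_WV (A : Matrix ι ι ℝ) (E : ℝ) (e : ι → ℝ) (x : ι) :
    Measurable fun v : ι → ℝ => mm A (WV E e v) x :=
  Complex.measurable_im.comp (measurable_Gr_WV A E e x x)

theorem measurable_KK_WV (A : Matrix ι ι ℝ) (E : ℝ) (e : ι → ℝ) (x y : ι) :
    Measurable fun v : ι → ℝ => KK A (WV E e v) x y :=
  (measurable_Gr_WV A E e x y).norm.pow_const 2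

theorem measurable_PP_WV (A : Matrix ι ι ℝ) (E : ℝ) (e : ι → ℝ) (x y : ι) :
    Measurable fun v : ι → ℝ => PP A (WV E e v) x y := by
  unfold PP
  exact ((((Complex.measurable_im.comp (measurable_WV_coord E e y)).neg).mul
    (measurable_KK_WV A E e x y)).div (measurable_mm_WV A E e x))

theorem measurable_muf_WV (A : Matrix ι ι ℝ) (E : ℝ) (e a : ι → ℝ) (x : ι) :
    Measurable fun v : ι → ℝ => muf A (WV E e v) a x := by
  unfold muf
  exact (Finset.measurable_sum _ fun y _ => (measurable_PP_WV A E e x y).mul_const _).sub_const _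

theorem measurable_Tm_WV (A : Matrix ι ι ℝ) (E : ℝ) (e a : ι → ℝ) (z w : ι) :
    Measurable fun v : ι → ℝ => Tm A (WV E e v) a z w := by
  have h : ∀ v : ι → ℝ, Tm A (WV E e v) a z w =
      (I / 2) * ∑ q, (∑ p, (starRingEnd ℂ) (Gr A (WV E e v) p z) * Bm A a p q) *
        Gr A (WV E e v) q w := by
    intro v
    rw [Tm, Matrix.smul_apply, smul_eq_mul, Matrix.mul_apply]
    congr 1
  simp only [h]
  refine Measurable.const_mul (Finset.measurable_sum _ fun q _ => Measurable.mul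
    (Finset.measurable_sum _ fun p _ => Measurable.mul_const ?_ _) (measurable_Gr_WV A E e q w)) _
  exact Complex.continuous_conj.measurable.comp (measurable_Gr_WV A E e p z)

theorem measurable_Qm_WV (A : Matrix ι ι ℝ) (E : ℝ) (e a : ι → ℝ) (z y : ι) :
    Measurable fun v : ι → ℝ => Qm A (WV E e v) a z y := by
  unfold Qm
  refine (measurable_Tm_WV A E e a z y).sub (Measurable.mul (Measurable.const_mul
    (Complex.measurable_ofReal.comp (measurable_muf_WV A E e a y)) _) ?_)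
  exact Complex.continuous_conj.measurable.comp (measurable_Gr_WV A E e z y)

/-! ### the resampling operator -/

/-- resampling of the site `y` with the weight `m_y` -/
noncomputable def Io (μ : ι → Measure ℝ) (A : Matrix ι ι ℝ) (E : ℝ) (e : ι → ℝ) (y : ι)
    (Ψ : (ι → ℝ) → ℝ≥0∞) (v : ι → ℝ) : ℝ≥0∞ :=
  ∫⁻ t, ENNReal.ofReal (mm A (WV E e (Function.update v y t)) y) * Ψ (Function.update v y t)
    ∂(μ y)

theorem Io_update (y : ι) (Ψ : (ι → ℝ) → ℝ≥0∞) (v : ι → ℝ) (t : ℝ) :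
    Io μ A E e y Ψ (Function.update v y t) = Io μ A E e y Ψ v := by
  unfold Io
  simp only [Function.update_idem]

theorem Io_mono (y : ι) {Ψ Ψ' : (ι → ℝ) → ℝ≥0∞} (h : ∀ v, Ψ v ≤ Ψ' v) (v : ι → ℝ) :
    Io μ A E e y Ψ v ≤ Io μ A E e y Ψ' v :=
  lintegral_mono fun t => mul_le_mul' le_rfl (h _)

theorem measurable_mmL (A : Matrix ι ι ℝ) (E : ℝ) (e : ι → ℝ) (y : ι) :
    Measurable fun v : ι → ℝ => ENNReal.ofReal (mm A (WV E e v) y) :=
  (measurable_mm_WV A E e y).ennreal_ofReal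

theorem measurable_Io [∀ i, IsProbabilityMeasure (μ i)] (y : ι) {Ψ : (ι → ℝ) → ℝ≥0∞}
    (hm : Measurable Ψ) : Measurable fun v => Io μ A E e y Ψ v := by
  have h1 : Measurable fun p : (ι → ℝ) × ℝ =>
      ENNReal.ofReal (mm A (WV E e (Function.update p.1 y p.2)) y) *
        Ψ (Function.update p.1 y p.2) :=
    ((measurable_mmL A E e y).comp (measurable_upd y)).mul (hm.comp (measurable_upd y))
  exact h1.lintegral_prod_right'

theorem measurable_mmU (A : Matrix ι ι ℝ) (E : ℝ) (e : ι → ℝ) (y : ι) (v : ι → ℝ) :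
    Measurable fun t : ℝ => ENNReal.ofReal (mm A (WV E e (Function.update v y t)) y) :=
  (measurable_mmL A E e y).comp (measurable_upd_line v y)

/-- one-site spectral averaging -/
theorem one_siteL (hA : A.IsSymm) (he : ∀ x, 0 < e x) {y : ι} {D : ℝ} (hD : 0 ≤ D)
    (hμ : DensLe D (μ y)) (v : ι → ℝ) :
    ∫⁻ t, ENNReal.ofReal (mm A (WV E e (Function.update v y t)) y) ∂(μ y) ≤
      ENNReal.ofReal (π * D) := by
  have hg : (0 : ℝ) < (fun _ : ι => (1 : ℝ)) y := one_pos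
  have h1 := Z0.integrable_im_vol (U := fun _ => -E) (g := fun _ => 1) hA he v (z := y) hg
  have h2 := Z0.vol_site (U := fun _ => -E) (g := fun _ => 1) hA he v (z := y) hg
  simp only [Z0.Gc_eq_WV] at h1 h2
  have hnn : ∀ t, 0 ≤ (Gr A (WV E e (Function.update v y t)) y y).im := by
    intro t
    have := (im_pos (U := fun _ => -E) (g := fun _ => 1) hA he (Function.update v y t) y).le
    rwa [Z0.Gc_eq_WV] at this
  calc ∫⁻ t, ENNReal.ofReal (mm A (WV E e (Function.update v y t)) y) ∂(μ y)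
      ≤ ∫⁻ t, ENNReal.ofReal (mm A (WV E e (Function.update v y t)) y)
          ∂(ENNReal.ofReal D • (volume : Measure ℝ)) := lintegral_mono' hμ le_rfl
    _ = ENNReal.ofReal D * ∫⁻ t, ENNReal.ofReal (mm A (WV E e (Function.update v y t)) y) := by
        rw [lintegral_smul_measure, smul_eq_mul]
    _ = ENNReal.ofReal D * ENNReal.ofReal π := by
        congr 1
        have h3 := ofReal_integral_eq_lintegral_ofReal h1 (Filter.Eventually.of_forall hnn)
        rw [h2, div_one] at h3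
        exact h3.symm
    _ = ENNReal.ofReal (π * D) := by
        rw [← ENNReal.ofReal_mul hD, mul_comm]

/-- (R) -/
theorem Io_resample [∀ i, IsProbabilityMeasure (μ i)] (hA : A.IsSymm) (he : ∀ x, 0 < e x)
    {y : ι} {D : ℝ} (hD : 0 ≤ D) (hμ : DensLe D (μ y)) {Ψ : (ι → ℝ) → ℝ≥0∞}
    (hm : Measurable Ψ) :
    ∫⁻ v, ENNReal.ofReal (mm A (WV E e v) y) * Io μ A E e y Ψ v ∂(Measure.pi μ) ≤
      ENNReal.ofReal (π * D) *
        ∫⁻ v, ENNReal.ofReal (mm A (WV E e v) y) * Ψ v ∂(Measure.pi μ) := by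
  have hIm : Measurable fun v => Io μ A E e y Ψ v := measurable_Io y hm
  have hF : Measurable fun v => ENNReal.ofReal (mm A (WV E e v) y) * Io μ A E e y Ψ v :=
    (measurable_mmL A E e y).mul hIm
  have hF' : Measurable fun v => ENNReal.ofReal (mm A (WV E e v) y) * Ψ v :=
    (measurable_mmL A E e y).mul hm
  rw [MAff.lintegral_resample μ y hF, MAff.lintegral_resample μ y hF']
  calc ∫⁻ v, ∫⁻ t, ENNReal.ofReal (mm A (WV E e (Function.update v y t)) y) *
          Io μ A E e y Ψ (Function.update v y t) ∂(μ y) ∂(Measure.pi μ)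
      ≤ ∫⁻ v, ENNReal.ofReal (π * D) * Io μ A E e y Ψ v ∂(Measure.pi μ) := by
        refine lintegral_mono fun v => ?_
        simp only [Io_update]
        rw [lintegral_mul_const _ (measurable_mmU A E e y v)]
        exact mul_le_mul' (one_siteL hA he hD hμ v) le_rfl
    _ = ENNReal.ofReal (π * D) * ∫⁻ v, Io μ A E e y Ψ v ∂(Measure.pi μ) :=
        lintegral_const_mul _ hIm

/-- weighted one-site averaging -/
theorem site_leL [∀ i, IsProbabilityMeasure (μ i)] (hA : A.IsSymm) (he : ∀ x, 0 < e x)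
    {y : ι} {D : ℝ} (hD : 0 ≤ D) (hμ : DensLe D (μ y)) {Ψ Ψ' : (ι → ℝ) → ℝ≥0∞}
    (hm : Measurable Ψ) (hm' : Measurable Ψ')
    (hle : ∀ v t, Ψ (Function.update v y t) ≤ Ψ' v) :
    ∫⁻ v, ENNReal.ofReal (mm A (WV E e v) y) * Ψ v ∂(Measure.pi μ) ≤
      ENNReal.ofReal (π * D) * ∫⁻ v, Ψ' v ∂(Measure.pi μ) := by
  have hF' : Measurable fun v => ENNReal.ofReal (mm A (WV E e v) y) * Ψ v :=
    (measurable_mmL A E e y).mul hm
  rw [MAff.lintegral_resample μ y hF', ← lintegral_const_mul _ hm']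
  refine lintegral_mono fun v => ?_
  calc ∫⁻ t, ENNReal.ofReal (mm A (WV E e (Function.update v y t)) y) *
          Ψ (Function.update v y t) ∂(μ y)
      ≤ ∫⁻ t, ENNReal.ofReal (mm A (WV E e (Function.update v y t)) y) * Ψ' v ∂(μ y) :=
        lintegral_mono fun t => mul_le_mul' le_rfl (hle v t)
    _ = (∫⁻ t, ENNReal.ofReal (mm A (WV E e (Function.update v y t)) y) ∂(μ y)) * Ψ' v :=
        lintegral_mul_const _ (measurable_mmU A E e y v)
    _ ≤ ENNReal.ofReal (π * D) * Ψ' v := mul_le_mul' (one_siteL hA he hD hμ v) le_rfl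

/-! ### lower bound -/

/-- `m_y` on the line through `v`: `β m_y ≥ 1 / (1 + (X + 1)²)` at `v_y + β s`, `s ∈ [0, 1]` -/
theorem mm_line_ge (hA : A.IsSymm) (he : ∀ x, 0 < e x) {y : ι} {X : ℝ} {v : ι → ℝ}
    (hX : ‖Gr A (WV E e v) y y‖ ≤ X * (Gr A (WV E e v) y y).im) {s : ℝ} (hs0 : 0 ≤ s)
    (hs1 : s ≤ 1) :
    1 / (1 + (X + 1) ^ 2) ≤ bet (Gr A (WV E e v) y y) *
      mm A (WV E e (Function.update v y (v y + bet (Gr A (WV E e v) y y) * s))) y := by
  set G := Gr A (WV E e v) y y with hG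
  have hpos : 0 < G.im := by
    have := im_pos (U := fun _ => -E) (g := fun _ => 1) hA he v y
    rwa [Z0.Gc_eq_WV] at this
  have hne : G ≠ 0 := by
    intro h
    rw [h, Complex.zero_im] at hpos
    exact lt_irrefl _ hpos
  have hn : 0 < ‖G‖ := norm_pos_iff.2 hne
  have hb := bet_pos hpos
  have hbe := im_eq_bet hpos
  -- the value
  have hup := Poi.im_update (U := fun _ => -E) (g := fun _ => 1) hA he v y (v y + bet G * s)
  simp only [Z0.Gc_eq_WV] at hup
  rw [← hG] at hup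
  have hX0 : 1 ≤ X := by
    have h1 : G.im ≤ ‖G‖ := (le_abs_self _).trans (Complex.abs_im_le_norm _)
    have h2 : 1 * G.im ≤ X * G.im := by linarith
    exact le_of_mul_le_mul_right h2 hpos
  -- `|1 + β s G|² ≤ (1 + (X+1)²) β² |G|²`
  have hnorm : ‖1 + (((1 : ℝ) * (v y + bet G * s - v y) : ℝ) : ℂ) * G‖ ^ 2 ≤
      (1 + (X + 1) ^ 2) * (bet G ^ 2 * ‖G‖ ^ 2) := by
    have e1 : (1 : ℝ) * (v y + bet G * s - v y) = bet G * s := by ring
    rw [e1]
    have e2 : ‖1 + ((bet G * s : ℝ) : ℂ) * G‖ ^ 2 =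
        ‖G‖ ^ 2 * ((bet G * s + (G⁻¹).re) ^ 2 + bet G ^ 2) := by
      have h1 : (1 : ℂ) + ((bet G * s : ℝ) : ℂ) * G = G * ss G (bet G * s) := by
        rw [ss, mul_add, mul_inv_cancel₀ hne]
        ring
      rw [h1, norm_mul, mul_pow, ss_normSq]
    rw [e2]
    have h3 : |(G⁻¹).re| ≤ X * bet G := by
      have h4 : |(G⁻¹).re| ≤ ‖G‖⁻¹ := by
        rw [← norm_inv]; exact Complex.abs_re_le_norm _
      refine h4.trans ?_
      have h5 : bet G = G.im / ‖G‖ ^ 2 := by
        rw [eq_div_iff (by positivity)]; exact hbe.symm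
      rw [h5, inv_eq_one_div, ← mul_div_assoc, div_le_div_iff₀ hn (by positivity)]
      nlinarith
    have h6 : |bet G * s + (G⁻¹).re| ≤ (X + 1) * bet G := by
      refine (abs_add_le _ _).trans ?_
      rw [abs_of_nonneg (mul_nonneg hb.le hs0)]
      nlinarith
    have h7 : (bet G * s + (G⁻¹).re) ^ 2 ≤ ((X + 1) * bet G) ^ 2 := by
      rw [← sq_abs]
      exact pow_le_pow_left₀ (abs_nonneg _) h6 2
    have h8 : 0 ≤ ‖G‖ ^ 2 := by positivity
    nlinarith [mul_le_mul_of_nonneg_left h7 h8]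
  have hpos2 : 0 < ‖1 + (((1 : ℝ) * (v y + bet G * s - v y) : ℝ) : ℂ) * G‖ ^ 2 := by
    have h1 := (Poi.update (U := fun _ => -E) (g := fun _ => 1) hA he v y
      (v y + bet G * s)).1
    rw [Z0.Gc_eq_WV] at h1
    exact pow_pos (norm_pos_iff.2 h1) 2
  show 1 / (1 + (X + 1) ^ 2) ≤ bet G *
    (Gr A (WV E e (Function.update v y (v y + bet G * s))) y y).im
  rw [hup, hbe, mul_div_assoc', div_le_div_iff₀ (by positivity) hpos2, one_mul]
  calc _ ≤ (1 + (X + 1) ^ 2) * (bet G ^ 2 * ‖G‖ ^ 2) := hnorm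
    _ = bet G * (bet G * ‖G‖ ^ 2) * (1 + (X + 1) ^ 2) := by ring

/-- the width of the window: `β d0 ≤ 1` -/
theorem bet_mul_le {G : ℂ} (hG : 0 < G.im) {d0 : ℝ} (hd : 0 < d0) (h : d0 ≤ ‖G‖) :
    bet G * d0 ≤ 1 := by
  have hne : G ≠ 0 := by
    intro h
    rw [h, Complex.zero_im] at hG
    exact lt_irrefl _ hG
  have hn : 0 < ‖G‖ := norm_pos_iff.2 hne
  have h1 : bet G ≤ ‖G‖⁻¹ := by
    rw [← norm_inv]
    have := Complex.abs_im_le_norm (G⁻¹)
    rw [bet]
    exact (neg_le_abs _).trans this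
  calc bet G * d0 ≤ ‖G‖⁻¹ * ‖G‖ := mul_le_mul h1 h hd.le (by positivity)
    _ = 1 := inv_mul_cancel₀ hn.ne'

/-- **lower bound by sample points** -/
theorem Io_ge (hA : A.IsSymm) (he : ∀ x, 0 < e x) {y : ι} {kap a dl d0 X h : ℝ} {n : ℕ}
    (hkap : 0 ≤ kap) (hμ : DensGe kap a (μ y)) {v : ι → ℝ} (hv : |v y| + dl ≤ a) (hd : 0 < d0)
    (hG : d0 ≤ ‖Gr A (WV E e v) y y‖)
    (hX : ‖Gr A (WV E e v) y y‖ ≤ X * (Gr A (WV E e v) y y).im) (hh : 0 < h)
    (hn : n * h ≤ dl * d0) (hn1 : n * h ≤ 1) {Ψ : (ι → ℝ) → ℝ≥0∞} (hm : Measurable Ψ)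
    {m : ℝ≥0∞} (hmin : ∀ u ∈ Icc (0 : ℝ) (h / 2), ∃ j : Fin n,
      m ≤ Ψ (Function.update v y (v y + bet (Gr A (WV E e v) y y) * ((j : ℕ) * h + u)))) :
    ENNReal.ofReal (kap * h / (2 * (1 + (X + 1) ^ 2))) * m ≤ Io μ A E e y Ψ v := by
  set G := Gr A (WV E e v) y y with hGdef
  have hpos : 0 < G.im := by
    have := im_pos (U := fun _ => -E) (g := fun _ => 1) hA he v y
    rwa [Z0.Gc_eq_WV] at this
  have hb := bet_pos hpos
  have hbd := bet_mul_le hpos hd hG
  set β := bet G with hβ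
  set F : ℝ → ℝ≥0∞ := fun t => ENNReal.ofReal (mm A (WV E e (Function.update v y t)) y) *
    Ψ (Function.update v y t) with hF
  have hFm : Measurable F :=
    ((measurable_mmL A E e y).comp (measurable_upd_line v y)).mul
      (hm.comp (measurable_upd_line v y))
  -- the pieces
  let f : Fin n → ℝ → ℝ := fun j u => v y + β * ((j : ℕ) * h + u)
  let S : Fin n → Set ℝ := fun j => f j '' Icc 0 (h / 2)
  have hfS : ∀ j, S j = Icc (v y + β * ((j : ℕ) * h)) (v y + β * ((j : ℕ) * h + h / 2)) := by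
    intro j
    ext t
    constructor
    · rintro ⟨u, hu, rfl⟩
      constructor
      · have := mul_nonneg hb.le hu.1
        simp only [f]; linarith
      · have := mul_le_mul_of_nonneg_left hu.2 hb.le
        simp only [f]; linarith
    · rintro ⟨h1, h2⟩
      refine ⟨(t - v y) / β - (j : ℕ) * h, ⟨?_, ?_⟩, ?_⟩
      · rw [sub_nonneg, le_div_iff₀ hb]; linarith
      · rw [sub_le_iff_le_add, div_le_iff₀ hb]; linarith
      · simp only [f]
        field_simp
        ring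
  have hSm : ∀ j, MeasurableSet (S j) := fun j => by rw [hfS]; exact measurableSet_Icc
  have hSd : Pairwise (Function.onFun Disjoint S) := by
    intro i j hij
    rw [Function.onFun, hfS, hfS, Set.disjoint_left]
    rintro t ⟨h1, h2⟩ ⟨h3, h4⟩
    have hij' : (i : ℕ) ≠ (j : ℕ) := fun h => hij (Fin.ext h)
    rcases lt_or_gt_of_ne hij' with hlt | hlt
    · have h5 : ((i : ℕ) : ℝ) + 1 ≤ ((j : ℕ) : ℝ) := by exact_mod_cast hlt
      have h6 : β * (((i : ℕ) : ℝ) * h + h / 2) < β * (((j : ℕ) : ℝ) * h) := by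
        apply mul_lt_mul_of_pos_left _ hb
        nlinarith
      linarith
    · have h5 : ((j : ℕ) : ℝ) + 1 ≤ ((i : ℕ) : ℝ) := by exact_mod_cast hlt
      have h6 : β * (((j : ℕ) : ℝ) * h + h / 2) < β * (((i : ℕ) : ℝ) * h) := by
        apply mul_lt_mul_of_pos_left _ hb
        nlinarith
      linarith
  have hsn : ∀ (j : Fin n) (u : ℝ), u ∈ Icc (0 : ℝ) (h / 2) →
      0 ≤ ((j : ℕ) : ℝ) * h + u ∧ ((j : ℕ) : ℝ) * h + u ≤ n * h := by
    intro j u hu
    have h1 : (((j : ℕ) : ℝ)) + 1 ≤ n := by exact_mod_cast j.2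
    have h0 : (0 : ℝ) ≤ ((j : ℕ) : ℝ) := Nat.cast_nonneg _
    constructor
    · have := mul_nonneg h0 hh.le
      linarith [hu.1]
    · nlinarith [hu.2]
  have hSa : ∀ j, S j ⊆ Icc (-a) a := by
    intro j
    rintro t ⟨u, hu, rfl⟩
    obtain ⟨h1, h2⟩ := hsn j u hu
    have h3 : β * (((j : ℕ) : ℝ) * h + u) ≤ dl := by
      refine le_of_mul_le_mul_right ?_ hd
      calc β * (((j : ℕ) : ℝ) * h + u) * d0 = (((j : ℕ) : ℝ) * h + u) * (β * d0) := by ring
        _ ≤ (((j : ℕ) : ℝ) * h + u) * 1 := mul_le_mul_of_nonneg_left hbd h1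
        _ ≤ dl * d0 := by linarith
    have h4 : 0 ≤ β * (((j : ℕ) : ℝ) * h + u) := mul_nonneg hb.le h1
    have h5 := abs_le.1 (show |v y| ≤ a - dl by linarith)
    constructor
    · show -a ≤ v y + β * (((j : ℕ) : ℝ) * h + u)
      linarith [h5.1, h4.trans h3]
    · show v y + β * (((j : ℕ) : ℝ) * h + u) ≤ a
      linarith [h5.2]
  -- lower bound
  have h1 : ENNReal.ofReal kap * ∫⁻ t in Icc (-a) a, F t ≤ Io μ A E e y Ψ v := by
    calc ENNReal.ofReal kap * ∫⁻ t in Icc (-a) a, F t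
        = ∫⁻ t, F t ∂(ENNReal.ofReal kap • (volume : Measure ℝ).restrict (Icc (-a) a)) := by
          rw [lintegral_smul_measure, smul_eq_mul]
      _ ≤ ∫⁻ t, F t ∂(μ y) := lintegral_mono' hμ le_rfl
  have h2 : ∑ j, ∫⁻ t in S j, F t ≤ ∫⁻ t in Icc (-a) a, F t := by
    rw [← tsum_fintype (L := SummationFilter.unconditional _),
      ← lintegral_iUnion hSm hSd]
    exact lintegral_mono_set (iUnion_subset hSa)
  have h3 : ∀ j, ∫⁻ t in S j, F t =
      ∫⁻ u in Icc (0 : ℝ) (h / 2), ENNReal.ofReal β * F (f j u) := by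
    intro j
    have h4 := lintegral_image_eq_lintegral_abs_deriv_mul (s := Icc (0 : ℝ) (h / 2))
      (f := f j) (f' := fun _ => β) measurableSet_Icc (fun u _ => by
        have : HasDerivAt (f j) β u := by
          have h5 := (((hasDerivAt_id u).const_add (((j : ℕ) : ℝ) * h)).const_mul β).const_add
            (v y)
          rw [mul_one] at h5
          exact h5
        exact this.hasDerivWithinAt) (fun u _ u' _ huu => by
          simp only [f] at huu
          have := mul_left_cancel₀ hb.ne' (add_left_cancel huu)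
          linarith) F
    rw [abs_of_pos hb] at h4
    exact h4
  have h4 : ENNReal.ofReal (1 / (1 + (X + 1) ^ 2)) * m * ENNReal.ofReal (h / 2) ≤
      ∑ j, ∫⁻ t in S j, F t := by
    simp only [h3]
    have hmeas : ∀ j : Fin n, Measurable fun u => ENNReal.ofReal β * F (f j u) := fun j =>
      (hFm.comp (by simp only [f]; fun_prop)).const_mul _
    rw [← lintegral_finsetSum _ fun j _ => hmeas j]
    have hvol : (volume : Measure ℝ) (Icc (0 : ℝ) (h / 2)) = ENNReal.ofReal (h / 2) := by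
      rw [Real.volume_Icc, sub_zero]
    rw [← hvol, ← setLIntegral_const]
    refine setLIntegral_mono (Finset.measurable_sum _ fun j _ => hmeas j) fun u hu => ?_
    obtain ⟨j, hj⟩ := hmin u hu
    obtain ⟨h5, h6⟩ := hsn j u hu
    refine le_trans ?_ (Finset.single_le_sum (f := fun j => ENNReal.ofReal β * F (f j u))
      (fun _ _ => zero_le) (Finset.mem_univ j))
    have h7 := mm_line_ge (E := E) hA he hX h5 (h6.trans hn1)
    show ENNReal.ofReal (1 / (1 + (X + 1) ^ 2)) * m ≤ ENNReal.ofReal β * (ENNReal.ofReal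
      (mm A (WV E e (Function.update v y (v y + β * (((j : ℕ) : ℝ) * h + u)))) y) *
        Ψ (Function.update v y (v y + β * (((j : ℕ) : ℝ) * h + u))))
    rw [← mul_assoc, ← ENNReal.ofReal_mul hb.le]
    exact mul_le_mul' (ENNReal.ofReal_le_ofReal h7) hj
  refine le_trans (le_of_eq ?_) ((mul_le_mul' le_rfl (h4.trans h2)).trans h1)
  have hX' : 0 < 1 + (X + 1) ^ 2 := by positivity
  have h5 : kap * h / (2 * (1 + (X + 1) ^ 2)) = kap * (1 / (1 + (X + 1) ^ 2)) * (h / 2) := by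
    field_simp
  rw [h5, ENNReal.ofReal_mul (by positivity), ENNReal.ofReal_mul hkap]
  ring

/-- the same in the form of `I5`: `|v_y| ≤ a'`, density on `[-(a' + dl), a' + dl]` -/
theorem Io_ge' (hA : A.IsSymm) (he : ∀ x, 0 < e x) {y : ι} {c0 a' dl d0 X h : ℝ} {n : ℕ}
    (hc0 : 0 ≤ c0) (hμ : DensGe c0 (a' + dl) (μ y)) {v : ι → ℝ} (hv : |v y| ≤ a') (hd : 0 < d0)
    (hG : d0 ≤ ‖Gr A (WV E e v) y y‖)
    (hX : ‖Gr A (WV E e v) y y‖ ≤ X * mm A (WV E e v) y) (hh : 0 < h)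
    (hn : n * h ≤ dl * d0) (hn1 : n * h ≤ 1) {Ψ : (ι → ℝ) → ℝ≥0∞} (hm : Measurable Ψ)
    {m : ℝ≥0∞} (hmin : ∀ u ∈ Icc (0 : ℝ) (h / 2), ∃ j : Fin n,
      m ≤ Ψ (Function.update v y (v y + bet (Gr A (WV E e v) y y) * ((j : ℕ) * h + u)))) :
    ENNReal.ofReal (c0 * h / (2 * (1 + (X + 1) ^ 2))) * m ≤ Io μ A E e y Ψ v :=
  Io_ge hA he hc0 hμ (by linarith) hd hG hX hh hn hn1 hm hmin

end P365Z0
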