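import Vale.Agent.P365.Z0.LocOff915
import Vale.Agent.P365.Z0.Iface

/-!
# P365-T1.5, Z6: the fields `HC` and `loc` of the trap world for the concrete chain
-/

set_option linter.all false

namespace P365T1.Z0.Loc

open P365L P365O P365T1 P365T1.Link Vale.Agent.P365.C937 Vale.Agent.P365.J376 P365SH P365T1.H417
open P365T1.ISL Matrix Complex MeasureTheory
open P365L.TL P365T1.Seq Set P365T1.Bump P365T1.HCnum Filter P365T1.Conc
open scoped ENNReal

/-- **(HC), location of the pole and averaged mass at the centres, for the concrete chain** -/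
theorem hc_loc_full {lam E l : ℝ} (hlam : 0 < lam) (hE : |E| < 4 + lam)
    (hl : 0 < l) (hl2 : 2 * l ≤ lam) :
    ∃ (lam' c c0 : ℝ) (yf : ℕ → ℤ × ℤ) (Vsf : ℕ → ℤ × ℤ → ℝ) (th : ℕ → ℝ) (R : ℕ),
      0 < lam' ∧ lam' < lam ∧ 0 < c ∧ 0 < c0 ∧
      2 ≤ R ∧ (∀ r, R ≤ r → yf r ∈ Xr r) ∧ (∀ r z, |Vsf r z| ≤ lam') ∧
      (∀ r, R ≤ r → |E + th r| ≤ lam') ∧
      (∀ r, R ≤ r → |(yf r).1| < r ∧ |(yf r).2| < r) ∧
      ∀ rs, R ≤ rs → ∀ (I : ℕ) (ρ : Measure ℝ) (p : (PP yf rs I).Lb → ℝ)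
        (ν : (PP yf rs I).Lb → Measure ℝ), Lw ρ p ν →
        (∀ k, (DD p ν).mov k → ν k = nuS lam l) →
        (∀ (i : ℕ) (hi : i ≤ I) (z : ((Xr (rr rs i)).erase (yf (rr rs i)) : Finset (ℤ × ℤ))),
          ν ((PP yf rs I).win ⟨⟨i, Nat.lt_succ_of_le hi⟩, z⟩) =
            nuB (Vsf (rr rs i) z) (Real.exp (-(rr rs i : ℝ)))) →
        ∀ (N : ℕ) [NeZero N], (∀ i ≤ I, mS rs i ∣ N) →
          ∀ i ≤ I,
            (∀ s ∈ Ioo (tS rs I (i + 1)) 1,
              (DD p ν).HC N E i s (1 / (rr rs i : ℝ) ^ 30)) ∧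
            ∀ (l' : Tor N → (DD p ν).Λ) (x : Tor N), (DD p ν).cen i l' x →
              ∀ e : Tor N → ℝ, (∀ z, 0 < e z) → e x ≤ 1 / 2 →
              (∀ z ∈ LcT x (yf (rr rs i)) (rr rs i), e z ≤ Real.exp (-(rr rs i : ℝ))) →
              ∃ bad : Set (Tor N → ℝ), MeasurableSet bad ∧
                (∀ v u, Function.update v x u ∈ bad ↔ v ∈ bad) ∧
                Measure.pi (fun z => (DD p ν).ν (l' z)) bad ≤
                  ENNReal.ofReal (Real.exp (-(c * rr rs i))) ∧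
                P365Z.Off (AT N) E e (lam' + Real.exp (-(c * rr rs i)))
                  (e x + Real.exp (-(c * rr rs i))) x ⊆ bad ∧
                ∀ v, v ∉ bad →
                  ‖sg (AT N) (WV E e v) x - (th (rr rs i) : ℂ)‖ ≤ Real.exp (-(c * rr rs i)) ∧
                  c0 ≤ ∫ u, mm (AT N) (WV E e (Function.update v x u)) x
                    ∂((DD p ν).ν (l' x)) := by
  obtain ⟨C, κ, lam', ms, R0, r0, hC, hκ0, hκ1, hl0, hl1, hcell, hmain⟩ :=
    hc_nuS hlam hE hl hl2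
  have hch : ∀ r : ℕ, ∃ (Vs : ℤ × ℤ → ℝ) (y : ℤ × ℤ) (θ : ℝ), (∀ z, |Vs z| ≤ lam') ∧
      (r0 ≤ r → ∃ hy : y ∈ Xr r, CellGood E lam' κ ms R0 r Vs ⟨y, hy⟩ ∧
        θ = sE r Vs E ⟨y, hy⟩ - E) := by
    intro r
    by_cases hr : r0 ≤ r
    · obtain ⟨Vs, y, h⟩ := hcell r hr
      exact ⟨Vs, (y : ℤ × ℤ), _, h.Vs_le, fun _ => ⟨y.2, h, rfl⟩⟩
    · exact ⟨fun _ => 0, 0, 0, fun z => by rw [abs_zero]; exact hl0.le, fun h => absurd h hr⟩
  choose Vsf yf th hVs hgood using hch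
  set K : ℝ := (2 * (lam - l))⁻¹ with hKdef
  have hK0 : 0 ≤ K := by
    rw [hKdef]
    exact inv_nonneg.2 (by linarith)
  obtain ⟨κy, hκy, hdens⟩ := P365T1.Link.densGe_nuS hl hl2 (show (lam' + lam) / 2 < lam by linarith)
  obtain ⟨c, hc0, hcnum⟩ := P365T1.Z0.Num.loc_num hκ0 hκ1 hK0 ms R0
  have hg0 : 0 < (lam - lam') / 4 := by linarith
  have hev3 : ∀ᶠ r : ℕ in atTop, Real.exp (-(c * r)) ≤ (lam - lam') / 4 := by
    have h4 : Tendsto (fun r : ℕ => Real.exp (-(c * r))) atTop (nhds 0) := by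
      refine Real.tendsto_exp_neg_atTop_nhds_zero.comp ?_
      exact (tendsto_natCast_atTop_atTop).const_mul_atTop hc0
    exact (h4.eventually (gt_mem_nhds hg0)).mono fun r hr => hr.le
  obtain ⟨R1, -, hR1⟩ := exists_rs (((hc_num_exp hC hκ0 hκ1 ms R0).and (window_num ms)).and
    (hcnum.and hev3))
  refine ⟨lam', c, κy * min 1 ((lam - lam') / 4), yf, Vsf, th, max (max r0 R0) (max R1 5), hl0,
    hl1, hc0, mul_pos hκy (lt_min one_pos hg0), by omega, ?_, hVs, ?_, ?_, ?_⟩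
  · intro r hr
    obtain ⟨hy, -⟩ := hgood r (by omega)
    exact hy
  · intro r hr
    obtain ⟨hy, hG, hth⟩ := hgood r (by omega)
    have h1 : E + th r = sE r (Vsf r) E ⟨yf r, hy⟩ := by rw [hth]; ring
    rw [h1]
    exact hG.sE_le
  · intro r hr
    obtain ⟨hy', hG', -⟩ := hgood r (by omega)
    have h1 := hG'.y1
    have h2 := hG'.y2
    simp only at h1 h2
    constructor
    · refine lt_of_lt_of_le h1 ?_
      exact_mod_cast (show R0 ≤ r by omega)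
    · refine lt_of_lt_of_le h2 ?_
      exact_mod_cast (show R0 ≤ r by omega)
  intro rs hrs I ρ p ν hL hmov hwin N _ hN i hi
  have hrs2 : 2 ≤ rs := by omega
  have hrr : rs ≤ rr rs i := le_rr (by omega) i
  obtain ⟨⟨hnum, hwn⟩, ⟨b1, b2, b3⟩, b4⟩ := hR1 rs (by omega) i
  obtain ⟨hy, hG, hth⟩ := hgood (rr rs i) (by omega)
  have hyb : ∀ r, rs ≤ r → |(yf r).1| < r ∧ |(yf r).2| < r := by
    intro r hr
    obtain ⟨hy', hG', -⟩ := hgood r (by omega)
    have h1 := hG'.y1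
    have h2 := hG'.y2
    simp only at h1 h2
    constructor
    · refine lt_of_lt_of_le h1 ?_
      exact_mod_cast (show R0 ≤ r by omega)
    · refine lt_of_lt_of_le h2 ?_
      exact_mod_cast (show R0 ≤ r by omega)
  have hok : (DD p ν).Ok ρ := DD_ok hrs2 (fun r hr => mem_Xr_of_abs (hyb r hr).1 (hyb r hr).2) hL
  have hcin : CellIn (DD p ν) i (rr rs i) (4 * rr rs i, 4 * rr rs i) (yf (rr rs i))
      (Vsf (rr rs i)) (Real.exp (-(rr rs i : ℝ))) :=
    cellIn_DD (Vsf := Vsf) (w := fun i => Real.exp (-(rr rs i : ℝ))) hrs2 hyb hi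
      (Real.exp_pos _) (fun z => hwin i hi z)
  have he := Real.exp_pos (-(rr rs i : ℝ))
  constructor
  · intro s hs
    -- numbers
    have hr5 : (5 : ℝ) ≤ rr rs i := by exact_mod_cast (show 5 ≤ rr rs i by omega)
    have hb0 := bS_pos rs I
    have hb1 : bS rs I ≤ Real.exp (-(rr rs i : ℝ)) := by
      refine (bS_le_exp hrs2 hi).trans (Real.exp_le_exp.2 ?_)
      have h1 : (rr rs i : ℝ) ≤ (rr rs i : ℝ) ^ 4 := by
        calc (rr rs i : ℝ) = (rr rs i : ℝ) ^ 1 := (pow_one _).symm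
          _ ≤ (rr rs i : ℝ) ^ 4 := pow_le_pow_right₀ (by linarith) (by norm_num)
      linarith
    have hκp : κ ^ (rr rs i - R0) ≤ κ ^ (rr rs i - (R0 + 1)) :=
      pow_le_pow_of_le_one hκ0.le hκ1.le (by omega)
    obtain ⟨a1, a2, a3, a4, a5⟩ := hnum (Real.exp (-(rr rs i : ℝ))) (bS rs I)
      (3 * Real.exp (-(rr rs i : ℝ))) (8 * (rr rs i : ℝ) ^ 20) (8 * (rr rs i : ℝ) + 8)
      (κ ^ (rr rs i - R0)) he.le le_rfl hb0.le hb1 (by positivity) le_rfl (by positivity) le_rfl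
      (by positivity) le_rfl (by positivity) hκp
    have hw1 := hwn (Real.exp (-(rr rs i : ℝ))) (bS rs I) le_rfl hb1
    have hk1 : 8 * (rr rs i : ℝ) + 8 + 1 = 8 * (rr rs i : ℝ) + 9 := by ring
    rw [hk1] at a2 a3 a5
    have hε2 : 3 * Real.exp (-(rr rs i : ℝ)) ≤ 1 / 2 := by
      have h1 := Real.add_one_le_exp (rr rs i : ℝ)
      rw [Real.exp_neg]
      have h2 : (Real.exp (rr rs i : ℝ))⁻¹ ≤ (6 : ℝ)⁻¹ := inv_anti₀ (by norm_num) (by linarith)
      linarith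
    have htail := tail_e0S hrs2 (rs := rs) hi
    refine hmain (D := DD p ν) (y := ⟨yf (rr rs i), hy⟩) hcin hok hi ?_ hG he.le hmov hw1
      (δ := 32 * (2 * (rr rs i : ℝ) + 1) ^ (2 * ms + 2) * (Real.exp (-(rr rs i : ℝ)) + bS rs I) +
        32 * (2 * (rr rs i : ℝ) + 1) ^ ms * κ ^ (rr rs i - R0)) ?_ ?_
      (ε := 3 * Real.exp (-(rr rs i : ℝ))) ?_ hε2 (T := 8 * (rr rs i : ℝ) ^ 20) (by positivity)
      (own_ge hrs2 hi) (q := (rr rs i : ℝ) ^ 64) a1 ?_ ?_ a4 ?_ hs.1.le hs.2.le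
    · exact hN i hi
    · have : 0 ≤ 32 * (2 * (rr rs i : ℝ) + 1) ^ (2 * ms + 2) *
          (Real.exp (-(rr rs i : ℝ)) + bS rs I) := by positivity
      linarith
    · have : 0 ≤ 32 * (2 * (rr rs i : ℝ) + 1) ^ ms * κ ^ (rr rs i - R0) := by positivity
      exact le_add_of_nonneg_right this
    · show bS rs I + (∑ j ∈ Finset.Ico (i + 1) (I + 1), e0S rs j) + 2 * e0S rs i ≤
        3 * Real.exp (-(rr rs i : ℝ))
      have h1 : e0S rs i = Real.exp (-(rr rs i : ℝ)) := rfl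
      rw [← h1]
      linarith
    · rw [mul_assoc]; exact a2
    · have h1 : C * (8 * (rr rs i : ℝ) + 9) ^ 4 * ((rr rs i : ℝ) ^ 64) ^ 5 =
          C * ((8 * (rr rs i : ℝ) + 9) ^ 4 * ((rr rs i : ℝ) ^ 64) ^ 5) := by ring
      rw [h1]; exact a3
    · rw [mul_assoc]; exact a5
  · intro l' x hx e hepos hex hel
    have hw1 := hwn (Real.exp (-(rr rs i : ℝ))) (Real.exp (-(rr rs i : ℝ))) le_rfl le_rfl
    have hlx : (DD p ν).ν (l' x) = nuS lam l := hmov _ (hok.cen_mov hi hx)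
    have hsE := hG.sE_le
    have hthr : E + th (rr rs i) = sE (rr rs i) (Vsf (rr rs i)) E ⟨yf (rr rs i), hy⟩ := by
      rw [hth]; ring
    have main : ∃ bad : Set (Tor N → ℝ), MeasurableSet bad ∧
        (∀ v u, Function.update v x u ∈ bad ↔ v ∈ bad) ∧
        Measure.pi (fun z => (DD p ν).ν (l' z)) bad ≤
          ENNReal.ofReal (Real.exp (-(c * rr rs i))) ∧
        ∀ v, v ∉ bad →
          ‖sg (AT N) (WV E e v) x - (th (rr rs i) : ℂ)‖ ≤ Real.exp (-(c * rr rs i)) ∧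
          κy * min 1 ((lam - lam') / 4) ≤
            ∫ u, mm (AT N) (WV E e (Function.update v x u)) x ∂((DD p ν).ν (l' x)) := by
      rw [hth]
      refine loc_mass (D := DD p ν) (y := ⟨yf (rr rs i), hy⟩) weakStmt hcin hok (hN i hi) hG he.le
        he.le hw1 hx hepos hel hK0 ?_ (t := (κ⁻¹) ^ (rr rs i)) (by positivity) b1 b2 hκy.le
        (ay := (lam' + lam) / 2) ?_ ?_ hg0 ?_
      · intro k hk
        have h1 : (DD p ν).ν k = nuS lam l := hmov k hk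
        rw [h1]
        exact densLe_nuS hl (by linarith)
      · rw [hlx]; exact hdens
      · linarith
      · linarith
    obtain ⟨bad, m1, m2, m3, m4⟩ := main
    refine ⟨bad, m1, m2, m3, ?_, m4⟩
    intro v hv
    by_contra hcon
    refine hv ?_
    obtain ⟨h5, -⟩ := m4 v hcon
    have h7 : |(sg (AT N) (WV E e v) x).im| ≤ Real.exp (-(c * rr rs i)) := by
      have h := (Complex.abs_im_le_norm _).trans h5
      simpa using h
    have h8 : |(sg (AT N) (WV E e v) x).re - th (rr rs i)| ≤ Real.exp (-(c * rr rs i)) := by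
      have h := (Complex.abs_re_le_norm _).trans h5
      simpa using h
    constructor
    · unfold P365Z.pc
      have h9 : E + (sg (AT N) (WV E e v) x).re =
          (E + th (rr rs i)) + ((sg (AT N) (WV E e v) x).re - th (rr rs i)) := by ring
      rw [h9]
      refine (abs_add_le _ _).trans (add_le_add ?_ h8)
      rw [hthr]
      exact hsE
    · unfold P365Z.pw
      have := le_abs_self (sg (AT N) (WV E e v) x).im
      linarith

/-- **fields `HC` and `loc` of Z12** -/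
theorem tw_loc {lam : ℝ} (hlam : 0 < lam) {E : ℝ} (hE : |E| < 4 + lam) :
    ∃ (lam' c0 c : ℝ) (yf : ℕ → ℤ × ℤ) (Vsf : ℕ → ℤ × ℤ → ℝ) (R₀ : ℕ),
      0 < lam' ∧ lam' < lam ∧ 0 < c0 ∧ 0 < c ∧ 2 ≤ R₀ ∧ (∀ r, R₀ ≤ r → yf r ∈ Xr r) ∧
      (∀ r z, |Vsf r z| ≤ lam') ∧ (∀ r, R₀ ≤ r → |(yf r).1| < r ∧ |(yf r).2| < r) ∧
      ∀ rs, R₀ ≤ rs →
        (∀ I, AdmS lam yf Vsf rs I → ∀ (N : ℕ) [NeZero N], (∀ i ≤ I, mS rs i ∣ N) →
          ∀ i ≤ I, ∀ s ∈ Ioo (tS rs I (i + 1)) 1,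
            (DD (pS yf rs I) (nuD lam yf Vsf rs I)).HC N E i s (1 / (rr rs i : ℝ) ^ 30)) ∧
        ∀ a : ℝ, lam' < a → ∀ η : ℝ, 0 < η → ∃ I₀ : ℕ, ∀ I, I₀ ≤ I → AdmS lam yf Vsf rs I →
          ∀ (N : ℕ) [NeZero N], (∀ i ≤ I, mS rs i ∣ N) → ∀ s : ℝ, 0 ≤ s → s ≤ 1 →
            ∀ (l : Tor N → (DD (pS yf rs I) (nuD lam yf Vsf rs I)).Λ) (x : Tor N),
              x ∈ P365Z.Tc (DD (pS yf rs I) (nuD lam yf Vsf rs I)) l →
              Measure.pi (fun y => nuD lam yf Vsf rs I (l y))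
                (P365Z.Off (AT N) E ((DD (pS yf rs I) (nuD lam yf Vsf rs I)).prof (I + 1) s l)
                  a η x) ≤ ENNReal.ofReal η := by
  obtain ⟨lam', c, c0, yf, Vsf, th, R, a1, a2, a3, a4, a5, a6, a7, a8, a9, H⟩ :=
    hc_loc_full hlam hE (l0_pos hlam) (two_l0_le hlam)
  refine ⟨lam', c0, c, yf, Vsf, R, a1, a2, a4, a3, a5, a6, a7, a9, ?_⟩
  intro rs hrs
  constructor
  · intro I hadm N _ hN i hi s hs
    exact (H rs hrs I (nuL lam) (pS yf rs I) (nuD lam yf Vsf rs I) (lw_DD hadm)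
      (fun k hk => nuD_mov' hadm hk) (fun i hi z => nuD_win hi z) N hN i hi).1 s hs
  intro a ha η hη
  have hrs2 : 2 ≤ rs := by omega
  -- large radii
  have ev : ∀ᶠ r : ℕ in atTop, Real.exp (-(c * r)) ≤ min (a - lam') (η / 2) ∧
      Real.exp (-(r : ℝ)) ≤ min (1 / 6) (η / 6) := by
    have t1 : Tendsto (fun r : ℕ => Real.exp (-(c * r))) atTop (nhds 0) := by
      refine Real.tendsto_exp_neg_atTop_nhds_zero.comp ?_
      exact (tendsto_natCast_atTop_atTop).const_mul_atTop a3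
    have t2 : Tendsto (fun r : ℕ => Real.exp (-(r : ℝ))) atTop (nhds 0) :=
      Real.tendsto_exp_neg_atTop_nhds_zero.comp tendsto_natCast_atTop_atTop
    have p1 : 0 < min (a - lam') (η / 2) := lt_min (by linarith) (by linarith)
    have p2 : 0 < min (1 / 6 : ℝ) (η / 6) := lt_min (by norm_num) (by linarith)
    filter_upwards [t1.eventually (gt_mem_nhds p1), t2.eventually (gt_mem_nhds p2)] with r h1 h2
    exact ⟨h1.le, h2.le⟩
  obtain ⟨I₀, hI₀⟩ := eventually_atTop.1 ev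
  refine ⟨I₀, ?_⟩
  intro I hI hadm N _ hN s hs0 hs1 l x hx
  have hr : I₀ ≤ rr rs I := (hI.trans (lt_rr hrs2 I).le)
  obtain ⟨n1, n2⟩ := hI₀ _ hr
  have hyX : ∀ r, rs ≤ r → yf r ∈ Xr r := fun r h => a6 r (hrs.trans h)
  have hyb : ∀ r, rs ≤ r → |(yf r).1| < r ∧ |(yf r).2| < r := fun r h => a9 r (hrs.trans h)
  have hL := lw_DD hadm
  have hok : (DD (pS yf rs I) (nuD lam yf Vsf rs I)).Ok (nuL lam) := DD_ok hrs2 hyX hL
  have hcin : CellIn (DD (pS yf rs I) (nuD lam yf Vsf rs I)) I (rr rs I)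
      (4 * rr rs I, 4 * rr rs I) (yf (rr rs I)) (Vsf (rr rs I)) (Real.exp (-(rr rs I : ℝ))) :=
    cellIn_DD (Vsf := Vsf) (w := fun i => Real.exp (-(rr rs i : ℝ))) hrs2 hyb le_rfl
      (Real.exp_pos _) (fun z => nuD_win le_rfl z)
  have hcen : (DD (pS yf rs I) (nuD lam yf Vsf rs I)).cen I l x := by
    classical
    unfold P365Z.Tc at hx
    exact (Finset.mem_filter.1 hx).2
  have hb0 := bS_pos rs I
  have hrI1 : (1 : ℝ) ≤ rr rs I := by
    exact_mod_cast one_le_rr (by omega) I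
  have hb1 : bS rs I ≤ Real.exp (-(rr rs I : ℝ)) := by
    refine (bS_le_exp hrs2 le_rfl).trans (Real.exp_le_exp.2 ?_)
    have h1 : (rr rs I : ℝ) ≤ (rr rs I : ℝ) ^ 4 := by
      calc (rr rs I : ℝ) = (rr rs I : ℝ) ^ 1 := (pow_one _).symm
        _ ≤ (rr rs I : ℝ) ^ 4 := pow_le_pow_right₀ hrI1 (by norm_num)
    linarith
  have hprofx : ∀ z, (DD (pS yf rs I) (nuD lam yf Vsf rs I)).prof (I + 1) s l z ≤
      3 * Real.exp (-(rr rs I : ℝ)) := by
    intro z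
    refine prof_le hok (i := I) le_rfl ?_ hs0 hs1 l z
    show bS rs I + (∑ j ∈ Finset.Ico (I + 1) (I + 1), e0S rs j) + 2 * e0S rs I ≤
      3 * Real.exp (-(rr rs I : ℝ))
    rw [Finset.Ico_self, Finset.sum_empty]
    have h1 : e0S rs I = Real.exp (-(rr rs I : ℝ)) := rfl
    rw [h1]
    linarith
  obtain ⟨bad, b1, b2, b3, b4, b5⟩ := (H rs hrs I (nuL lam) (pS yf rs I) (nuD lam yf Vsf rs I) hL
    (fun k hk => nuD_mov' hadm hk) (fun i hi z => nuD_win hi z) N hN I le_rfl).2 l x hcen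
    ((DD (pS yf rs I) (nuD lam yf Vsf rs I)).prof (I + 1) s l)
    (fun z => hok.prof_pos (by exact le_rfl) hs0 l z)
    ((hprofx x).trans (by linarith [n2.trans (min_le_left _ _)]))
    (fun z hz => by
      rw [hcin.prof_Lc hok le_rfl (hN I le_rfl) hcen s hz]
      exact hb1)
  refine (measure_mono ?_).trans (b3.trans (ENNReal.ofReal_le_ofReal
    ((n1.trans (min_le_right _ _)).trans (by linarith))))
  refine Subset.trans ?_ b4
  intro v hv hcon
  refine hv ⟨hcon.1.trans ?_, hcon.2.trans ?_⟩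
  · linarith [n1.trans (min_le_left _ _)]
  · have h1 := hprofx x
    linarith [n1.trans (min_le_right _ _), n2.trans (min_le_right _ _)]

end P365T1.Z0.Loc
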