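import Vale.Agent.P365.T1c.Book548
import Vale.Agent.P365.Z0.IntegDefs

set_option linter.all false

/-!
# P365, zero-dimensional spectrum (Z0), block Z4: number of traps and of pairs of traps.

`T l = {x | D.cen i l x}` = centres of the matched blocks of family `i`.
-/

namespace P365Z

open P365L P365O P365T1 P365L.TL MeasureTheory Complex Vale.Agent.P365.J376

/-- probability of prescribed labels on `S` -/
theorem sum_prescribed {ι Λ : Type*} [Fintype ι] [DecidableEq ι] [Fintype Λ] [DecidableEq Λ]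
    {p : Λ → ℝ} (hp1 : ∑ k, p k = 1) (S : Finset ι) (c : ι → Λ) :
    ∑ l : ι → Λ, (∏ z, p (l z)) * (if ∀ z ∈ S, l z = c z then (1 : ℝ) else 0) =
      ∏ z ∈ S, p (c z) := by
  have h1 : ∀ l : ι → Λ, (∏ z, p (l z)) * (if ∀ z ∈ S, l z = c z then (1 : ℝ) else 0) =
      ∏ z, (p (l z) * (if z ∈ S then (if l z = c z then (1 : ℝ) else 0) else 1)) := by
    intro l
    rw [Finset.prod_mul_distrib]
    congr 1
    by_cases h : ∀ z ∈ S, l z = c z
    · rw [if_pos h]
      symm
      refine Finset.prod_eq_one fun z _ => ?_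
      by_cases hz : z ∈ S
      · rw [if_pos hz, if_pos (h z hz)]
      · rw [if_neg hz]
    · rw [if_neg h]
      symm
      push Not at h
      obtain ⟨z, hz, hne⟩ := h
      refine Finset.prod_eq_zero (Finset.mem_univ z) ?_
      rw [if_pos hz, if_neg hne]
  simp_rw [h1]
  have h2 := Finset.prod_univ_sum (fun _ : ι => (Finset.univ : Finset Λ))
    (fun z k => p k * (if z ∈ S then (if k = c z then (1 : ℝ) else 0) else 1))
  rw [Fintype.piFinset_univ] at h2
  rw [← h2]
  have h3 : ∀ z, ∑ k, p k * (if z ∈ S then (if k = c z then (1 : ℝ) else 0) else 1) =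
      if z ∈ S then p (c z) else 1 := by
    intro z
    by_cases hz : z ∈ S
    · simp only [if_pos hz]
      simp
    · simp only [if_neg hz, mul_one]
      exact hp1
  simp_rw [h3]
  rw [Finset.prod_ite_mem]
  simp

variable {D : V3} {N : ℕ} [NeZero N]

/-- probability that a given block of family `i` carries its pattern -/
noncomputable def qb (D : V3) (i : ℕ) : ℝ := ∏ a ∈ blk (D.m i), D.p (D.pat i a)

theorem qb_nonneg (hp : ∀ k, 0 ≤ D.p k) (i : ℕ) : 0 ≤ qb D i :=
  Finset.prod_nonneg fun a _ => hp _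

theorem qb_le_one (hp : ∀ k, 0 ≤ D.p k) (hp1 : ∑ k, D.p k = 1) (i : ℕ) : qb D i ≤ 1 :=
  Finset.prod_le_one (fun a _ => hp _) fun a _ => by
    rw [← hp1]
    exact Finset.single_le_sum (fun k _ => hp k) (Finset.mem_univ _)

theorem cen_iff {i : ℕ} {l : Tor N → D.Λ} {x : Tor N} :
    D.cen i l x ↔ lc (D.m i) x = D.y i ∧
      ∀ z ∈ bset N (D.m i) (bi (D.m i) x), l z = D.pat i (lc (D.m i) z) := by
  constructor
  · rintro ⟨h1, h2⟩
    exact ⟨h2, fun z hz => h1 z (mem_bset.1 hz)⟩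
  · rintro ⟨h1, h2⟩
    exact ⟨fun z hz => h2 z (mem_bset.2 hz), h1⟩

open Classical in
/-- probability that `x` is a centre -/
theorem sum_cen (hp1 : ∑ k, D.p k = 1) {i : ℕ} (hm : 0 < D.m i) (hmN : D.m i ∣ N) (x : Tor N) :
    ∑ l : Tor N → D.Λ, (∏ z, D.p (l z)) * (if D.cen i l x then (1 : ℝ) else 0) =
      if lc (D.m i) x = D.y i then qb D i else 0 := by
  by_cases hx : lc (D.m i) x = D.y i
  · rw [if_pos hx, qb, ← prod_bset hm (bIn_bi hmN x) fun a => D.p (D.pat i a),
      ← sum_prescribed hp1 (bset N (D.m i) (bi (D.m i) x)) fun z => D.pat i (lc (D.m i) z)]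
    refine Finset.sum_congr rfl fun l _ => ?_
    congr 1
    by_cases hc : D.cen i l x
    · rw [if_pos hc, if_pos (cen_iff.1 hc).2]
    · rw [if_neg hc, if_neg fun h => hc (cen_iff.2 ⟨hx, h⟩)]
  · rw [if_neg hx]
    refine Finset.sum_eq_zero fun l _ => ?_
    rw [if_neg fun h => hx (cen_iff.1 h).1, mul_zero]

open Classical in
/-- probability that `x` and `y`, in different blocks, are centres -/
theorem sum_cen_cen (hp1 : ∑ k, D.p k = 1) {i : ℕ} (hm : 0 < D.m i) (hmN : D.m i ∣ N)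
    {x y : Tor N} (hxy : bi (D.m i) x ≠ bi (D.m i) y) (hx : lc (D.m i) x = D.y i)
    (hy : lc (D.m i) y = D.y i) :
    ∑ l : Tor N → D.Λ, (∏ z, D.p (l z)) *
      (if D.cen i l x ∧ D.cen i l y then (1 : ℝ) else 0) = qb D i ^ 2 := by
  have hdis : Disjoint (bset N (D.m i) (bi (D.m i) x)) (bset N (D.m i) (bi (D.m i) y)) := by
    rw [Finset.disjoint_left]
    intro z hz1 hz2
    exact hxy ((mem_bset.1 hz1).symm.trans (mem_bset.1 hz2))
  have h1 := sum_prescribed hp1
    (bset N (D.m i) (bi (D.m i) x) ∪ bset N (D.m i) (bi (D.m i) y))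
    fun z => D.pat i (lc (D.m i) z)
  rw [Finset.prod_union hdis, prod_bset hm (bIn_bi hmN x) fun a => D.p (D.pat i a),
    prod_bset hm (bIn_bi hmN y) fun a => D.p (D.pat i a)] at h1
  rw [sq]
  unfold qb
  rw [← h1]
  refine Finset.sum_congr rfl fun l _ => ?_
  congr 1
  by_cases hc : D.cen i l x ∧ D.cen i l y
  · rw [if_pos hc, if_pos]
    intro z hz
    rcases Finset.mem_union.1 hz with hz | hz
    · exact (cen_iff.1 hc.1).2 z hz
    · exact (cen_iff.1 hc.2).2 z hz
  · rw [if_neg hc, if_neg]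
    intro h
    exact hc ⟨cen_iff.2 ⟨hx, fun z hz => h z (Finset.mem_union_left _ hz)⟩,
      cen_iff.2 ⟨hy, fun z hz => h z (Finset.mem_union_right _ hz)⟩⟩

/-! ### geometry of the blocks -/

theorem eq_of_bi_lc {m : ℕ} {x y : Tor N} (h1 : bi m x = bi m y) (h2 : lc m x = lc m y) :
    x = y := by
  rw [← st_bi_lc (m := m) x, h1, h2, st_bi_lc]

theorem coord_le {m : ℕ} (hm : 0 < m) {a b : ZMod N} (h : a.val / m = b.val / m) :
    (a - b).valMinAbs.natAbs ≤ m := by
  have h1 : a - b = (((a.val : ℤ) - (b.val : ℤ) : ℤ) : ZMod N) := by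
    push_cast
    rw [ZMod.natCast_zmod_val, ZMod.natCast_zmod_val]
  rw [h1]
  refine (natAbs_valMinAbs_intCast_le _).trans ?_
  have h2 := Nat.div_add_mod a.val m
  have h3 := Nat.div_add_mod b.val m
  have h4 := Nat.mod_lt a.val hm
  have h5 := Nat.mod_lt b.val hm
  rw [h] at h2
  omega

/-- diameter of a block -/
theorem nrm_of_bi {m : ℕ} (hm : 0 < m) {x y : Tor N} (h : bi m x = bi m y) :
    nrm (x - y) ≤ m := by
  have h1 := congrArg Prod.fst h
  have h2 := congrArg Prod.snd h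
  exact max_le (coord_le hm h1) (coord_le hm h2)

/-- centres near `x` : at most `(2ρ + 2m + 1)²/m²` -/
theorem card_near {m : ℕ} (hm : 0 < m) (hmN : m ∣ N) (y0 : Loc) (x : Tor N) (ρ : ℕ) :
    (Finset.univ.filter fun y : Tor N => lc m y = y0 ∧ nrm (x - y) ≤ ρ).card * m ^ 2 ≤
      (2 * (ρ + m) + 1) ^ 2 := by
  classical
  set S := Finset.univ.filter fun y : Tor N => lc m y = y0 ∧ nrm (x - y) ≤ ρ with hS
  have hdis : ∀ y ∈ S, ∀ y' ∈ S, y ≠ y' → Disjoint (bset N m (bi m y)) (bset N m (bi m y')) := by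
    intro y hy y' hy' hne
    rw [Finset.disjoint_left]
    intro z hz1 hz2
    rw [hS, Finset.mem_filter] at hy hy'
    exact hne (eq_of_bi_lc ((mem_bset.1 hz1).symm.trans (mem_bset.1 hz2))
      (hy.2.1.trans hy'.2.1.symm))
  have h1 : (S.biUnion fun y => bset N m (bi m y)).card = S.card * m ^ 2 := by
    rw [Finset.card_biUnion hdis, Finset.sum_congr rfl fun y _ => card_bset hm (bIn_bi hmN y),
      Finset.sum_const, smul_eq_mul]
  rw [← h1]
  have h2 : (S.biUnion fun y => bset N m (bi m y)) ⊆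
      (ball N (ρ + m)).image fun a => x - a := by
    intro z hz
    rw [Finset.mem_biUnion] at hz
    obtain ⟨y, hy, hzy⟩ := hz
    rw [hS, Finset.mem_filter] at hy
    rw [Finset.mem_image]
    refine ⟨x - z, ?_, by abel⟩
    rw [mem_ball]
    have e1 : x - z = (x - y) + (y - z) := by abel
    have e2 : nrm (y - z) ≤ m := nrm_of_bi hm (mem_bset.1 hzy).symm
    rw [e1]
    exact (nrm_add_le _ _).trans (Nat.add_le_add hy.2.2 e2)
  exact (Finset.card_le_card h2).trans (Finset.card_image_le.trans (card_ball_le _))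

/-- number of blocks -/
theorem card_lc {m : ℕ} (hm : 0 < m) (hmN : m ∣ N) {y0 : Loc} (hy0 : y0 ∈ blk m) :
    (Finset.univ.filter fun y : Tor N => lc m y = y0).card * m ^ 2 = N ^ 2 := by
  classical
  set S := Finset.univ.filter fun y : Tor N => lc m y = y0 with hS
  have hdis : ∀ y ∈ S, ∀ y' ∈ S, y ≠ y' → Disjoint (bset N m (bi m y)) (bset N m (bi m y')) := by
    intro y hy y' hy' hne
    rw [Finset.disjoint_left]
    intro z hz1 hz2
    rw [hS, Finset.mem_filter] at hy hy'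
    exact hne (eq_of_bi_lc ((mem_bset.1 hz1).symm.trans (mem_bset.1 hz2))
      (hy.2.trans hy'.2.symm))
  have h1 : (S.biUnion fun y => bset N m (bi m y)).card = S.card * m ^ 2 := by
    rw [Finset.card_biUnion hdis, Finset.sum_congr rfl fun y _ => card_bset hm (bIn_bi hmN y),
      Finset.sum_const, smul_eq_mul]
  rw [← h1]
  have h2 : (S.biUnion fun y => bset N m (bi m y)) = Finset.univ := by
    ext z
    simp only [Finset.mem_biUnion, Finset.mem_univ, iff_true]
    have hz := bIn_bi (m := m) hmN z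
    refine ⟨st N m (bi m z) y0, ?_, ?_⟩
    · rw [hS, Finset.mem_filter]
      exact ⟨Finset.mem_univ _, lc_st' hz hy0⟩
    · rw [mem_bset, bi_st' hz hy0]
  rw [h2, Finset.card_univ]
  simp [ZMod.card, sq]

/-! ### traps -/

open Classical in
/-- the traps of family `i` -/
noncomputable def Tr (D : V3) (i : ℕ) (l : Tor N → D.Λ) : Finset (Tor N) :=
  Finset.univ.filter fun x => D.cen i l x

theorem mem_Tr {i : ℕ} {l : Tor N → D.Λ} {x : Tor N} : x ∈ Tr D i l ↔ D.cen i l x := by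
  classical
  simp [Tr]

open Classical in
theorem card_Tr (i : ℕ) (l : Tor N → D.Λ) :
    ((Tr D i l).card : ℝ) = ∑ x, (if D.cen i l x then (1 : ℝ) else 0) := by
  rw [Tr, Finset.card_filter]
  push_cast
  rfl

/-- **expected number of traps**: `nT = N² q`, `q = qb/m²` -/
theorem nT_eq (hp1 : ∑ k, D.p k = 1) {i : ℕ} (hm : 0 < D.m i) (hmN : D.m i ∣ N)
    (hy : D.y i ∈ blk (D.m i)) :
    Vale.Agent.P365.Z0.nT D.p (Tr (N := N) D i) = (N : ℝ) ^ 2 * (qb D i / (D.m i : ℝ) ^ 2) := by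
  classical
  unfold Vale.Agent.P365.Z0.nT
  simp_rw [card_Tr, Finset.mul_sum]
  rw [Finset.sum_comm]
  simp_rw [sum_cen hp1 hm hmN]
  rw [← Finset.sum_filter, Finset.sum_const, nsmul_eq_mul]
  have h := card_lc (N := N) hm hmN hy
  have h2 : ((Finset.univ.filter fun y : Tor N => lc (D.m i) y = D.y i).card : ℝ) *
      (D.m i : ℝ) ^ 2 = (N : ℝ) ^ 2 := by exact_mod_cast h
  have hm' : (0 : ℝ) < (D.m i : ℝ) := by exact_mod_cast hm
  rw [← h2]
  field_simp

open Classical in
/-- number of ordered pairs of traps at distance at most `ρ` -/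
noncomputable def nPair (D : V3) (N : ℕ) [NeZero N] (i ρ : ℕ) : ℝ :=
  ∑ l : Tor N → D.Λ, (∏ z, D.p (l z)) *
    ∑ x ∈ Tr D i l, (((Tr D i l).filter fun y => nrm (x - y) ≤ ρ ∧ y ≠ x).card : ℝ)

/-- **pairs of traps**: `E #{(x, y) ∈ T², x ≠ y, |x - y| ≤ ρ} ≤ nT (2ρ + 2m + 1)² q` -/
theorem nPair_le (hp : ∀ k, 0 ≤ D.p k) (hp1 : ∑ k, D.p k = 1) {i : ℕ} (hm : 0 < D.m i)
    (hmN : D.m i ∣ N) (hy : D.y i ∈ blk (D.m i)) (ρ : ℕ) :
    nPair D N i ρ ≤ Vale.Agent.P365.Z0.nT D.p (Tr (N := N) D i) *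
      ((qb D i / (D.m i : ℝ) ^ 2) * (2 * (ρ + D.m i) + 1) ^ 2) := by
  classical
  have hq := qb_nonneg hp i
  have hm' : (0 : ℝ) < (D.m i : ℝ) := by exact_mod_cast hm
  -- rewrite as a double sum
  have h1 : nPair D N i ρ = ∑ x : Tor N, ∑ y : Tor N,
      (if nrm (x - y) ≤ ρ ∧ y ≠ x then
        ∑ l : Tor N → D.Λ, (∏ z, D.p (l z)) *
          (if D.cen i l x ∧ D.cen i l y then (1 : ℝ) else 0) else 0) := by
    unfold nPair
    have e1 : ∀ l : Tor N → D.Λ,
        ∑ x ∈ Tr D i l, (((Tr D i l).filter fun y => nrm (x - y) ≤ ρ ∧ y ≠ x).card : ℝ) =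
        ∑ x : Tor N, ∑ y : Tor N, (if nrm (x - y) ≤ ρ ∧ y ≠ x then
          (if D.cen i l x ∧ D.cen i l y then (1 : ℝ) else 0) else 0) := by
      intro l
      rw [Tr, Finset.sum_filter]
      refine Finset.sum_congr rfl fun x _ => ?_
      by_cases hx : D.cen i l x
      · rw [if_pos hx, Finset.card_filter, Finset.sum_filter]
        push_cast
        refine Finset.sum_congr rfl fun y _ => ?_
        by_cases hc : D.cen i l y
        · simp [hx, hc]
        · simp [hx, hc]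
      · rw [if_neg hx]
        symm
        refine Finset.sum_eq_zero fun y _ => ?_
        simp [hx]
    simp_rw [e1, Finset.mul_sum]
    rw [Finset.sum_comm]
    refine Finset.sum_congr rfl fun x _ => ?_
    rw [Finset.sum_comm]
    refine Finset.sum_congr rfl fun y _ => ?_
    by_cases h : nrm (x - y) ≤ ρ ∧ y ≠ x
    · simp only [if_pos h]
    · simp only [if_neg h, mul_zero, Finset.sum_const_zero]
  -- termwise bound
  have h2 : ∀ x y : Tor N, (if nrm (x - y) ≤ ρ ∧ y ≠ x then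
        ∑ l : Tor N → D.Λ, (∏ z, D.p (l z)) *
          (if D.cen i l x ∧ D.cen i l y then (1 : ℝ) else 0) else 0) ≤
      (if lc (D.m i) x = D.y i then qb D i else 0) *
        (if lc (D.m i) y = D.y i ∧ nrm (x - y) ≤ ρ then qb D i else 0) := by
    intro x y
    have hnn : (0 : ℝ) ≤ (if lc (D.m i) x = D.y i then qb D i else 0) *
        (if lc (D.m i) y = D.y i ∧ nrm (x - y) ≤ ρ then qb D i else 0) := by
      split_ifs <;> positivity
    by_cases h : nrm (x - y) ≤ ρ ∧ y ≠ x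
    · rw [if_pos h]
      by_cases hx : lc (D.m i) x = D.y i
      · by_cases hyy : lc (D.m i) y = D.y i
        · have hb : bi (D.m i) x ≠ bi (D.m i) y := fun hb =>
            h.2 (eq_of_bi_lc hb (hx.trans hyy.symm)).symm
          rw [sum_cen_cen hp1 hm hmN hb hx hyy, if_pos hx, if_pos ⟨hyy, h.1⟩, sq]
        · refine le_trans (le_of_eq (Finset.sum_eq_zero fun l _ => ?_)) hnn
          rw [if_neg fun hc => hyy (cen_iff.1 hc.2).1, mul_zero]
      · refine le_trans (le_of_eq (Finset.sum_eq_zero fun l _ => ?_)) hnn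
        rw [if_neg fun hc => hx (cen_iff.1 hc.1).1, mul_zero]
    · rw [if_neg h]
      exact hnn
  -- sum over y
  have h3 : ∀ x : Tor N, ∑ y : Tor N,
      (if lc (D.m i) y = D.y i ∧ nrm (x - y) ≤ ρ then qb D i else 0) ≤
      (qb D i / (D.m i : ℝ) ^ 2) * (2 * (ρ + D.m i) + 1) ^ 2 := by
    intro x
    rw [← Finset.sum_filter, Finset.sum_const, nsmul_eq_mul]
    have h := card_near (N := N) hm hmN (D.y i) x ρ
    have h4 : ((Finset.univ.filter fun y : Tor N =>
        lc (D.m i) y = D.y i ∧ nrm (x - y) ≤ ρ).card : ℝ) * (D.m i : ℝ) ^ 2 ≤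
        (2 * (ρ + D.m i) + 1) ^ 2 := by exact_mod_cast h
    calc ((Finset.univ.filter fun y : Tor N =>
        lc (D.m i) y = D.y i ∧ nrm (x - y) ≤ ρ).card : ℝ) * qb D i
        = (qb D i / (D.m i : ℝ) ^ 2) * (((Finset.univ.filter fun y : Tor N =>
          lc (D.m i) y = D.y i ∧ nrm (x - y) ≤ ρ).card : ℝ) * (D.m i : ℝ) ^ 2) := by
          field_simp
      _ ≤ _ := mul_le_mul_of_nonneg_left h4 (by positivity)
  rw [h1]
  calc _ ≤ ∑ x : Tor N, ∑ y : Tor N, (if lc (D.m i) x = D.y i then qb D i else 0) *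
        (if lc (D.m i) y = D.y i ∧ nrm (x - y) ≤ ρ then qb D i else 0) :=
        Finset.sum_le_sum fun x _ => Finset.sum_le_sum fun y _ => h2 x y
    _ = ∑ x : Tor N, (if lc (D.m i) x = D.y i then qb D i else 0) *
        ∑ y : Tor N, (if lc (D.m i) y = D.y i ∧ nrm (x - y) ≤ ρ then qb D i else 0) := by
        refine Finset.sum_congr rfl fun x _ => ?_
        rw [Finset.mul_sum]
    _ ≤ ∑ x : Tor N, (if lc (D.m i) x = D.y i then qb D i else 0) *
        ((qb D i / (D.m i : ℝ) ^ 2) * (2 * (ρ + D.m i) + 1) ^ 2) := by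
        refine Finset.sum_le_sum fun x _ => mul_le_mul_of_nonneg_left (h3 x) ?_
        split_ifs <;> positivity
    _ = _ := by
        rw [← Finset.sum_mul]
        congr 1
        unfold Vale.Agent.P365.Z0.nT
        simp_rw [card_Tr, Finset.mul_sum]
        rw [Finset.sum_comm]
        simp_rw [sum_cen hp1 hm hmN]

end P365Z
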