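import Vale.Agent.P365.Z0.Num550
import Vale.Agent.P365.Z0.Pairs
import Vale.Agent.P365.T1.LawInst795

/-!
# P365 T1.5, Z7b: density of the traps of the concrete chain
-/

set_option linter.all false

namespace Vale.Agent.P365.Z0.Num550

open P365L P365L.TL P365O P365T1 Vale.Agent.P365.J376 MeasureTheory P365T1.Seq P365T1.Conc

variable {lam : ℝ} {yf : ℕ → ℤ × ℤ} {Vsf : ℕ → ℤ × ℤ → ℝ} {rs I : ℕ}

/-- mass of the pattern of family `I` -/
theorem qb_DD {i : ℕ} (hi : i ≤ I) :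
    P365Z.qb (DD (pS yf rs I) (nuD lam yf Vsf rs I)) i =
      Real.exp (-(192 * (rr rs i : ℝ) ^ 3)) := by
  have hm : (DD (pS yf rs I) (nuD lam yf Vsf rs I)).m i = 8 * rr rs i := rfl
  unfold P365Z.qb
  rw [Finset.prod_congr rfl fun a _ => pS_pat_DD hi a, Finset.prod_const, ← Real.exp_nat_mul]
  congr 1
  rw [blk, Finset.card_product, Finset.card_range, hm]
  push_cast
  ring

/-- `m² / qb ≤ exp (193 r³)` for `r ≥ 64` -/
theorem inv_q_le {i : ℕ} (hi : i ≤ I) (hr : 64 ≤ rr rs i) :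
    (((DD (pS yf rs I) (nuD lam yf Vsf rs I)).m i : ℕ) : ℝ) ^ 2 /
      P365Z.qb (DD (pS yf rs I) (nuD lam yf Vsf rs I)) i ≤
      Real.exp (193 * (rr rs i : ℝ) ^ 3) := by
  have hm : (DD (pS yf rs I) (nuD lam yf Vsf rs I)).m i = 8 * rr rs i := rfl
  rw [qb_DD hi, hm, Real.exp_neg, div_inv_eq_mul]
  set r : ℝ := (rr rs i : ℝ) with hrd
  have h1 : (64 : ℝ) ≤ r := by
    rw [hrd]
    exact_mod_cast hr
  have h2 : (((8 * rr rs i : ℕ) : ℕ) : ℝ) ^ 2 = 64 * r ^ 2 := by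
    rw [hrd]
    push_cast
    ring
  rw [h2, show 193 * r ^ 3 = r ^ 3 + 192 * r ^ 3 by ring, Real.exp_add]
  refine mul_le_mul_of_nonneg_right ?_ (Real.exp_pos _).le
  have h3 : r ^ 3 ≤ Real.exp (r ^ 3) := by linarith [Real.add_one_le_exp (r ^ 3)]
  have h4 : 64 * r ^ 2 ≤ r * r ^ 2 := mul_le_mul_of_nonneg_right h1 (by positivity)
  nlinarith

/-- **number of traps**: `N² ≤ exp (193 r³) nT` -/
theorem sq_le_nT (h : AdmS lam yf Vsf rs I) (hrs : 2 ≤ rs) (hy : ∀ r, rs ≤ r → yf r ∈ P365SH.Xr r)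
    (hr : 64 ≤ rr rs I) {N : ℕ} [NeZero N] (hN : mS rs I ∣ N) :
    (N : ℝ) ^ 2 ≤ Real.exp (193 * (rr rs I : ℝ) ^ 3) *
      Vale.Agent.P365.Z0.nT (pS yf rs I)
        (P365Z.Tr (N := N) (DD (pS yf rs I) (nuD lam yf Vsf rs I)) I) := by
  set D := DD (pS yf rs I) (nuD lam yf Vsf rs I) with hD
  have hok := DD_ok hrs hy (lw_DD h)
  have hm0 : 0 < D.m I := mS_pos (by omega) I
  have hyb : D.y I ∈ blk (D.m I) := by
    have h5 := P365SH.mem_Xr.1 (hy (rr rs I) (le_rr (by omega) I))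
    have h6 : 1 ≤ rr rs I := one_le_rr (by omega) I
    show ((4 * ((rr rs I : ℕ) : ℤ) + (yf (rr rs I)).1).toNat,
      (4 * ((rr rs I : ℕ) : ℤ) + (yf (rr rs I)).2).toNat) ∈ blk (8 * rr rs I)
    rw [blk, Finset.mem_product, Finset.mem_range, Finset.mem_range]
    constructor
    · show (4 * ((rr rs I : ℕ) : ℤ) + (yf (rr rs I)).1).toNat < 8 * rr rs I
      omega
    · show (4 * ((rr rs I : ℕ) : ℤ) + (yf (rr rs I)).2).toNat < 8 * rr rs I
      omega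
  have h1 := P365Z.nT_eq (N := N) (D := D) hok.p_sum hm0 hN hyb
  have h2 := inv_q_le (lam := lam) (yf := yf) (Vsf := Vsf) (rs := rs) (I := I) le_rfl hr
  rw [← hD] at h2
  have hq : 0 < P365Z.qb D I := by
    rw [hD, qb_DD le_rfl]
    exact Real.exp_pos _
  have hmr : (0 : ℝ) < (D.m I : ℝ) := by exact_mod_cast hm0
  have h3 : Vale.Agent.P365.Z0.nT (pS yf rs I) (P365Z.Tr (N := N) D I) =
      (N : ℝ) ^ 2 * (P365Z.qb D I / (D.m I : ℝ) ^ 2) := h1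
  rw [h3]
  have hN0 : 0 ≤ (N : ℝ) ^ 2 := sq_nonneg _
  calc (N : ℝ) ^ 2 = (D.m I : ℝ) ^ 2 / P365Z.qb D I *
        ((N : ℝ) ^ 2 * (P365Z.qb D I / (D.m I : ℝ) ^ 2)) := by
        field_simp
    _ ≤ _ := mul_le_mul_of_nonneg_right h2 (by positivity)

end Vale.Agent.P365.Z0.Num550
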