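import Vale.Agent.P365.Z0.Dat640
import Vale.Agent.P365.Z0.LocTW915
import Vale.Agent.P365.Z0.Num550b
import Vale.Agent.P365.Z0.Pairs

/-!
# P365 T1.5, Z12: the last stage of the concrete chain is a trap world
-/

set_option linter.all false

namespace Vale.Agent.P365.Z0.D640

open P365L P365L.TL P365O P365T1 P365SH Vale.Agent.P365.J376 Vale.Agent.P365.C937
open P365Z MeasureTheory Set Filter
open P365T1.Conc P365T1.Seq P365T1.Lab37 P365T1.OneVar P365T1.Bump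
open scoped ENNReal Topology

theorem Tc_eq {D : V3} {N : ℕ} [NeZero N] (l : Tor N → D.Λ) : Tc D l = Tr D D.I l := by
  ext x
  rw [mem_Tc, mem_Tr]

theorem pair_card {N : ℕ} [NeZero N] (T : Finset (Tor N)) {r : ℝ} (hr : 0 ≤ r) :
    (((T ×ˢ T).filter fun u => (nrm (u.1 - u.2) : ℝ) ≤ r ∧ u.1 ≠ u.2).card : ℝ) =
      ∑ x ∈ T, ((T.filter fun y => nrm (x - y) ≤ ⌊r⌋₊ ∧ y ≠ x).card : ℝ) := by
  classical
  rw [Finset.card_filter, Finset.sum_product]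
  push_cast
  refine Finset.sum_congr rfl fun x _ => ?_
  rw [Finset.card_filter]
  push_cast
  refine Finset.sum_congr rfl fun y _ => ?_
  have h : ((nrm (x - y) : ℝ) ≤ r ∧ x ≠ y) ↔ (nrm (x - y) ≤ ⌊r⌋₊ ∧ y ≠ x) := by
    rw [Nat.le_floor_iff hr]
    exact and_congr_right fun _ => ne_comm
  by_cases h2 : nrm (x - y) ≤ ⌊r⌋₊ ∧ y ≠ x
  · rw [if_pos h2, if_pos (h.2 h2)]
  · rw [if_neg h2, if_neg fun h3 => h2 (h.1 h3)]

/-- **pairs of traps, literal form** -/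
theorem pair_le {D : V3} {N : ℕ} [NeZero N] (hp : ∀ k, 0 ≤ D.p k) (hp1 : ∑ k, D.p k = 1)
    (hm : 0 < D.m D.I) (hmN : D.m D.I ∣ N) (hy : D.y D.I ∈ blk (D.m D.I)) {r : ℝ} (hr : 0 ≤ r) :
    ∑ l : Tor N → D.Λ, (∏ x, D.p (l x)) *
      (((Tc D l ×ˢ Tc D l).filter fun u => (nrm (u.1 - u.2) : ℝ) ≤ r ∧ u.1 ≠ u.2).card : ℝ) ≤
      18 * ((qb D D.I / (D.m D.I : ℝ) ^ 2) * (N : ℝ) ^ 2) *
        (1 + (qb D D.I / (D.m D.I : ℝ) ^ 2) * r ^ 2) := by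
  classical
  have h1 := nPair_le (N := N) hp hp1 hm hmN hy ⌊r⌋₊
  have e1 : ∑ l : Tor N → D.Λ, (∏ x, D.p (l x)) *
      (((Tc D l ×ˢ Tc D l).filter fun u => (nrm (u.1 - u.2) : ℝ) ≤ r ∧ u.1 ≠ u.2).card : ℝ) =
      nPair D N D.I ⌊r⌋₊ := by
    unfold nPair
    refine Finset.sum_congr rfl fun l _ => ?_
    congr 1
    rw [pair_card _ hr, Tc_eq]
  rw [e1]
  refine h1.trans ?_
  rw [nT_eq hp1 hm hmN hy]
  have hq0 := qb_nonneg hp D.I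
  have hq1 := qb_le_one hp hp1 D.I
  have hm1 : (1 : ℝ) ≤ (D.m D.I : ℝ) := by exact_mod_cast hm
  set q : ℝ := qb D D.I / (D.m D.I : ℝ) ^ 2 with hq
  set m : ℝ := (D.m D.I : ℝ) with hmd
  have hqn : 0 ≤ q := by positivity
  have hqm : q * m ^ 2 ≤ 1 := by
    rw [hq, div_mul_cancel₀ _ (by positivity)]
    exact hq1
  have hfl : ((⌊r⌋₊ : ℕ) : ℝ) ≤ r := Nat.floor_le hr
  have hfl0 : (0 : ℝ) ≤ ((⌊r⌋₊ : ℕ) : ℝ) := Nat.cast_nonneg _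
  have h2 : (2 * (((⌊r⌋₊ : ℕ) : ℝ) + m) + 1) ^ 2 ≤ 18 * (m ^ 2 + r ^ 2) := by
    have h3 : 2 * (((⌊r⌋₊ : ℕ) : ℝ) + m) + 1 ≤ 2 * r + 3 * m := by linarith
    calc (2 * (((⌊r⌋₊ : ℕ) : ℝ) + m) + 1) ^ 2 ≤ (2 * r + 3 * m) ^ 2 :=
          pow_le_pow_left₀ (by positivity) h3 2
      _ ≤ 18 * (m ^ 2 + r ^ 2) := by nlinarith [sq_nonneg (2 * r - 3 * m)]
  have h4 : q * (2 * (((⌊r⌋₊ : ℕ) : ℝ) + m) + 1) ^ 2 ≤ 18 * (1 + q * r ^ 2) := by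
    calc q * (2 * (((⌊r⌋₊ : ℕ) : ℝ) + m) + 1) ^ 2 ≤ q * (18 * (m ^ 2 + r ^ 2)) :=
          mul_le_mul_of_nonneg_left h2 hqn
      _ = 18 * (q * m ^ 2 + q * r ^ 2) := by ring
      _ ≤ 18 * (1 + q * r ^ 2) := by linarith
  calc (N : ℝ) ^ 2 * q * (q * (2 * (((⌊r⌋₊ : ℕ) : ℝ) + m) + 1) ^ 2)
      ≤ (N : ℝ) ^ 2 * q * (18 * (1 + q * r ^ 2)) :=
        mul_le_mul_of_nonneg_left h4 (by positivity)
    _ = 18 * (q * (N : ℝ) ^ 2) * (1 + q * r ^ 2) := by ring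

/-- local coordinates of the centre -/
theorem y_mem_blk {lam : ℝ} {yf : ℕ → ℤ × ℤ} {Vsf : ℕ → ℤ × ℤ → ℝ} {rs I : ℕ} (hrs : 2 ≤ rs)
    (hy : ∀ r, rs ≤ r → yf r ∈ Xr r) :
    (DD (pS yf rs I) (nuD lam yf Vsf rs I)).y I ∈
      blk ((DD (pS yf rs I) (nuD lam yf Vsf rs I)).m I) := by
  have h5 := mem_Xr.1 (hy (rr rs I) (le_rr (by omega) I))
  have h6 : 1 ≤ rr rs I := one_le_rr (by omega) I
  show ((4 * ((rr rs I : ℕ) : ℤ) + (yf (rr rs I)).1).toNat,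
    (4 * ((rr rs I : ℕ) : ℤ) + (yf (rr rs I)).2).toNat) ∈ blk (8 * rr rs I)
  rw [blk, Finset.mem_product, Finset.mem_range, Finset.mem_range]
  constructor
  · show (4 * ((rr rs I : ℕ) : ℤ) + (yf (rr rs I)).1).toNat < 8 * rr rs I
    omega
  · show (4 * ((rr rs I : ℕ) : ℤ) + (yf (rr rs I)).2).toNat < 8 * rr rs I
    omega

/-- **Z12** -/
theorem z12 (lam : ℝ) (hlam : 0 < lam) : P365Z.Z12 lam := by
  intro E hE
  obtain ⟨lam', c0', c, yf, Vsf, R₀, h1, h2, h3, h4, h5, h6, h7, h8, H⟩ :=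
    P365T1.Z0.Loc.tw_loc hlam hE
  obtain ⟨g, hg⟩ : ∃ g : ℝ, g = (lam - lam') / 4 := ⟨_, rfl⟩
  have hg0 : 0 < g := by rw [hg]; linarith
  obtain ⟨κ, hκ, hdens⟩ := P365T1.Link.densGe_nuS (l0_pos hlam) (two_l0_le hlam)
    (a := lam' + 3 * g) (by rw [hg]; linarith)
  refine ⟨lam', yf, Vsf, R₀, DtS lam, κ, lam' + g, lam' + 2 * g, g, 18, 195, h1, h2,
    DtS_pos hlam, hκ, by linarith, by linarith, hg0, by norm_num, by norm_num, h6, h7, ?_⟩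
  intro rs hrs η hη
  have hrs2 : 2 ≤ rs := by omega
  have hy : ∀ r, rs ≤ r → yf r ∈ Xr r := fun r hr => h6 r (hrs.trans hr)
  obtain ⟨HHC, Hloc⟩ := H rs hrs
  obtain ⟨I₁, hI₁⟩ := Hloc (lam' + g) (by linarith) η hη
  obtain ⟨r₀, hr₀⟩ := tw_DD hlam hdens (Kq := 193) (K := 195) (η := η) (by norm_num)
    (by norm_num) hη
  refine ⟨max I₁ (max r₀ 64), fun I hI hA => ⟨0, fun N _ hN hz => ⟨?_, ?_⟩⟩⟩
  · exact fun i hi s hs => HHC I hA N hN i hi s hs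
  have hIr : I ≤ rr rs I := (lt_rr hrs2 I).le
  have hok := ok_DD hrs2 hy hA
  have hm0 : 0 < (DD (pS yf rs I) (nuD lam yf Vsf rs I)).m I := mS_pos (by omega) I
  have hyb := y_mem_blk (lam := lam) (Vsf := Vsf) (I := I) hrs2 hy
  have h64 : 64 ≤ rr rs I := by omega
  have hinv := P365.Z0.Num550.inv_q_le (lam := lam) (yf := yf) (Vsf := Vsf) (rs := rs) (I := I)
    le_rfl h64
  have hqb : 0 < qb (DD (pS yf rs I) (nuD lam yf Vsf rs I)) I := by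
    rw [P365.Z0.Num550.qb_DD le_rfl]
    exact Real.exp_pos _
  have hmr : (0 : ℝ) < ((DD (pS yf rs I) (nuD lam yf Vsf rs I)).m I : ℝ) := by
    exact_mod_cast hm0
  have hq : Real.exp (-(193 * (rr rs I : ℝ) ^ 3)) ≤
      qb (DD (pS yf rs I) (nuD lam yf Vsf rs I)) I /
        ((DD (pS yf rs I) (nuD lam yf Vsf rs I)).m I : ℝ) ^ 2 := by
    rw [div_le_iff₀ hqb] at hinv
    rw [Real.exp_neg, le_div_iff₀ (by positivity), inv_mul_le_iff₀ (Real.exp_pos _)]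
    exact hinv
  refine ⟨qb (DD (pS yf rs I) (nuD lam yf Vsf rs I)) I /
    ((DD (pS yf rs I) (nuD lam yf Vsf rs I)).m I : ℝ) ^ 2, DS lam yf rs I, ?_, ?_⟩
  · refine le_trans (Real.exp_le_exp.2 ?_) hq
    have : (0 : ℝ) ≤ (rr rs I : ℝ) ^ 3 := by positivity
    linarith
  intro s hs hs1
  have hs0 : 0 ≤ s := le_trans (mul_pos (bS_pos rs I) (Real.exp_pos _)).le hs
  refine hr₀ yf Vsf rs I hrs2 (by omega) hy hA N E (lam' + g) (lam' + 2 * g) g 18 _ s (by ring)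
    hq hs hs1 ?_ ?_ ?_
  · intro l x hx
    exact hI₁ I (by omega) hA N hN s hs0 hs1 l x hx
  · have h := nT_eq (N := N) (D := DD (pS yf rs I) (nuD lam yf Vsf rs I)) (i := I) hok.p_sum hm0
      (hN I le_rfl) hyb
    have e : (Tc (N := N) (DD (pS yf rs I) (nuD lam yf Vsf rs I))) =
        Tr (DD (pS yf rs I) (nuD lam yf Vsf rs I)) I := by
      funext l
      exact Tc_eq l
    rw [e, mul_comm]
    exact h
  · intro r hr
    exact pair_le (D := DD (pS yf rs I) (nuD lam yf Vsf rs I)) hok.p_nonneg hok.p_sum hm0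
      (hN I le_rfl) hyb hr

end Vale.Agent.P365.Z0.D640
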