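import Vale.Agent.P365.T1.Lab125
import Vale.Agent.P365.J376.V3

/-!
# P365, block Z8: labels.  Averages over the labels with a prescribed pattern on a block.
-/

set_option linter.all false

namespace P365Z.H869

open MeasureTheory P365L P365O P365T1 P365L.TL P365T1.Lab125
open scoped ENNReal

section gen

variable {ι Λ : Type*} [Fintype ι] [DecidableEq ι] [Fintype Λ] [DecidableEq Λ]

theorem integrable_of_bound {Ω : Type*} [MeasurableSpace Ω] {μ : Measure Ω} [IsFiniteMeasure μ]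
    {F : Ω → ℝ} (hF : Measurable F) {M : ℝ} (hM : ∀ v, |F v| ≤ M) : Integrable F μ :=
  Integrable.of_bound hF.aestronglyMeasurable M (Filter.Eventually.of_forall fun v => by
    rw [Real.norm_eq_abs]; exact hM v)

/-- integrable version of `sum_labels_block` -/
theorem sum_labels_block' (p : Λ → ℝ) (hp : ∀ k, 0 ≤ p k) (ν : Λ → Measure ℝ)
    [∀ k, IsProbabilityMeasure (ν k)] (ρ : Measure ℝ)
    (hmix : ∑ k, ENNReal.ofReal (p k) • ν k = ρ) (B : Finset ι) (τ : ι → Λ)
    (F : (ι → ℝ) → ℝ) (hF : ∀ l : ι → Λ, Integrable F (Measure.pi fun x => ν (l x))) :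
    ∑ l : ι → Λ, (∏ x, p (l x)) *
        (if ∀ z ∈ B, l z = τ z then ∫ v, F v ∂(Measure.pi fun x => ν (l x)) else 0) =
      (∏ z ∈ B, p (τ z)) *
        ∫ v, F v ∂(Measure.pi fun x => if x ∈ B then ν (τ x) else ρ) := by
  classical
  set p' : ι → Λ → ℝ := fun x l => if x ∈ B then (if l = τ x then 1 else 0) else p l with hp'
  have hp'0 : ∀ x l, 0 ≤ p' x l := by
    intro x l
    simp only [hp']
    split_ifs
    · exact zero_le_one
    · exact le_rfl
    · exact hp l
  have hmeas : (fun x => if x ∈ B then ν (τ x) else ρ) =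
      fun x : ι => ∑ l, ENNReal.ofReal (p' x l) • ν l := by
    funext x
    by_cases hx : x ∈ B
    · simp only [hp', if_pos hx]
      rw [Finset.sum_eq_single (τ x)]
      · simp
      · intro l _ hl
        simp [hl]
      · intro h
        exact absurd (Finset.mem_univ _) h
    · simp only [hp', if_neg hx]
      exact hmix.symm
  rw [hmeas, integral_pi_mix p' hp'0 (fun _ l => ν l) F hF, Finset.mul_sum]
  refine Finset.sum_congr rfl fun l _ => ?_
  rw [smul_eq_mul, ← mul_assoc]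
  by_cases hl : ∀ z ∈ B, l z = τ z
  · rw [if_pos hl]
    congr 1
    have h1 : ∏ x, p (l x) = (∏ z ∈ B, p (l z)) * ∏ z ∈ Bᶜ, p (l z) :=
      (Finset.prod_mul_prod_compl B fun x => p (l x)).symm
    have h2 : ∏ x, p' x (l x) = (∏ z ∈ B, p' z (l z)) * ∏ z ∈ Bᶜ, p' z (l z) :=
      (Finset.prod_mul_prod_compl B fun x => p' x (l x)).symm
    have h3 : ∏ z ∈ B, p' z (l z) = 1 := by
      refine Finset.prod_eq_one fun z hz => ?_
      simp only [hp', if_pos hz, if_pos (hl z hz)]
    have h4 : ∏ z ∈ Bᶜ, p' z (l z) = ∏ z ∈ Bᶜ, p (l z) := by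
      refine Finset.prod_congr rfl fun z hz => ?_
      simp only [hp', if_neg (Finset.mem_compl.1 hz)]
    have h5 : ∏ z ∈ B, p (l z) = ∏ z ∈ B, p (τ z) :=
      Finset.prod_congr rfl fun z hz => by rw [hl z hz]
    rw [h1, h2, h3, h4, h5, one_mul]
  · rw [if_neg hl, mul_zero]
    push Not at hl
    obtain ⟨z, hz, hlz⟩ := hl
    have h6 : ∏ x, p' x (l x) = 0 := by
      refine Finset.prod_eq_zero (Finset.mem_univ z) ?_
      simp only [hp', if_pos hz, if_neg hlz]
    rw [h6]
    ring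

/-- **labels with a prescribed pattern on `B`** -/
theorem sum_labels_block (p : Λ → ℝ) (hp : ∀ k, 0 ≤ p k) (hsum : ∑ k, p k = 1)
    (ν : Λ → Measure ℝ) [∀ k, IsProbabilityMeasure (ν k)] (ρ : Measure ℝ)
    (hmix : ∑ k, ENNReal.ofReal (p k) • ν k = ρ) (B : Finset ι) (τ : ι → Λ)
    (F : (ι → ℝ) → ℝ) (hF : Measurable F) (M : ℝ) (hM : ∀ v, |F v| ≤ M) :
    ∑ l : ι → Λ, (∏ x, p (l x)) *
        (if ∀ z ∈ B, l z = τ z then ∫ v, F v ∂(Measure.pi fun x => ν (l x)) else 0) =
      (∏ z ∈ B, p (τ z)) *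
        ∫ v, F v ∂(Measure.pi fun x => if x ∈ B then ν (τ x) else ρ) :=
  sum_labels_block' p hp ν ρ hmix B τ F fun _ => integrable_of_bound hF hM

/-- mass of the labels with a prescribed pattern on `B` -/
theorem sum_labels_block_mass (p : Λ → ℝ) (hsum : ∑ k, p k = 1) (B : Finset ι) (τ : ι → Λ) :
    ∑ l : ι → Λ, (∏ x, p (l x)) * (if ∀ z ∈ B, l z = τ z then 1 else 0) =
      ∏ z ∈ B, p (τ z) := by
  classical
  set p' : ι → Λ → ℝ := fun x l => if x ∈ B then (if l = τ x then 1 else 0) else p l with hp'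
  have hs : ∀ x, ∑ l, p' x l = 1 := by
    intro x
    by_cases hx : x ∈ B
    · simp only [hp', if_pos hx]
      simp
    · simp only [hp', if_neg hx]
      exact hsum
  have h0 := sum_prod_eq_one p' hs
  have h1 : ∀ l : ι → Λ, (∏ x, p (l x)) * (if ∀ z ∈ B, l z = τ z then (1:ℝ) else 0) =
      (∏ z ∈ B, p (τ z)) * ∏ x, p' x (l x) := by
    intro l
    by_cases hl : ∀ z ∈ B, l z = τ z
    · rw [if_pos hl, mul_one]
      have h1 : ∏ x, p (l x) = (∏ z ∈ B, p (l z)) * ∏ z ∈ Bᶜ, p (l z) :=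
        (Finset.prod_mul_prod_compl B fun x => p (l x)).symm
      have h2 : ∏ x, p' x (l x) = (∏ z ∈ B, p' z (l z)) * ∏ z ∈ Bᶜ, p' z (l z) :=
        (Finset.prod_mul_prod_compl B fun x => p' x (l x)).symm
      have h3 : ∏ z ∈ B, p' z (l z) = 1 := by
        refine Finset.prod_eq_one fun z hz => ?_
        simp only [hp', if_pos hz, if_pos (hl z hz)]
      have h4 : ∏ z ∈ Bᶜ, p' z (l z) = ∏ z ∈ Bᶜ, p (l z) := by
        refine Finset.prod_congr rfl fun z hz => ?_
        simp only [hp', if_neg (Finset.mem_compl.1 hz)]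
      have h5 : ∏ z ∈ B, p (l z) = ∏ z ∈ B, p (τ z) :=
        Finset.prod_congr rfl fun z hz => by rw [hl z hz]
      rw [h1, h2, h3, h4, h5, one_mul]
    · rw [if_neg hl, mul_zero]
      push Not at hl
      obtain ⟨z, hz, hlz⟩ := hl
      have h6 : ∏ x, p' x (l x) = 0 := by
        refine Finset.prod_eq_zero (Finset.mem_univ z) ?_
        simp only [hp', if_pos hz, if_neg hlz]
      rw [h6, mul_zero]
  rw [Finset.sum_congr rfl fun l _ => h1 l, ← Finset.mul_sum, h0, mul_one]

end gen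

/-! ### the torus: blocks of a family of `V3` -/

section torus

open Vale.Agent.P365.J376

variable (D : V3) {N : ℕ} [NeZero N]

/-- the block of family `i` which contains `x` -/
noncomputable def blkOf (i : ℕ) (x : Tor N) : Finset (Tor N) :=
  Finset.univ.filter fun z => bi (D.m i) z = bi (D.m i) x

/-- law of the potential when the block of `x` carries the pattern of family `i` and all other
sites have the mixed law -/
noncomputable def patLaw (ρ : Measure ℝ) (i : ℕ) (x : Tor N) : Tor N → Measure ℝ :=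
  fun z => if z ∈ blkOf D i x then D.ν (D.pat i (lc (D.m i) z)) else ρ

variable {D}

theorem cen_iff {i : ℕ} {x : Tor N} (hx : lc (D.m i) x = D.y i) (l : Tor N → D.Λ) :
    D.cen i l x ↔ ∀ z ∈ blkOf D i x, l z = D.pat i (lc (D.m i) z) := by
  unfold V3.cen V3.Mat blkOf
  simp [hx]

open Classical in
/-- **labels such that `x` is the centre of a matched block of family `i`** -/
theorem sum_labels_cen {ρ : Measure ℝ} (h : D.Ok ρ) {i : ℕ} {x : Tor N}
    (hx : lc (D.m i) x = D.y i) (F : (Tor N → ℝ) → ℝ)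
    (hF : ∀ l : Tor N → D.Λ, Integrable F (Measure.pi fun z => D.ν (l z))) :
    ∑ l : Tor N → D.Λ, (∏ z, D.p (l z)) *
        (if D.cen i l x then ∫ v, F v ∂(Measure.pi fun z => D.ν (l z)) else 0) =
      (∏ z ∈ blkOf D i x, D.p (D.pat i (lc (D.m i) z))) *
        ∫ v, F v ∂(Measure.pi (patLaw D ρ i x)) := by
  haveI := h.prob
  have h1 := sum_labels_block' (ι := Tor N) D.p h.p_nonneg D.ν ρ h.mix (blkOf D i x)
    (fun z => D.pat i (lc (D.m i) z)) F hF
  refine (Finset.sum_congr rfl fun l _ => ?_).trans h1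
  by_cases hc : D.cen i l x
  · rw [if_pos hc, if_pos ((cen_iff hx l).1 hc)]
  · rw [if_neg hc, if_neg fun hcon => hc ((cen_iff hx l).2 hcon)]

open Classical in
theorem sum_labels_cen_mass {ρ : Measure ℝ} (h : D.Ok ρ) {i : ℕ} {x : Tor N}
    (hx : lc (D.m i) x = D.y i) :
    ∑ l : Tor N → D.Λ, (∏ z, D.p (l z)) * (if D.cen i l x then 1 else 0) =
      ∏ z ∈ blkOf D i x, D.p (D.pat i (lc (D.m i) z)) := by
  have h1 := sum_labels_block_mass (ι := Tor N) D.p h.p_sum (blkOf D i x)
    (fun z => D.pat i (lc (D.m i) z))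
  refine (Finset.sum_congr rfl fun l _ => ?_).trans h1
  by_cases hc : D.cen i l x
  · rw [if_pos hc, if_pos ((cen_iff hx l).1 hc)]
  · rw [if_neg hc, if_neg fun hcon => hc ((cen_iff hx l).2 hcon)]

/-- labels averaged out, no condition -/
theorem sum_labels_all {ρ : Measure ℝ} (h : D.Ok ρ) (F : (Tor N → ℝ) → ℝ)
    (hF : ∀ l : Tor N → D.Λ, Integrable F (Measure.pi fun z => D.ν (l z))) :
    ∑ l : Tor N → D.Λ, (∏ z, D.p (l z)) * ∫ v, F v ∂(Measure.pi fun z => D.ν (l z)) =
      ∫ v, F v ∂(Measure.pi fun _ : Tor N => ρ) := by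
  haveI := h.prob
  have h1 := sum_labels_block' (ι := Tor N) D.p h.p_nonneg D.ν ρ h.mix ∅
    (fun _ => D.good) F hF
  simpa using h1

end torus

end P365Z.H869
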