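import Vale.Agent.P365.Z0.Transfer594
import Vale.Agent.P365.Z0.LogLab869
import Vale.Agent.P365.Z0.IntegDefs
import Vale.Agent.P365.Z0.Pairs
import Vale.Agent.P365.Torus.Stat

/-!
# P365, T1.5, block Z8: the averaged logarithm of the flux at the centres of the matched blocks is at
least (number of centres) × (the mean for the exact law minus the cost of one block).
-/

set_option linter.all false

namespace P365Z.H869

open MeasureTheory P365L P365O P365T1 P365L.TL P365T1.Lab125 P365Z0.H594 Set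
open Vale.Agent.P365.J376 Vale.Agent.P365.Z0
open scoped ENNReal

/-! ### translation invariance -/

section shift

variable {ι : Type*} [AddCommGroup ι] [Fintype ι] [DecidableEq ι] {A : Matrix ι ι ℝ}

theorem gw_sh (hT : TI A) (a : ι) (W : ι → ℂ) (x z : ι) :
    gw A (sh a W) x z = gw A W (x + a) (z + a) := by
  rw [gw, gw, Gr_sh hT, Gr_sh hT]

theorem Sf_sh (hT : TI A) (a : ι) (W : ι → ℂ) (x : ι) :
    Sf A (sh a W) x = Sf A W (x + a) := by
  unfold Sf
  rw [← Equiv.sum_comp (Equiv.addRight a) fun z => (-(W z).im) * ‖gw A W (x + a) z‖ ^ 2]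
  refine Finset.sum_congr rfl fun z _ => ?_
  rw [gw_sh hT]
  rfl

theorem WV_sh (E b : ℝ) (v : ι → ℝ) (a : ι) :
    WV E (fun _ : ι => b) (sh a v) = sh a (WV E (fun _ : ι => b) v) := rfl

/-- the mean of the logarithm of the flux does not depend on the site -/
theorem mean_log_stat (hT : TI A) (ρ : Measure ℝ) [SigmaFinite ρ] (E b : ℝ) (x : ι) :
    ∫ v, Real.log (Sf A (WV E (fun _ => b) v) x) ∂(Measure.pi fun _ : ι => ρ) =
      ∫ v, Real.log (Sf A (WV E (fun _ => b) v) 0) ∂(Measure.pi fun _ : ι => ρ) := by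
  rw [← integral_sh ρ x fun v => Real.log (Sf A (WV E (fun _ => b) v) 0)]
  congr 1
  funext v
  rw [WV_sh, Sf_sh hT, zero_add]

end shift

/-! ### the block sum -/

section torus

variable {D : V3} {N : ℕ} [NeZero N] {ρ : Measure ℝ}

/-- weight of one block -/
noncomputable def wblk (D : V3) {N : ℕ} [NeZero N] (i : ℕ) (x : Tor N) : ℝ :=
  ∏ z ∈ blkOf D i x, D.p (D.pat i (lc (D.m i) z))

theorem wblk_nonneg (h : D.Ok ρ) (i : ℕ) (x : Tor N) : 0 ≤ wblk D i x :=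
  Finset.prod_nonneg fun z _ => h.p_nonneg _

/-- the sites with the local coordinate of the centre -/
def ctr (D : V3) (N : ℕ) [NeZero N] (i : ℕ) : Finset (Tor N) :=
  Finset.univ.filter fun x => lc (D.m i) x = D.y i

theorem mem_ctr {i : ℕ} {x : Tor N} : x ∈ ctr D N i ↔ lc (D.m i) x = D.y i := by
  simp [ctr]

open Classical in
/-- sums over the centres of the matched blocks -/
theorem sum_T {i : ℕ} {T : Finset (Tor N)} {l : Tor N → D.Λ} (hT : ∀ x, x ∈ T ↔ D.cen i l x)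
    (G : Tor N → ℝ) : ∑ x ∈ T, G x = ∑ x ∈ ctr D N i, if D.cen i l x then G x else 0 := by
  have h1 : T = (ctr D N i).filter fun x => D.cen i l x := by
    ext x
    rw [hT, Finset.mem_filter, mem_ctr]
    exact ⟨fun hc => ⟨hc.2, hc⟩, fun hc => hc.2⟩
  rw [h1, Finset.sum_filter]

theorem nT_eq_sum (h : D.Ok ρ) {i : ℕ} {T : (Tor N → D.Λ) → Finset (Tor N)}
    (hT : ∀ l x, x ∈ T l ↔ D.cen i l x) : nT D.p T = ∑ x ∈ ctr D N i, wblk D i x := by
  classical
  unfold nT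
  have h1 : ∀ l : Tor N → D.Λ, (((T l).card : ℕ) : ℝ) =
      ∑ x ∈ ctr D N i, if D.cen i l x then (1:ℝ) else 0 := by
    intro l
    rw [← sum_T (hT l) fun _ => (1:ℝ)]
    simp
  rw [Finset.sum_congr rfl fun l _ => by rw [h1 l, Finset.mul_sum], Finset.sum_comm]
  exact Finset.sum_congr rfl fun x hx => sum_labels_cen_mass h (mem_ctr.1 hx)

theorem LT_eq_sum (h : D.Ok ρ) {i : ℕ} {T : (Tor N → D.Λ) → Finset (Tor N)}
    (hT : ∀ l x, x ∈ T l ↔ D.cen i l x) (E : ℝ) {b : ℝ} (hb : 0 < b) :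
    Vale.Agent.P365.Z0.LT (AT N) D.p D.ν E T (fun _ _ => b) =
      ∑ x ∈ ctr D N i, wblk D i x *
        ∫ v, Real.log (Sf (AT N) (WV E (fun _ => b) v) x) ∂(Measure.pi (patLaw D ρ i x)) := by
  classical
  haveI := h.prob
  have hA : (AT N).IsSymm := AT_symm N
  have hint : ∀ (l : Tor N → D.Λ) (x : Tor N),
      Integrable (fun v => Real.log (Sf (AT N) (WV E (fun _ => b) v) x))
        (Measure.pi fun z => D.ν (l z)) := fun l x =>
    integrable_of_bound (Real.measurable_log.comp (measurable_Sf_WV E _ x))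
      fun v => abs_log_Sf_le hA hb (fun _ => le_rfl) v x
  unfold Vale.Agent.P365.Z0.LT AvG Ex
  have h1 : ∀ l : Tor N → D.Λ,
      ∫ v, (∑ x ∈ T l, Real.log (Sf (AT N) (WV E (fun _ => b) v) x))
        ∂(Measure.pi fun z => D.ν (l z)) =
      ∑ x ∈ ctr D N i, if D.cen i l x then
        ∫ v, Real.log (Sf (AT N) (WV E (fun _ => b) v) x) ∂(Measure.pi fun z => D.ν (l z))
          else 0 := by
    intro l
    rw [integral_finset_sum _ fun x _ => hint l x]
    exact sum_T (hT l) _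
  rw [Finset.sum_congr rfl fun l _ => by rw [h1 l, Finset.mul_sum], Finset.sum_comm]
  exact Finset.sum_congr rfl fun x hx => sum_labels_cen h (mem_ctr.1 hx) _ fun l => hint l x

/-- sums over a block in local coordinates -/
theorem sum_blkOf {i : ℕ} (hm : 0 < D.m i) (hmN : D.m i ∣ N) (x : Tor N) (g : Loc → ℝ) :
    ∑ z ∈ blkOf D i x, g (lc (D.m i) z) = ∑ a ∈ blk (D.m i), g a := by
  refine Finset.sum_nbij' (fun z => lc (D.m i) z) (fun a => st N (D.m i) (bi (D.m i) x) a)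
    ?_ ?_ ?_ ?_ ?_
  · intro z _
    exact lc_mem_blk hm z
  · intro a ha
    simp only [blkOf, Finset.mem_filter, Finset.mem_univ, true_and]
    exact bi_st' (bIn_bi hmN x) ha
  · intro z hz
    simp only [blkOf, Finset.mem_filter, Finset.mem_univ, true_and] at hz
    rw [← hz]
    exact st_bi_lc z
  · intro a ha
    exact lc_st' (bIn_bi hmN x) ha
  · intro z _
    rfl

/-- **the lower bound of `LT` by the mean for the exact law** -/
theorem LT_ge (h : D.Ok ρ) {i : ℕ} {T : (Tor N → D.Λ) → Finset (Tor N)}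
    (hT : ∀ l x, x ∈ T l ↔ D.cen i l x) (hm : 0 < D.m i) (hmN : D.m i ∣ N) (E : ℝ) {b lam : ℝ}
    (hb : 0 < b) (hlam : 0 ≤ lam) [IsProbabilityMeasure ρ]
    (hν : ∀ a ∈ blk (D.m i), D.ν (D.pat i a) (Icc (-lam) lam)ᶜ = 0)
    (hρ : ρ (Icc (-lam) lam)ᶜ = 0) {Dn : D.Λ → ℝ} {D0 : ℝ}
    (hDn : ∀ a ∈ blk (D.m i), DensLe (Dn (D.pat i a)) (D.ν (D.pat i a)))
    (hDn0 : ∀ a ∈ blk (D.m i), 0 < Dn (D.pat i a)) (hD0 : DensLe D0 ρ) (hD00 : 0 < D0) {C : ℝ}
    (hC : ∑ a ∈ blk (D.m i), (2 * cL (2 * lam) (Dn (D.pat i a)) + 2 * cL (2 * lam) D0) ≤ C) :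
    nT D.p T *
      (∫ v, Real.log (Sf (AT N) (WV E (fun _ => b) v) 0) ∂(Measure.pi fun _ : Tor N => ρ) - C) ≤
        Vale.Agent.P365.Z0.LT (AT N) D.p D.ν E T (fun _ _ => b) := by
  classical
  haveI := h.prob
  have hA : (AT N).IsSymm := AT_symm N
  rw [nT_eq_sum h hT, LT_eq_sum h hT E hb, Finset.sum_mul]
  refine Finset.sum_le_sum fun x hx => ?_
  refine mul_le_mul_of_nonneg_left ?_ (wblk_nonneg h i x)
  haveI : ∀ z, IsProbabilityMeasure (patLaw D ρ i x z) := fun z => by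
    unfold patLaw
    split_ifs
    · infer_instance
    · infer_instance
  have hz : ∀ z : Tor N, lc (D.m i) z ∈ blk (D.m i) := fun z => lc_mem_blk hm z
  have h1 := transfer (A := AT N) hA (E := E) (b := b) (lam := lam) (e := fun _ => b) hb
    (fun _ => le_rfl) hlam (patLaw D ρ i x) (fun _ => ρ) (blkOf D i x)
    (fun z => Dn (D.pat i (lc (D.m i) z))) (fun _ => D0) (fun z _ => hDn0 _ (hz z))
    (fun _ _ => hD00)
    (fun z hzb => by
      unfold patLaw
      rw [if_pos hzb]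
      exact hDn _ (hz z))
    (fun _ _ => hD0)
    (fun z hzb => by
      unfold patLaw
      rw [if_pos hzb]
      exact hν _ (hz z))
    (fun _ _ => hρ)
    (fun z hzb => by
      unfold patLaw
      rw [if_neg hzb]) x
  rw [mean_log_stat (TI_AT N), sum_blkOf hm hmN x fun a =>
    2 * cL (2 * lam) (Dn (D.pat i a)) + 2 * cL (2 * lam) D0] at h1
  linarith

/-- the expected number of centres of matched blocks is positive -/
theorem nT_pos (h : D.Ok ρ) {i : ℕ} {T : (Tor N → D.Λ) → Finset (Tor N)}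
    (hT : ∀ l x, x ∈ T l ↔ D.cen i l x) (hm : 0 < D.m i) (hmN : D.m i ∣ N)
    (hy : D.y i ∈ blk (D.m i)) (hp : ∀ a ∈ blk (D.m i), 0 < D.p (D.pat i a)) :
    0 < nT D.p T := by
  rw [nT_eq_sum h hT]
  refine Finset.sum_pos (fun x _ => Finset.prod_pos fun z _ => hp _ (lc_mem_blk hm z)) ?_
  exact ⟨st N (D.m i) (bi (D.m i) 0) (D.y i), mem_ctr.2 (lc_st' (bIn_bi hmN 0) hy)⟩

/-- if `LT ≤ -c nT`, the mean for the exact law is at most `C - c` -/
theorem mean_le_of_LT (h : D.Ok ρ) {i : ℕ} {T : (Tor N → D.Λ) → Finset (Tor N)}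
    (hT : ∀ l x, x ∈ T l ↔ D.cen i l x) (hm : 0 < D.m i) (hmN : D.m i ∣ N)
    (hy : D.y i ∈ blk (D.m i)) (hp : ∀ a ∈ blk (D.m i), 0 < D.p (D.pat i a)) (E : ℝ) {b lam : ℝ}
    (hb : 0 < b) (hlam : 0 ≤ lam) [IsProbabilityMeasure ρ]
    (hν : ∀ a ∈ blk (D.m i), D.ν (D.pat i a) (Icc (-lam) lam)ᶜ = 0)
    (hρ : ρ (Icc (-lam) lam)ᶜ = 0) {Dn : D.Λ → ℝ} {D0 : ℝ}
    (hDn : ∀ a ∈ blk (D.m i), DensLe (Dn (D.pat i a)) (D.ν (D.pat i a)))
    (hDn0 : ∀ a ∈ blk (D.m i), 0 < Dn (D.pat i a)) (hD0 : DensLe D0 ρ) (hD00 : 0 < D0) {C : ℝ}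
    (hC : ∑ a ∈ blk (D.m i), (2 * cL (2 * lam) (Dn (D.pat i a)) + 2 * cL (2 * lam) D0) ≤ C)
    {c : ℝ} (hLT : Vale.Agent.P365.Z0.LT (AT N) D.p D.ν E T (fun _ _ => b) ≤ -c * nT D.p T) :
    ∫ v, Real.log (Sf (AT N) (WV E (fun _ => b) v) 0) ∂(Measure.pi fun _ : Tor N => ρ) ≤
      C - c := by
  have h1 := LT_ge h hT hm hmN E hb hlam hν hρ hDn hDn0 hD0 hD00 hC
  have h2 := nT_pos h hT hm hmN hy hp
  have h3 := h1.trans hLT
  rw [mul_comm (-c)] at h3
  have h4 := le_of_mul_le_mul_left h3 h2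
  linarith

end torus

end P365Z.H869
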