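import Vale.Agent.P365.Z0.Z8_594
import Vale.Agent.P365.Z0.LogFin869

/-!
# P365, T1.5: **block Z8 is a theorem** (no hypothesis left).
-/

set_option linter.all false

namespace P365Z0.H594

open P365L P365L.TL P365O P365T1 P365T1.Conc P365T1.Seq P365Z P365Z.H869 Vale.Agent.P365.J376
open Vale.Agent.P365.Z0 Matrix Complex MeasureTheory Filter Topology Set
open scoped ComplexConjugate ENNReal

section DDs

variable {lam : ℝ} {yf : ℕ → ℤ × ℤ} {Vsf : ℕ → ℤ × ℤ → ℝ} {rs I : ℕ}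

/-- sum of the transfer constants over the block in local coordinates -/
theorem sum_blk_le (hlam : 0 < lam) (h : AdmS lam yf Vsf rs I) (hrs : 2 ≤ rs) :
    ∑ a ∈ blk (mS rs I), (2 * cL (2 * lam) (DS lam yf rs I ((PP yf rs I).pat I a)) +
      2 * cL (2 * lam) (1 / (2 * lam))) ≤ (mS rs I : ℝ) ^ 2 * (24 * (rr rs I : ℝ)) := by
  have hr1 : (1 : ℝ) ≤ (rr rs I : ℝ) := by exact_mod_cast one_le_rr (by omega) I
  have hcard : (blk (mS rs I)).card = mS rs I ^ 2 := by
    rw [blk, Finset.card_product, Finset.card_range, sq]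
  calc _ ≤ ∑ a ∈ blk (mS rs I), 24 * (rr rs I : ℝ) := by
        refine Finset.sum_le_sum fun a _ => ?_
        have h1 := cL_unif hlam
        have h2 := cL_lab hlam hr1 (DS_pat_le h a)
        linarith
    _ = (mS rs I : ℝ) ^ 2 * (24 * (rr rs I : ℝ)) := by
        rw [Finset.sum_const, nsmul_eq_mul, hcard]
        push_cast
        ring

end DDs

/-- **Z8** -/
theorem Z8_holds : Z8 := by
  intro lam hlam hLT E hE
  obtain ⟨lam', yf, Vsf, R, hl, hy, hV, h⟩ := hLT E hE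
  obtain ⟨R', hR', hadm⟩ := exists_admS hlam hl
  refine ⟨max R R', fun rs hrs δ hδ => ?_⟩
  have hR1 : R ≤ rs := (le_max_left _ _).trans hrs
  have hR2 : R' ≤ rs := (le_max_right _ _).trans hrs
  have hrs2 : 2 ≤ rs := hR'.trans hR2
  obtain ⟨I1, h1⟩ := h rs hR1 (δ / 2) (by positivity)
  obtain ⟨I2, h2⟩ := num_block (show 0 < δ / 2 by positivity) hrs2
  refine ⟨max I1 I2, fun I hI N₀ => ?_⟩
  have hA : AdmS lam yf Vsf rs I := hadm rs hR2 yf Vsf (fun r _ z => hV r z) I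
  obtain ⟨N1, hN1⟩ := h1 I ((le_max_left _ _).trans hI) hA
  obtain ⟨N, hN, hN0, -, hdvd⟩ := exists_N (show 1 ≤ rs by omega) I (max N₀ N1)
  haveI : NeZero N := ⟨hN0⟩
  refine ⟨N, (le_max_left _ _).trans hN, inferInstance, ?_⟩
  have h3 := hN1 N ((le_max_right _ _).trans hN) hdvd inferInstance
  have hOk : (DD (pS yf rs I) (nuD lam yf Vsf rs I)).Ok (nuL lam) :=
    DD_ok hrs2 (fun r hr => hy r (hR1.trans hr)) (lw_DD hA)
  have hyl := y_lt (PP_ok hrs2 (fun r hr => hy r (hR1.trans hr)) I) I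
  have hm0 : 0 < (DD (pS yf rs I) (nuD lam yf Vsf rs I)).m I := mS_pos (by omega) I
  have hTc : ∀ (l : Tor N → (DD (pS yf rs I) (nuD lam yf Vsf rs I)).Λ) (x : Tor N),
      x ∈ Tc (DD (pS yf rs I) (nuD lam yf Vsf rs I)) l ↔
        (DD (pS yf rs I) (nuD lam yf Vsf rs I)).cen I l x := by
    intro l x
    simp only [Tc, Finset.mem_filter, Finset.mem_univ, true_and]
    rfl
  have h4 := mean_le_of_LT (N := N) hOk (i := I) hTc hm0 (hdvd I le_rfl) (mem_blk'.2 hyl)
    (fun a _ => (Real.exp_pos (-(3 * (rr rs I : ℝ)))).trans_eq (pS_pat_DD le_rfl a).symm) E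
    (bS_pos rs I) hlam.le (fun a _ => nuD_supp hA _) (nuL_supp hlam)
    (Dn := DS lam yf rs I) (D0 := 1 / (2 * lam)) (fun a _ => nuD_densLe hA _)
    (fun a _ => DS_pos hA _) (nuL_densLe hlam) (by positivity) (sum_blk_le hlam hA hrs2)
    (c := (1 - δ / 2) * Real.log (1 / bS rs I)) h3
  have h6 := h2 I ((le_max_right _ _).trans hI)
  simp only [Wh_eq_WV]
  linarith

end P365Z0.H594
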