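import Vale.Agent.P365.Z0.End700
import Vale.Agent.P365.Z0.Main0
import Vale.Agent.P365.Z0.IntegZ7
import Vale.Agent.P365.Z0.Z12_640
import Vale.Agent.P365.Z0.Z8Fin594
import Vale.Agent.P365.Z0.S351.FarT

/-!
# P365 T1.5: the exact uniform law has zero-dimensional spectrum in `d = 2`, all disorder
-/

set_option linter.all false

namespace Vale.Agent.P365.Z0

open MeasureTheory ProbabilityTheory P365L

/-- means of `log w_0` on the tori, exact uniform law -/
theorem logTor_all : ∀ lam : ℝ, 0 < lam → P365L.Z0.LogTor (TL.nuL lam) lam :=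
  P365Z.logTor_of_logT (fun lam h => logT_of h P365Z.farT (D640.z12 lam h) (P365Z.hbconc h))
    P365Z0.H594.Z8_holds

/-- everything together -/
theorem zero_dim_all :
    ∀ {Ω : Type} [MeasurableSpace Ω] (P : Measure Ω) [IsProbabilityMeasure P]
      (w : Site → Ω → ℝ), (∀ x, Measurable (w x)) → iIndepFun w P →
      (∀ x, P.map (w x) = cond volume (Set.Icc (-1) 1)) → ∀ lam : ℝ, 0 < lam →
      ∀ᵐ o ∂P, P365Z0.F700.ZeroDimSpectrum (fun x => lam * w x o) := by
  intro Ω _ P _ w hm hi hl lam hlam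
  exact (P365Z0.F700.final_of_logTor logTor_all).1 P w hm hi hl lam hlam |>.mono fun o ho => ho.1

end Vale.Agent.P365.Z0
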