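import Vale.Agent.P365.Z0.Iface
import Vale.Agent.P365.ISL.Dens77
import Vale.Agent.P365.T1.H3.DensS

/-!
# P365 T1.5, Z12: the datum of the last stage of the concrete chain

All fields of the trap world `P365Z.TW` for the chain `DD (pS ..) (nuD ..)`, the profile of the
last stage and the traps `Tc`, except for `loc`, `card` and `pair`, which are hypotheses of the
final theorem.
-/

set_option linter.all false

namespace Vale.Agent.P365.Z0.D640

open P365L P365L.TL P365O P365T1 P365SH Vale.Agent.P365.J376 Vale.Agent.P365.C937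
open P365Z MeasureTheory Set Filter
open P365T1.Conc P365T1.Seq P365T1.Lab37 P365T1.OneVar P365T1.Bump
open scoped ENNReal Topology

/-- density bound of the smooth law -/
noncomputable def DtS (lam : ℝ) : ℝ := (2 * (lam - lam * tau0 / 2))⁻¹

theorem DtS_pos {lam : ℝ} (h : 0 < lam) : 0 < DtS lam := by
  have h1 := l0_lt h
  unfold DtS
  refine inv_pos.2 ?_
  linarith

/-- bound of `1 + DS` without the exponential -/
noncomputable def CDn (lam : ℝ) : ℝ := 2 + DtS lam + (7 * tau0 / 8)⁻¹ * (2 * lam)⁻¹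

theorem CDn_pos {lam : ℝ} (h : 0 < lam) : 0 < CDn lam := by
  have h1 := DtS_pos h
  have h2 := tau0_pos
  unfold CDn
  positivity

section fields

variable {lam : ℝ} {yf : ℕ → ℤ × ℤ} {Vsf : ℕ → ℤ × ℤ → ℝ} {rs I : ℕ}

theorem ok_DD (hrs : 2 ≤ rs) (hy : ∀ r, rs ≤ r → yf r ∈ Xr r) (h : AdmS lam yf Vsf rs I) :
    (DD (pS yf rs I) (nuD lam yf Vsf rs I)).Ok (nuL lam) := DD_ok hrs hy (lw_DD h)

/-- `1 + Dn` is at most a constant times `exp (r_I)` -/
theorem one_add_DS_le (hrs : 2 ≤ rs) (h : AdmS lam yf Vsf rs I) (k : (PP yf rs I).Lb) :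
    1 + DS lam yf rs I k ≤ CDn lam * Real.exp (rr rs I : ℝ) := by
  have hl := h.hlam
  have h1 : 1 ≤ Real.exp (rr rs I : ℝ) := Real.one_le_exp (Nat.cast_nonneg _)
  have h2 := DtS_pos hl
  have h3 : 0 < (7 * tau0 / 8)⁻¹ * (2 * lam)⁻¹ := by
    have := tau0_pos
    positivity
  have hX : 0 ≤ Real.exp (rr rs I : ℝ) := (Real.exp_pos _).le
  have h4 : CDn lam ≤ CDn lam * Real.exp (rr rs I : ℝ) :=
    le_mul_of_one_le_right (CDn_pos hl).le h1
  have hmain : DS lam yf rs I k ≤ DtS lam ∨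
      DS lam yf rs I k ≤ (7 * tau0 / 8)⁻¹ * (2 * lam)⁻¹ ∨
      DS lam yf rs I k ≤ Real.exp (rr rs I : ℝ) := by
    rcases k with _ | _ | i | a
    · exact Or.inl le_rfl
    · right; left
      show (tau0 - ∑ a, qC (PP yf rs I) (Sum.inr a))⁻¹ * (2 * lam)⁻¹ ≤ _
      have h5 := h.sum_win_le
      have h6 := tau0_pos
      refine mul_le_mul_of_nonneg_right ?_ (by positivity)
      refine inv_anti₀ (by positivity) ?_
      linarith
    · exact Or.inl le_rfl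
    · right; right
      show 15 / (16 * wC (PP yf rs I) a) ≤ _
      have h5 : wC (PP yf rs I) a = Real.exp (-(rr rs a.1 : ℝ)) := rfl
      have h6 : rr rs a.1 ≤ rr rs I := rr_mono (by omega) (Nat.lt_succ_iff.1 a.1.2)
      have h7 : (rr rs a.1 : ℝ) ≤ rr rs I := by exact_mod_cast h6
      rw [h5, Real.exp_neg]
      have h8 : (0 : ℝ) < Real.exp (rr rs a.1 : ℝ) := Real.exp_pos _
      have h9 : Real.exp (rr rs a.1 : ℝ) ≤ Real.exp (rr rs I : ℝ) := Real.exp_le_exp.2 h7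
      have h10 : 15 / (16 * (Real.exp (rr rs a.1 : ℝ))⁻¹) =
          15 / 16 * Real.exp (rr rs a.1 : ℝ) := by
        field_simp
      rw [h10]
      linarith
  unfold CDn at h4 ⊢
  rcases hmain with h5 | h5 | h5
  · linarith
  · linarith
  · nlinarith

theorem prof_eq (s : ℝ) {N : ℕ} [NeZero N]
    (l : Tor N → (DD (pS yf rs I) (nuD lam yf Vsf rs I)).Λ) (x : Tor N) :
    (DD (pS yf rs I) (nuD lam yf Vsf rs I)).prof (I + 1) s l x =
      bS rs I + s * (DD (pS yf rs I) (nuD lam yf Vsf rs I)).Ws (I + 1) l x := by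
  unfold V3.prof
  have h := V3.us_last (D := DD (pS yf rs I) (nuD lam yf Vsf rs I)) l x
  rw [show (DD (pS yf rs I) (nuD lam yf Vsf rs I)).us (I + 1) l x = bS rs I from h]

theorem mem_Tc {N : ℕ} [NeZero N] {D : V3} {l : Tor N → D.Λ} {x : Tor N} :
    x ∈ Tc D l ↔ D.cen D.I l x := by
  classical
  unfold Tc
  simp

/-- **`e_pos`** -/
theorem e_pos (hrs : 2 ≤ rs) (hy : ∀ r, rs ≤ r → yf r ∈ Xr r) (h : AdmS lam yf Vsf rs I)
    {s : ℝ} (hs : 0 ≤ s) {N : ℕ} [NeZero N]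
    (l : Tor N → (DD (pS yf rs I) (nuD lam yf Vsf rs I)).Λ) (x : Tor N) :
    0 < (DD (pS yf rs I) (nuD lam yf Vsf rs I)).prof (I + 1) s l x :=
  (ok_DD hrs hy h).prof_pos le_rfl hs l x

/-- **`e_lo`** -/
theorem e_lo (hrs : 2 ≤ rs) (hy : ∀ r, rs ≤ r → yf r ∈ Xr r) (h : AdmS lam yf Vsf rs I)
    {s : ℝ} (hs : 0 ≤ s) {N : ℕ} [NeZero N]
    (l : Tor N → (DD (pS yf rs I) (nuD lam yf Vsf rs I)).Λ) (x : Tor N)
    (hx : x ∈ Tc (DD (pS yf rs I) (nuD lam yf Vsf rs I)) l) :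
    s * e0S rs I ≤ (DD (pS yf rs I) (nuD lam yf Vsf rs I)).prof (I + 1) s l x := by
  rw [prof_eq]
  have h1 := ((ok_DD hrs hy h).Ws_cen le_rfl (mem_Tc.1 hx)).1
  have h2 : e0S rs I ≤ (DD (pS yf rs I) (nuD lam yf Vsf rs I)).Ws (I + 1) l x := h1
  have h3 := mul_le_mul_of_nonneg_left h2 hs
  have h4 := bS_pos rs I
  linarith

/-- **`e_hi`** -/
theorem e_hi (hrs : 2 ≤ rs) (hy : ∀ r, rs ≤ r → yf r ∈ Xr r) (h : AdmS lam yf Vsf rs I)
    {s : ℝ} (hs : 0 ≤ s) (hb : bS rs I ≤ s * e0S rs I) {N : ℕ} [NeZero N]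
    (l : Tor N → (DD (pS yf rs I) (nuD lam yf Vsf rs I)).Λ) (x : Tor N)
    (hx : x ∈ Tc (DD (pS yf rs I) (nuD lam yf Vsf rs I)) l) :
    (DD (pS yf rs I) (nuD lam yf Vsf rs I)).prof (I + 1) s l x ≤ 3 * (s * e0S rs I) := by
  rw [prof_eq]
  have h1 := ((ok_DD hrs hy h).Ws_cen le_rfl (mem_Tc.1 hx)).2
  have h2 : (DD (pS yf rs I) (nuD lam yf Vsf rs I)).Ws (I + 1) l x ≤ 2 * e0S rs I := h1
  have h3 := mul_le_mul_of_nonneg_left h2 hs
  linarith

/-- the law at the traps -/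
theorem nu_trap (hrs : 2 ≤ rs) (hy : ∀ r, rs ≤ r → yf r ∈ Xr r) (h : AdmS lam yf Vsf rs I)
    {N : ℕ} [NeZero N] (l : Tor N → (DD (pS yf rs I) (nuD lam yf Vsf rs I)).Λ) (x : Tor N)
    (hx : x ∈ Tc (DD (pS yf rs I) (nuD lam yf Vsf rs I)) l) :
    nuD lam yf Vsf rs I (l x) = nuS lam (lam * tau0 / 2) :=
  nuD_mov' h ((ok_DD hrs hy h).cen_mov le_rfl (mem_Tc.1 hx))

/-- **`dens`** -/
theorem dens (hrs : 2 ≤ rs) (hy : ∀ r, rs ≤ r → yf r ∈ Xr r) (h : AdmS lam yf Vsf rs I)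
    {N : ℕ} [NeZero N] (l : Tor N → (DD (pS yf rs I) (nuD lam yf Vsf rs I)).Λ) (x : Tor N)
    (hx : x ∈ Tc (DD (pS yf rs I) (nuD lam yf Vsf rs I)) l) :
    DensLe (DtS lam) (nuD lam yf Vsf rs I (l x)) := by
  rw [nu_trap hrs hy h l x hx]
  exact densLe_nuS (l0_pos h.hlam) (l0_lt h.hlam)

/-- **`core`** -/
theorem core (hrs : 2 ≤ rs) (hy : ∀ r, rs ≤ r → yf r ∈ Xr r) (h : AdmS lam yf Vsf rs I)
    {κ a₀ : ℝ} (hκ : DensGe κ a₀ (nuS lam (lam * tau0 / 2)))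
    {N : ℕ} [NeZero N] (l : Tor N → (DD (pS yf rs I) (nuD lam yf Vsf rs I)).Λ) (x : Tor N)
    (hx : x ∈ Tc (DD (pS yf rs I) (nuD lam yf Vsf rs I)) l) :
    DensGe κ a₀ (nuD lam yf Vsf rs I (l x)) := by
  rw [nu_trap hrs hy h l x hx]
  exact hκ

/-- the profile outside of the traps -/
theorem e_bulk (hrs : 2 ≤ rs) (hy : ∀ r, rs ≤ r → yf r ∈ Xr r) (h : AdmS lam yf Vsf rs I)
    {s : ℝ} (hs : 0 ≤ s) {N : ℕ} [NeZero N]
    (l : Tor N → (DD (pS yf rs I) (nuD lam yf Vsf rs I)).Λ) (x : Tor N)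
    (hx : x ∉ Tc (DD (pS yf rs I) (nuD lam yf Vsf rs I)) l) :
    (DD (pS yf rs I) (nuD lam yf Vsf rs I)).prof (I + 1) s l x ≤
      bS rs I + s * (2 * (e0S rs I * Real.exp (-((rr rs I : ℝ) ^ 5)))) := by
  rw [prof_eq]
  have hc : ¬ (DD (pS yf rs I) (nuD lam yf Vsf rs I)).cen I l x := fun hc => hx (mem_Tc.2 hc)
  have h0 : 0 ≤ 2 * (e0S rs I * Real.exp (-((rr rs I : ℝ) ^ 5))) := by
    have := e0S_pos rs I
    positivity
  by_cases hm : (DD (pS yf rs I) (nuD lam yf Vsf rs I)).mov (l x)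
  · have h1 := ((ok_DD hrs hy h).Ws_bulk le_rfl hm hc).2
    have h2 : (DD (pS yf rs I) (nuD lam yf Vsf rs I)).Ws (I + 1) l x ≤
        2 * (e0S rs I * Real.exp (-((rr rs I : ℝ) ^ 5))) := h1
    have h3 := mul_le_mul_of_nonneg_left h2 hs
    linarith
  · have h1 := (ok_DD hrs hy h).Ws_of_not_mov (i := I + 1) le_rfl hm
    rw [h1]
    have h3 := mul_nonneg hs h0
    linarith

end fields

/-! ### numbers -/

/-- all numerical inequalities, for large radii -/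
theorem ev_num {lam : ℝ} (hlam : 0 < lam) {Kq K η : ℝ} (hKq : Kq < K) (hK : 0 < K) (hη : 0 < η) :
    ∀ᶠ r : ℕ in atTop,
      (r : ℝ) ≤ K * (r : ℝ) ^ 3 ∧ Real.exp (-(r : ℝ)) ≤ η ∧
      Real.exp (-(K * (r : ℝ) ^ 3)) * (CDn lam * Real.exp (r : ℝ)) ≤
        η / 2 * (Real.exp (-(Kq * (r : ℝ) ^ 3)) * Real.exp (-(r : ℝ))) ∧
      2 * Real.exp (-((r : ℝ) ^ 5)) * (CDn lam * Real.exp (r : ℝ)) ≤
        η / 2 * Real.exp (-(Kq * (r : ℝ) ^ 3)) := by
  have hC := CDn_pos hlam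
  have h1 := ev_pow_le_pow 1 (d := 1) (d' := 3) (by norm_num) hK
  have h2 : ∀ᶠ r : ℕ in atTop, Real.exp (-(r : ℝ)) ≤ η := by
    have h := ev_pow_exp_le 1 0 (c := 1) one_pos hη
    simpa using h
  -- logarithmic forms
  have h3 := ev_pow_le_pow (|Real.log (CDn lam * 2 / η)|) (d := 0) (d' := 1) (by norm_num) one_pos
  have h4 := ev_pow_le_pow 3 (d := 1) (d' := 3) (c := K - Kq) (by norm_num) (by linarith)
  have h5 := ev_pow_le_pow (|Real.log (CDn lam * 4 / η)|) (d := 0) (d' := 1) (by norm_num) one_pos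
  have h6 := ev_pow_le_pow 2 (d := 1) (d' := 5) (c := 1 / 2) (by norm_num) (by norm_num)
  have h7 := ev_pow_le_pow |Kq| (d := 3) (d' := 5) (c := 1 / 2) (by norm_num) (by norm_num)
  filter_upwards [h1, h2, h3, h4, h5, h6, h7] with r h1 h2 h3 h4 h5 h6 h7
  have e3 : CDn lam * 2 / η ≤ Real.exp (r : ℝ) := by
    have h8 : 0 < CDn lam * 2 / η := by positivity
    rw [← Real.exp_log h8]
    refine Real.exp_le_exp.2 ((le_abs_self _).trans ?_)
    simpa using h3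
  have e5 : CDn lam * 4 / η ≤ Real.exp (r : ℝ) := by
    have h8 : 0 < CDn lam * 4 / η := by positivity
    rw [← Real.exp_log h8]
    refine Real.exp_le_exp.2 ((le_abs_self _).trans ?_)
    simpa using h5
  rw [div_le_iff₀ hη] at e3 e5
  refine ⟨by simpa using h1, h2, ?_, ?_⟩
  · have k1 : Real.exp (-(K * (r : ℝ) ^ 3)) * Real.exp (r : ℝ) * Real.exp (r : ℝ) ≤
        Real.exp (-(Kq * (r : ℝ) ^ 3)) * Real.exp (-(r : ℝ)) := by
      rw [← Real.exp_add, ← Real.exp_add, ← Real.exp_add]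
      refine Real.exp_le_exp.2 ?_
      simp only [pow_one] at h4
      linarith
    have k2 : 0 < Real.exp (-(K * (r : ℝ) ^ 3)) * Real.exp (r : ℝ) :=
      mul_pos (Real.exp_pos _) (Real.exp_pos _)
    calc Real.exp (-(K * (r : ℝ) ^ 3)) * (CDn lam * Real.exp (r : ℝ))
        = (Real.exp (-(K * (r : ℝ) ^ 3)) * Real.exp (r : ℝ)) * (CDn lam * 2) / 2 := by ring
      _ ≤ (Real.exp (-(K * (r : ℝ) ^ 3)) * Real.exp (r : ℝ)) * (Real.exp (r : ℝ) * η) / 2 := by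
          gcongr
      _ = η / 2 * (Real.exp (-(K * (r : ℝ) ^ 3)) * Real.exp (r : ℝ) * Real.exp (r : ℝ)) := by
          ring
      _ ≤ _ := mul_le_mul_of_nonneg_left k1 (by positivity)
  · have k1 : Real.exp (-((r : ℝ) ^ 5)) * Real.exp (r : ℝ) * Real.exp (r : ℝ) ≤
        Real.exp (-(Kq * (r : ℝ) ^ 3)) := by
      rw [← Real.exp_add, ← Real.exp_add]
      refine Real.exp_le_exp.2 ?_
      simp only [pow_one] at h6
      have h9 : Kq * (r : ℝ) ^ 3 ≤ |Kq| * (r : ℝ) ^ 3 :=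
        mul_le_mul_of_nonneg_right (le_abs_self _) (by positivity)
      linarith
    have k2 : 0 < Real.exp (-((r : ℝ) ^ 5)) * Real.exp (r : ℝ) :=
      mul_pos (Real.exp_pos _) (Real.exp_pos _)
    calc 2 * Real.exp (-((r : ℝ) ^ 5)) * (CDn lam * Real.exp (r : ℝ))
        = (Real.exp (-((r : ℝ) ^ 5)) * Real.exp (r : ℝ)) * (CDn lam * 4) / 2 := by ring
      _ ≤ (Real.exp (-((r : ℝ) ^ 5)) * Real.exp (r : ℝ)) * (Real.exp (r : ℝ) * η) / 2 := by
          gcongr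
      _ = η / 2 * (Real.exp (-((r : ℝ) ^ 5)) * Real.exp (r : ℝ) * Real.exp (r : ℝ)) := by
          ring
      _ ≤ _ := mul_le_mul_of_nonneg_left k1 (by positivity)

/-- large `I` give large radii -/
theorem exists_I {rs : ℕ} (hrs : 2 ≤ rs) (r₀ : ℕ) : ∀ I, r₀ ≤ I → r₀ ≤ rr rs I :=
  fun I hI => hI.trans (lt_rr hrs I).le

/-- **Z12 without `loc`, `card` and `pair`**: the last stage of the concrete chain is a trap
world.  `κ`, `a₀`: density of the smooth law (`densGe_nuS`); `Kq`: number of traps; `K`: lower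
bound of the strengths. -/
theorem tw_DD {lam : ℝ} (hlam : 0 < lam) {κ a₀ : ℝ}
    (hκ : DensGe κ a₀ (nuS lam (lam * tau0 / 2))) {Kq K η : ℝ} (hKq : Kq < K) (hK : 0 < K)
    (hη : 0 < η) :
    ∃ r₀ : ℕ, ∀ (yf : ℕ → ℤ × ℤ) (Vsf : ℕ → ℤ × ℤ → ℝ) (rs I : ℕ), 2 ≤ rs → r₀ ≤ rr rs I →
      (∀ r, rs ≤ r → yf r ∈ Xr r) → AdmS lam yf Vsf rs I →
      ∀ (N : ℕ) [NeZero N] (E a a' dl C0 q s : ℝ), a' + dl = a₀ →
        Real.exp (-(Kq * (rr rs I : ℝ) ^ 3)) ≤ q →
        bS rs I * Real.exp (K * (rr rs I : ℝ) ^ 3) ≤ s → s ≤ 1 →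
        (∀ l, ∀ x ∈ Tc (N := N) (DD (pS yf rs I) (nuD lam yf Vsf rs I)) l,
          Measure.pi (fun y => nuD lam yf Vsf rs I (l y)) (Off (AT N) E
            ((DD (pS yf rs I) (nuD lam yf Vsf rs I)).prof (I + 1) s l) a η x) ≤
            ENNReal.ofReal η) →
        nT (pS yf rs I) (Tc (N := N) (DD (pS yf rs I) (nuD lam yf Vsf rs I))) =
          q * (N : ℝ) ^ 2 →
        (∀ r : ℝ, 0 ≤ r → ∑ l : Tor N → (PP yf rs I).Lb, (∏ x, pS yf rs I (l x)) *
          (((Tc (DD (pS yf rs I) (nuD lam yf Vsf rs I)) l ×ˢ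
            Tc (DD (pS yf rs I) (nuD lam yf Vsf rs I)) l).filter
              fun u => (nrm (u.1 - u.2) : ℝ) ≤ r ∧ u.1 ≠ u.2).card : ℝ) ≤
            C0 * (q * (N : ℝ) ^ 2) * (1 + q * r ^ 2)) →
        TW N (pS yf rs I) (nuD lam yf Vsf rs I) E
          ((DD (pS yf rs I) (nuD lam yf Vsf rs I)).prof (I + 1) s)
          (Tc (DD (pS yf rs I) (nuD lam yf Vsf rs I))) (DtS lam) κ a a' dl C0
          (s * e0S rs I) q η (DS lam yf rs I) := by
  obtain ⟨r₀, hr₀⟩ := eventually_atTop.1 (ev_num hlam hKq hK hη)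
  refine ⟨r₀, ?_⟩
  intro yf Vsf rs I hrs hr hy h N _ E a a' dl C0 q s ha hq hs hs1 hloc hcard hpair
  obtain ⟨n1, n2, n3, n4⟩ := hr₀ (rr rs I) hr
  have hb := bS_pos rs I
  have he0 := e0S_pos rs I
  have hs0 : 0 < s := lt_of_lt_of_le (mul_pos hb (Real.exp_pos _)) hs
  have hbs : bS rs I ≤ s * Real.exp (-(K * (rr rs I : ℝ) ^ 3)) := by
    calc bS rs I = bS rs I * Real.exp (K * (rr rs I : ℝ) ^ 3) *
          Real.exp (-(K * (rr rs I : ℝ) ^ 3)) := by
          rw [mul_assoc, ← Real.exp_add, add_neg_cancel, Real.exp_zero, mul_one]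
      _ ≤ s * Real.exp (-(K * (rr rs I : ℝ) ^ 3)) :=
          mul_le_mul_of_nonneg_right hs (Real.exp_pos _).le
  have hb2 : bS rs I ≤ s * e0S rs I := by
    refine hbs.trans (mul_le_mul_of_nonneg_left ?_ hs0.le)
    unfold e0S
    exact Real.exp_le_exp.2 (by linarith)
  have hL := lw_DD h
  refine
    { prob := hL.prob
      p_nonneg := hL.p_nonneg
      p_sum := hL.p_sum
      eps_pos := mul_pos hs0 he0
      eps_le := ?_
      q_pos := (Real.exp_pos _).trans_le hq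
      e_pos := fun l x => e_pos hrs hy h hs0.le l x
      e_lo := fun l x hx => e_lo hrs hy h hs0.le l x hx
      e_hi := fun l x hx => e_hi hrs hy h hs0.le hb2 l x hx
      dens := fun l x hx => dens hrs hy h l x hx
      core := fun l x hx => by rw [ha]; exact core hrs hy h hκ l x hx
      Dn_nonneg := fun k => (DS_pos h k).le
      densN := fun k => nuD_densLe h k
      bulk := ?_
      loc := hloc
      card := hcard
      pair := hpair }
  · refine le_trans ?_ n2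
    calc s * e0S rs I ≤ 1 * e0S rs I := mul_le_mul_of_nonneg_right hs1 he0.le
      _ = Real.exp (-(rr rs I : ℝ)) := by rw [one_mul]; rfl
  · intro l x hx
    have b1 := e_bulk hrs hy h hs0.le l x hx
    have b2 := one_add_DS_le hrs h (l x)
    have b3 : 0 ≤ 1 + DS lam yf rs I (l x) := by linarith [(DS_pos h (l x)).le]
    have b4 : 0 ≤ CDn lam * Real.exp (rr rs I : ℝ) := b3.trans b2
    set X := CDn lam * Real.exp (rr rs I : ℝ) with hX
    have b5 : 0 ≤ bS rs I + s * (2 * (e0S rs I * Real.exp (-((rr rs I : ℝ) ^ 5)))) := by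
      positivity
    have c1 : bS rs I * X ≤ s * (η / 2 * (q * e0S rs I)) := by
      calc bS rs I * X ≤ s * Real.exp (-(K * (rr rs I : ℝ) ^ 3)) * X :=
            mul_le_mul_of_nonneg_right hbs b4
        _ = s * (Real.exp (-(K * (rr rs I : ℝ) ^ 3)) * X) := by ring
        _ ≤ s * (η / 2 * (Real.exp (-(Kq * (rr rs I : ℝ) ^ 3)) *
              Real.exp (-(rr rs I : ℝ)))) := mul_le_mul_of_nonneg_left n3 hs0.le
        _ ≤ s * (η / 2 * (q * e0S rs I)) := by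
            refine mul_le_mul_of_nonneg_left ?_ hs0.le
            refine mul_le_mul_of_nonneg_left ?_ (by positivity)
            exact mul_le_mul_of_nonneg_right hq he0.le
    have c2 : s * (2 * (e0S rs I * Real.exp (-((rr rs I : ℝ) ^ 5)))) * X ≤
        s * (η / 2 * (q * e0S rs I)) := by
      calc s * (2 * (e0S rs I * Real.exp (-((rr rs I : ℝ) ^ 5)))) * X
          = s * e0S rs I * (2 * Real.exp (-((rr rs I : ℝ) ^ 5)) * X) := by ring
        _ ≤ s * e0S rs I * (η / 2 * Real.exp (-(Kq * (rr rs I : ℝ) ^ 3))) :=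
            mul_le_mul_of_nonneg_left n4 (by positivity)
        _ ≤ s * e0S rs I * (η / 2 * q) := by
            refine mul_le_mul_of_nonneg_left ?_ (by positivity)
            exact mul_le_mul_of_nonneg_left hq (by positivity)
        _ = s * (η / 2 * (q * e0S rs I)) := by ring
    calc (DD (pS yf rs I) (nuD lam yf Vsf rs I)).prof (I + 1) s l x *
          (1 + DS lam yf rs I (l x))
        ≤ (bS rs I + s * (2 * (e0S rs I * Real.exp (-((rr rs I : ℝ) ^ 5))))) * X :=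
          mul_le_mul b1 b2 b3 b5
      _ = bS rs I * X + s * (2 * (e0S rs I * Real.exp (-((rr rs I : ℝ) ^ 5)))) * X := by ring
      _ ≤ s * (η / 2 * (q * e0S rs I)) + s * (η / 2 * (q * e0S rs I)) := add_le_add c1 c2
      _ = η * (q * (s * e0S rs I)) := by ring

end Vale.Agent.P365.Z0.D640
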