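import Vale.Agent.P365.Z0.Iface
import Vale.Agent.P365.Z0.Loss2

/-!
# P365 T1.5, Z5b: the far mass between traps is small (`StatT → FarT`)
-/

set_option linter.all false

namespace P365Z.Far508

open P365L P365L.TL P365O P365T1 Vale.Agent.P365.J376 Vale.Agent.P365.Z0 MeasureTheory Set
open P365T1.Conc P365T1.Seq
open scoped ENNReal

section gen

variable {ι : Type*} [Fintype ι] [DecidableEq ι] {A : Matrix ι ι ℝ}

theorem WV_im' (E : ℝ) (e v : ι → ℝ) (x : ι) : -(WV E e v x).im = e x := by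
  rw [WV_eq_Wp, Vale.Agent.P365.J376.Wp_im, neg_neg]

theorem measurable_KK_WV (E : ℝ) (e : ι → ℝ) (x y : ι) :
    Measurable fun v : ι → ℝ => KK A (WV E e v) x y :=
  measurable_KK_Wp (a := fun (v : ι → ℝ) x => v x - E) (h := fun _ => e)
    (fun x => measurable_coord_sub E x) (fun x => measurable_const) x y

theorem integrable_KK (hA : A.IsSymm) (m : Measure (ι → ℝ)) [IsFiniteMeasure m] (E : ℝ)
    {e : ι → ℝ} (he : ∀ x, 0 < e x) (x y : ι) :
    Integrable (fun v => KK A (WV E e v) x y) m := by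
  refine Integrable.mono' (integrable_const (1 / (e x * e y)))
    (measurable_KK_WV E e x y).aestronglyMeasurable (Filter.Eventually.of_forall fun v => ?_)
  rw [Real.norm_eq_abs, abs_of_nonneg (KK_nonneg _ _)]
  have h1 := e_mul_KK_mul_e_le hA (WV_neg (E := E) he v) x y
  rw [WV_im', WV_im'] at h1
  have h2 := he x
  have h3 := he y
  rw [le_div_iff₀ (mul_pos h2 h3)]
  linarith

end gen

theorem far_pt {N : ℕ} [NeZero N] {E : ℝ} {e v : Tor N → ℝ} (he : ∀ x, 0 < e x)
    {T : Finset (Tor N)} {ε q κ R : ℝ} (hε : 0 < ε) (hq : 0 < q) (hκ : 0 < κ) (hR : 0 < R)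
    (hT : ∀ x ∈ T, ε ≤ e x) :
    ∑ x ∈ T, ∑ y ∈ T.filter (fun y => κ / Real.sqrt (q * ε) < (nrm (x - y) : ℝ)),
        e y * KK (AT N) (WV E e v) x y ≤
      q * (Real.pi ^ 2 / (4 * κ ^ 2)) * (∑ k : Fin 4, ∑ x ∈ T, ∑ y ∈ T.filter
        (fun y => (nrm (x - y) : ℝ) ≤ R / Real.sqrt (q * ε)),
          e x * e y * KK (AT N) (WV E e v) x y * (phi N k x - phi N k y) ^ 2) +
      q * (Real.pi ^ 2 / (4 * R ^ 2)) * ∑ k : Fin 4, En (AT N) (WV E e v) (phi N k) := by
  have hpi := Real.pi_pos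
  have hqe : 0 < q * ε := mul_pos hq hε
  have hsq : Real.sqrt (q * ε) ^ 2 = q * ε := Real.sq_sqrt hqe.le
  have hs : 0 < Real.sqrt (q * ε) := Real.sqrt_pos.2 hqe
  set K := KK (AT N) (WV E e v) with hK
  have hK0 : ∀ x y, 0 ≤ K x y := fun x y => KK_nonneg _ _
  -- one pair
  have key : ∀ c : ℝ, 0 < c → ∀ x ∈ T, ∀ y, c / Real.sqrt (q * ε) < (nrm (x - y) : ℝ) →
      e y * K x y ≤ q * (Real.pi ^ 2 / (4 * c ^ 2)) * (e x * e y * K x y * dsq x y) := by
    intro c hc x hx y hxy
    have h1 : c ^ 2 / (q * ε) ≤ (nrm (x - y) : ℝ) ^ 2 := by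
      rw [← hsq, ← div_pow]
      exact pow_le_pow_left₀ (by positivity) hxy.le 2
    have h2 := dsq_ge x y
    have h3 : 4 / Real.pi ^ 2 * (c ^ 2 / (q * ε)) ≤ dsq x y :=
      (mul_le_mul_of_nonneg_left h1 (by positivity)).trans h2
    have h4 : 1 ≤ q * (Real.pi ^ 2 / (4 * c ^ 2)) * (e x * dsq x y) := by
      calc (1 : ℝ) = q * (Real.pi ^ 2 / (4 * c ^ 2)) * (ε * (4 / Real.pi ^ 2 * (c ^ 2 / (q * ε)))) := by
            field_simp
        _ ≤ _ := by
            refine mul_le_mul_of_nonneg_left ?_ (by positivity)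
            exact mul_le_mul (hT x hx) h3 (by positivity) (he x).le
    calc e y * K x y = 1 * (e y * K x y) := (one_mul _).symm
      _ ≤ q * (Real.pi ^ 2 / (4 * c ^ 2)) * (e x * dsq x y) * (e y * K x y) :=
          mul_le_mul_of_nonneg_right h4 (mul_nonneg (he y).le (hK0 x y))
      _ = _ := by ring
  have hsplit : ∀ x ∈ T, ∑ y ∈ T.filter (fun y => κ / Real.sqrt (q * ε) < (nrm (x - y) : ℝ)),
      e y * K x y ≤ q * (Real.pi ^ 2 / (4 * κ ^ 2)) * (∑ y ∈ T.filter
        (fun y => (nrm (x - y) : ℝ) ≤ R / Real.sqrt (q * ε)), e x * e y * K x y * dsq x y) +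
      q * (Real.pi ^ 2 / (4 * R ^ 2)) * ∑ y, e x * e y * K x y * dsq x y := by
    intro x hx
    have hnn : ∀ y, 0 ≤ e x * e y * K x y * dsq x y := fun y =>
      mul_nonneg (mul_nonneg (mul_nonneg (he x).le (he y).le) (hK0 x y)) (dsq_nonneg x y)
    rw [Finset.sum_filter, Finset.sum_filter, Finset.mul_sum, Finset.mul_sum]
    have h5 : ∑ y ∈ T, q * (Real.pi ^ 2 / (4 * R ^ 2)) * (e x * e y * K x y * dsq x y) ≤
        ∑ y, q * (Real.pi ^ 2 / (4 * R ^ 2)) * (e x * e y * K x y * dsq x y) :=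
      Finset.sum_le_sum_of_subset_of_nonneg (Finset.subset_univ T)
        fun y _ _ => mul_nonneg (by positivity) (hnn y)
    refine le_trans ?_ (add_le_add_right h5 _)
    rw [← Finset.sum_add_distrib]
    refine Finset.sum_le_sum fun y _ => ?_
    by_cases h6 : κ / Real.sqrt (q * ε) < (nrm (x - y) : ℝ)
    · rw [if_pos h6]
      by_cases h7 : (nrm (x - y) : ℝ) ≤ R / Real.sqrt (q * ε)
      · rw [if_pos h7]
        have := key κ hκ x hx y h6
        have h8 : 0 ≤ q * (Real.pi ^ 2 / (4 * R ^ 2)) * (e x * e y * K x y * dsq x y) :=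
          mul_nonneg (by positivity) (hnn y)
        linarith
      · rw [if_neg h7, mul_zero, zero_add]
        exact key R hR x hx y (not_le.1 h7)
    · rw [if_neg h6]
      refine add_nonneg ?_ (mul_nonneg (by positivity) (hnn y))
      refine mul_nonneg (by positivity) ?_
      split_ifs
      · exact hnn y
      · exact le_rfl
  refine (Finset.sum_le_sum hsplit).trans ?_
  rw [Finset.sum_add_distrib, ← Finset.mul_sum, ← Finset.mul_sum]
  have e1 : ∑ x ∈ T, ∑ y ∈ T.filter (fun y => (nrm (x - y) : ℝ) ≤ R / Real.sqrt (q * ε)),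
        e x * e y * K x y * dsq x y = ∑ k : Fin 4, ∑ x ∈ T, ∑ y ∈ T.filter
        (fun y => (nrm (x - y) : ℝ) ≤ R / Real.sqrt (q * ε)),
          e x * e y * K x y * (phi N k x - phi N k y) ^ 2 := by
    rw [Finset.sum_comm]
    refine Finset.sum_congr rfl fun x _ => ?_
    rw [Finset.sum_comm]
    refine Finset.sum_congr rfl fun y _ => ?_
    rw [dsq, Finset.mul_sum]
  have e2 : ∑ x ∈ T, ∑ y, e x * e y * K x y * dsq x y ≤
      ∑ k : Fin 4, En (AT N) (WV E e v) (phi N k) := by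
    calc ∑ x ∈ T, ∑ y, e x * e y * K x y * dsq x y
        ≤ ∑ x, ∑ y, e x * e y * K x y * dsq x y :=
          Finset.sum_le_sum_of_subset_of_nonneg (Finset.subset_univ T) fun x _ _ =>
            Finset.sum_nonneg fun y _ => mul_nonneg (mul_nonneg (mul_nonneg (he x).le (he y).le)
              (hK0 x y)) (dsq_nonneg x y)
      _ = ∑ k : Fin 4, En (AT N) (WV E e v) (phi N k) := by
          unfold En
          simp only [WV_im']
          rw [Finset.sum_comm (s := (Finset.univ : Finset (Fin 4)))]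
          refine Finset.sum_congr rfl fun x _ => ?_
          rw [Finset.sum_comm (s := (Finset.univ : Finset (Fin 4)))]
          refine Finset.sum_congr rfl fun y _ => ?_
          rw [dsq, Finset.mul_sum]
  rw [e1]
  exact add_le_add_right (mul_le_mul_of_nonneg_left e2 (by positivity)) _

theorem farT (h : StatT) : FarT := by
  intro Dt c0 a a' dl C0 κ δ hDt hc0 ha haa hdl hC0 hκ hδ
  have hpi := Real.pi_pos
  set R : ℝ := Real.sqrt (Real.pi ^ 2 * C0 / (2 * δ)) with hRdef
  have hR2 : R ^ 2 = Real.pi ^ 2 * C0 / (2 * δ) := Real.sq_sqrt (by positivity)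
  have hR : 0 < R := Real.sqrt_pos.2 (by positivity)
  set θ : ℝ := δ * κ ^ 2 / (2 * Real.pi ^ 2) with hθdef
  have hθ : 0 < θ := by positivity
  obtain ⟨η, hη, hη1, H⟩ := h Dt c0 a a' dl C0 R θ hDt hc0 ha haa hdl hC0 hR hθ
  refine ⟨η, hη, hη1, fun N _ Λ _ p ν E e T ε q Dn htw hPhi hLoss => ?_⟩
  have hA : (AT N).IsSymm := AT_symm N
  haveI hprob : ∀ k, IsProbabilityMeasure (ν k) := htw.prob
  have hN : (0 : ℝ) ≤ (N : ℝ) ^ 2 := sq_nonneg _
  -- the four functions
  have hk : ∀ k : Fin 4, AvG p ν E e (fun l W => ∑ x ∈ T l, ∑ y ∈ (T l).filter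
        (fun y => (nrm (x - y) : ℝ) ≤ R / Real.sqrt (q * ε)),
          e l x * e l y * KK (AT N) W x y * (phi N k x - phi N k y) ^ 2) ≤ θ * (N : ℝ) ^ 2 := by
    intro k
    refine H N Λ p ν E e T ε q Dn k htw hPhi (le_trans ?_ hLoss)
    refine AvG_mono htw.p_nonneg (fun l => ?_) (fun l => ?_) fun l v => ?_
    · exact integrable_finset_sum _ fun x _ =>
        (Loss327.integrable_Ls hA _ E (htw.e_pos l) (phi N k) x).const_mul _
    · exact integrable_finset_sum _ fun x _ => Integrable.const_mul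
        (integrable_finset_sum _ fun k _ =>
          Loss327.integrable_Ls hA _ E (htw.e_pos l) (phi N k) x) _
    · refine Finset.sum_le_sum fun x _ => mul_le_mul_of_nonneg_left ?_ (htw.e_pos l x).le
      exact Finset.single_le_sum (f := fun k => Lz (AT N) (WV E (e l) v) (phi N k) x)
        (fun k _ => Loss327.Ls_nonneg hA (WV_neg (htw.e_pos l) v) (phi N k) x) (Finset.mem_univ k)
  set c1 : ℝ := q * (Real.pi ^ 2 / (4 * κ ^ 2)) with hc1
  set c2 : ℝ := q * (Real.pi ^ 2 / (4 * R ^ 2)) with hc2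
  have hq := htw.q_pos
  have hc1' : 0 ≤ c1 := by positivity
  have hc2' : 0 ≤ c2 := by positivity
  have i1 : ∀ (l : Tor N → Λ) (k : Fin 4), Integrable (fun v => ∑ x ∈ T l, ∑ y ∈ (T l).filter
        (fun y => (nrm (x - y) : ℝ) ≤ R / Real.sqrt (q * ε)),
          e l x * e l y * KK (AT N) (WV E (e l) v) x y * (phi N k x - phi N k y) ^ 2)
        (Measure.pi fun x => ν (l x)) := fun l k =>
    integrable_finset_sum _ fun x _ => integrable_finset_sum _ fun y _ =>
      ((integrable_KK hA _ E (htw.e_pos l) x y).const_mul _).mul_const _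
  have i2 : ∀ l : Tor N → Λ, Integrable (fun v => ∑ k : Fin 4, En (AT N) (WV E (e l) v) (phi N k))
        (Measure.pi fun x => ν (l x)) := fun l => integrable_sum_En hA _ E (htw.e_pos l) _
  have h1 : AvG p ν E e (fun l W => ∑ x ∈ T l, ∑ y ∈ (T l).filter
        (fun y => κ / Real.sqrt (q * ε) < (nrm (x - y) : ℝ)), e l y * KK (AT N) W x y) ≤
      AvG p ν E e (fun l W => c1 * (∑ k : Fin 4, ∑ x ∈ T l, ∑ y ∈ (T l).filter
        (fun y => (nrm (x - y) : ℝ) ≤ R / Real.sqrt (q * ε)),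
          e l x * e l y * KK (AT N) W x y * (phi N k x - phi N k y) ^ 2) +
        c2 * ∑ k : Fin 4, En (AT N) W (phi N k)) := by
    refine AvG_mono htw.p_nonneg (fun l => ?_) (fun l => ?_) fun l v => ?_
    · exact integrable_finset_sum _ fun x _ => integrable_finset_sum _ fun y _ =>
        (integrable_KK hA _ E (htw.e_pos l) x y).const_mul _
    · exact ((integrable_finset_sum _ fun k _ => i1 l k).const_mul _).add ((i2 l).const_mul _)
    · exact far_pt (htw.e_pos l) htw.eps_pos hq hκ hR (htw.e_lo l)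
  have h2 : AvG p ν E e (fun l W => c1 * (∑ k : Fin 4, ∑ x ∈ T l, ∑ y ∈ (T l).filter
        (fun y => (nrm (x - y) : ℝ) ≤ R / Real.sqrt (q * ε)),
          e l x * e l y * KK (AT N) W x y * (phi N k x - phi N k y) ^ 2) +
        c2 * ∑ k : Fin 4, En (AT N) W (phi N k)) =
      c1 * (∑ k : Fin 4, AvG p ν E e (fun l W => ∑ x ∈ T l, ∑ y ∈ (T l).filter
        (fun y => (nrm (x - y) : ℝ) ≤ R / Real.sqrt (q * ε)),
          e l x * e l y * KK (AT N) W x y * (phi N k x - phi N k y) ^ 2)) +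
        c2 * PhiG (AT N) p ν E (phi N) e := by
    unfold PhiG AvG Ex
    rw [Finset.sum_comm, Finset.mul_sum, Finset.mul_sum, ← Finset.sum_add_distrib]
    refine Finset.sum_congr rfl fun l _ => ?_
    rw [integral_add ((integrable_finset_sum _ fun k _ => i1 l k).const_mul _)
      ((i2 l).const_mul _), integral_const_mul, integral_const_mul,
      integral_finset_sum _ fun k _ => i1 l k, ← Finset.mul_sum]
    ring
  rw [htw.card]
  refine h1.trans (h2.le.trans ?_)
  have h3 : (∑ k : Fin 4, AvG p ν E e (fun l W => ∑ x ∈ T l, ∑ y ∈ (T l).filter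
        (fun y => (nrm (x - y) : ℝ) ≤ R / Real.sqrt (q * ε)),
          e l x * e l y * KK (AT N) W x y * (phi N k x - phi N k y) ^ 2)) ≤
      4 * (θ * (N : ℝ) ^ 2) := by
    refine (Finset.sum_le_sum fun k _ => hk k).trans (le_of_eq ?_)
    rw [Finset.sum_const, Finset.card_univ, Fintype.card_fin, nsmul_eq_mul]
    norm_num
  calc _ ≤ c1 * (4 * (θ * (N : ℝ) ^ 2)) + c2 * (C0 * (N : ℝ) ^ 2) :=
        add_le_add (mul_le_mul_of_nonneg_left h3 hc1') (mul_le_mul_of_nonneg_left hPhi hc2')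
    _ = δ * (q * (N : ℝ) ^ 2) := by
        rw [hc1, hc2, hR2, hθdef]
        field_simp
        ring

end P365Z.Far508

namespace P365Z

/-- **Z5b** -/
theorem farT_of_statT : StatT → FarT := Far508.farT

end P365Z
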