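import Vale.Agent.P365.L1.Near3

/-!
# P365-T1.5 (block Z2): conjugation of a general absorption profile to the homogeneous profile `1`

`Ah = e^{-1/2} A e^{-1/2}`, `Wh = W / e`, `Gr Ah Wh = e^{1/2} G e^{1/2}`, `e x = -(W x).im`.
-/

set_option linter.all false

namespace P365L.Z622

open Matrix Complex
open scoped ComplexConjugate

variable {ι : Type*} [Fintype ι] [DecidableEq ι]

/-- absorption -/
noncomputable def ee (W : ι → ℂ) (x : ι) : ℝ := -(W x).im

/-- conjugated matrix -/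
noncomputable def Ah (A : Matrix ι ι ℝ) (W : ι → ℂ) : Matrix ι ι ℝ :=
  Matrix.of fun x y => A x y / (Real.sqrt (ee W x) * Real.sqrt (ee W y))

/-- conjugated potential -/
noncomputable def Wh (W : ι → ℂ) (x : ι) : ℂ := W x / (ee W x : ℂ)

variable {A : Matrix ι ι ℝ} {W : ι → ℂ} {a : ι → ℝ}

omit [Fintype ι] [DecidableEq ι] in
theorem ee_pos (hW : ∀ x, (W x).im < 0) (x : ι) : 0 < ee W x := by
  unfold ee; linarith [hW x]

omit [Fintype ι] [DecidableEq ι] in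
theorem sq_pos (hW : ∀ x, (W x).im < 0) (x : ι) : 0 < Real.sqrt (ee W x) :=
  Real.sqrt_pos.2 (ee_pos hW x)

omit [Fintype ι] [DecidableEq ι] in
theorem Ah_symm (hA : A.IsSymm) : (Ah A W).IsSymm := by
  ext x y
  rw [Matrix.transpose_apply, Ah, Matrix.of_apply, Matrix.of_apply, hA.apply, mul_comm]

omit [Fintype ι] [DecidableEq ι] in
theorem Wh_im (hW : ∀ x, (W x).im < 0) (x : ι) : (Wh W x).im = -1 := by
  have h := (ee_pos hW x).ne'
  rw [Wh, Complex.div_ofReal_im]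
  rw [div_eq_iff h, ee]
  ring

/-- the diagonal matrix `e^{1/2}` -/
noncomputable def Dh (W : ι → ℂ) : Matrix ι ι ℂ :=
  Matrix.diagonal fun x => ((Real.sqrt (ee W x) : ℝ) : ℂ)

/-- the diagonal matrix `e^{-1/2}` -/
noncomputable def Di (W : ι → ℂ) : Matrix ι ι ℂ :=
  Matrix.diagonal fun x => (((Real.sqrt (ee W x))⁻¹ : ℝ) : ℂ)

theorem Dh_mul_Di (hW : ∀ x, (W x).im < 0) : Dh W * Di W = 1 := by
  rw [Dh, Di, Matrix.diagonal_mul_diagonal, ← Matrix.diagonal_one]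
  congr 1
  funext x
  have h := (sq_pos hW x).ne'
  rw [← Complex.ofReal_mul, mul_inv_cancel₀ h, Complex.ofReal_one]

theorem Di_mul_Dh (hW : ∀ x, (W x).im < 0) : Di W * Dh W = 1 := by
  rw [Dh, Di, Matrix.diagonal_mul_diagonal, ← Matrix.diagonal_one]
  congr 1
  funext x
  have h := (sq_pos hW x).ne'
  rw [← Complex.ofReal_mul, inv_mul_cancel₀ h, Complex.ofReal_one]

theorem Kmat_hat (hW : ∀ x, (W x).im < 0) : Kmat (Ah A W) (Wh W) = Di W * Kmat A W * Di W := by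
  ext x y
  rw [Di, Matrix.mul_diagonal, Matrix.diagonal_mul, Kmat, Kmat, Matrix.add_apply,
    Matrix.add_apply, Matrix.map_apply, Matrix.map_apply, Ah, Matrix.of_apply]
  have hx := (sq_pos hW x).ne'
  have hy := (sq_pos hW y).ne'
  have hx' : ((Real.sqrt (ee W x) : ℝ) : ℂ) ≠ 0 := Complex.ofReal_ne_zero.2 hx
  have hy' : ((Real.sqrt (ee W y) : ℝ) : ℂ) ≠ 0 := Complex.ofReal_ne_zero.2 hy
  by_cases h : x = y
  · subst h
    rw [Matrix.diagonal_apply_eq, Matrix.diagonal_apply_eq, Wh]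
    have h2 : ((ee W x : ℝ) : ℂ) = ((Real.sqrt (ee W x) : ℝ) : ℂ) * Real.sqrt (ee W x) := by
      rw [← Complex.ofReal_mul, Real.mul_self_sqrt (ee_pos hW x).le]
    rw [h2]
    push_cast
    field_simp
  · rw [Matrix.diagonal_apply_ne _ h, Matrix.diagonal_apply_ne _ h]
    push_cast
    field_simp
    ring

/-- `Ĝ = e^{1/2} G e^{1/2}` -/
theorem Gr_hat (hA : A.IsSymm) (hW : ∀ x, (W x).im < 0) :
    Gr (Ah A W) (Wh W) = Dh W * Gr A W * Dh W := by
  have h1 : Kmat (Ah A W) (Wh W) * (Dh W * Gr A W * Dh W) = 1 := by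
    rw [Kmat_hat hW]
    have : Di W * Kmat A W * Di W * (Dh W * Gr A W * Dh W) =
        Di W * (Kmat A W * ((Di W * Dh W) * Gr A W)) * Dh W := by
      simp only [Matrix.mul_assoc]
    rw [this, Di_mul_Dh hW, Matrix.one_mul, Kmat_mul_Gr hA hW, Matrix.mul_one, Di_mul_Dh hW]
  exact Matrix.inv_eq_right_inv h1

theorem Gr_hat_apply (hA : A.IsSymm) (hW : ∀ x, (W x).im < 0) (x y : ι) :
    Gr (Ah A W) (Wh W) x y =
      ((Real.sqrt (ee W x) * Real.sqrt (ee W y) : ℝ) : ℂ) * Gr A W x y := by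
  rw [Gr_hat hA hW, Dh, Matrix.mul_diagonal, Matrix.diagonal_mul]
  push_cast
  ring

theorem mm_hat (hA : A.IsSymm) (hW : ∀ x, (W x).im < 0) (x : ι) :
    mm (Ah A W) (Wh W) x = ee W x * mm A W x := by
  rw [mm, Gr_hat_apply hA hW, Complex.im_ofReal_mul, Real.mul_self_sqrt (ee_pos hW x).le, mm]

theorem KK_hat (hA : A.IsSymm) (hW : ∀ x, (W x).im < 0) (x y : ι) :
    KK (Ah A W) (Wh W) x y = ee W x * ee W y * KK A W x y := by
  have hx := ee_pos hW x
  have hy := ee_pos hW y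
  rw [KK, Gr_hat_apply hA hW, norm_mul, mul_pow, Complex.norm_real, Real.norm_eq_abs, sq_abs,
    mul_pow, Real.sq_sqrt hx.le, Real.sq_sqrt hy.le, KK]

theorem PP_hat (hA : A.IsSymm) (hW : ∀ x, (W x).im < 0) (x y : ι) :
    PP (Ah A W) (Wh W) x y = PP A W x y := by
  have hx := (ee_pos hW x).ne'
  have hm := (mm_pos hA hW x).ne'
  rw [PP, PP, KK_hat hA hW, mm_hat hA hW, Wh_im hW]
  rw [div_eq_div_iff (mul_ne_zero hx hm) hm, ← ee]
  ring

theorem muf_hat (hA : A.IsSymm) (hW : ∀ x, (W x).im < 0) (x : ι) :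
    muf (Ah A W) (Wh W) a x = muf A W a x := by
  rw [muf, muf]
  congr 1
  exact Finset.sum_congr rfl fun y _ => by rw [PP_hat hA hW]

theorem kap_hat (hA : A.IsSymm) (hW : ∀ x, (W x).im < 0) (z w : ι) :
    kap (Ah A W) (Wh W) z w = kap A W z w := by
  have hz := (ee_pos hW z).ne'
  have hw := (ee_pos hW w).ne'
  have hd := (kap_den_pos hA hW z w).ne'
  rw [kap, kap, KK_hat hA hW, mm_hat hA hW, mm_hat hA hW]
  have h1 : ee W z * mm A W z * (ee W w * mm A W w) + ee W z * ee W w * KK A W z w =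
      (ee W z * ee W w) * (mm A W z * mm A W w + KK A W z w) := by ring
  rw [h1, mul_div_mul_left _ _ (mul_ne_zero hz hw)]

theorem lamS_hat (hA : A.IsSymm) (hW : ∀ x, (W x).im < 0) (S : Finset ι) (z w : ι) :
    lamS (Ah A W) (Wh W) S z w = lamS A W S z w := by
  rw [lamS, lamS]
  refine Finset.sum_congr rfl fun y _ => ?_
  rw [kap_hat hA hW, kap_hat hA hW, mm_hat hA hW, Wh_im hW, ee]
  ring

theorem Bm_hat (hW : ∀ x, (W x).im < 0) : Bm (Ah A W) a = Di W * Bm A a * Di W := by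
  ext x y
  rw [Di, Matrix.mul_diagonal, Matrix.diagonal_mul, Bm, Bm, Matrix.of_apply, Matrix.of_apply, Ah,
    Matrix.of_apply]
  have hx := (sq_pos hW x).ne'
  have hy := (sq_pos hW y).ne'
  rw [← Complex.ofReal_mul, ← Complex.ofReal_mul]
  congr 1
  field_simp

theorem Dh_conjTranspose : (Dh W)ᴴ = Dh W := by
  rw [Dh, Matrix.diagonal_conjTranspose]
  congr 1
  funext x
  simp

theorem Tm_hat (hA : A.IsSymm) (hW : ∀ x, (W x).im < 0) :
    Tm (Ah A W) (Wh W) a = Dh W * Tm A W a * Dh W := by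
  rw [Tm, Tm, Gr_hat hA hW, Bm_hat hW, Matrix.conjTranspose_mul, Matrix.conjTranspose_mul,
    Dh_conjTranspose, Matrix.mul_smul, Matrix.smul_mul]
  congr 1
  have : Dh W * ((Gr A W)ᴴ * Dh W) * (Di W * Bm A a * Di W) * (Dh W * Gr A W * Dh W) =
      Dh W * ((Gr A W)ᴴ * ((Dh W * Di W) * Bm A a * (Di W * Dh W)) * Gr A W) * Dh W := by
    simp only [Matrix.mul_assoc]
  rw [this, Dh_mul_Di hW, Di_mul_Dh hW, Matrix.one_mul, Matrix.mul_one]

theorem Tm_hat_norm (hA : A.IsSymm) (hW : ∀ x, (W x).im < 0) (z w : ι) :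
    ‖Tm (Ah A W) (Wh W) a z w‖ ^ 2 = ee W z * ee W w * ‖Tm A W a z w‖ ^ 2 := by
  have hx := ee_pos hW z
  have hy := ee_pos hW w
  rw [Tm_hat hA hW, Dh, Matrix.mul_diagonal, Matrix.diagonal_mul, norm_mul, norm_mul,
    Complex.norm_real, Complex.norm_real, Real.norm_eq_abs, Real.norm_eq_abs, mul_pow, mul_pow,
    sq_abs, sq_abs, Real.sq_sqrt hx.le, Real.sq_sqrt hy.le]
  ring

/-- column isometry for a general profile -/
theorem Tm_col_norm_gen (hA : A.IsSymm) (hW : ∀ x, (W x).im < 0) (w : ι) :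
    ∑ z, ee W z * ‖Tm A W a z w‖ ^ 2 = (1 / 4) * ∑ z, ee W z * KK A W z w * (a z - a w) ^ 2 := by
  have h := Tm_col_norm (A := Ah A W) (W := Wh W) (a := a) (Ah_symm hA) one_pos
    (fun x => Wh_im hW x) w
  simp only [Tm_hat_norm hA hW, KK_hat hA hW] at h
  have hw := (ee_pos hW w).ne'
  have h1 : ∑ z, ee W z * ee W w * ‖Tm A W a z w‖ ^ 2 =
      ee W w * ∑ z, ee W z * ‖Tm A W a z w‖ ^ 2 := by
    rw [Finset.mul_sum]
    exact Finset.sum_congr rfl fun z _ => by ring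
  have h2 : ∑ z, ee W z * ee W w * KK A W z w * (a z - a w) ^ 2 =
      ee W w * ∑ z, ee W z * KK A W z w * (a z - a w) ^ 2 := by
    rw [Finset.mul_sum]
    exact Finset.sum_congr rfl fun z _ => by ring
  rw [h1, h2] at h
  have h3 : ee W w * ∑ z, ee W z * ‖Tm A W a z w‖ ^ 2 =
      ee W w * ((1 / 4) * ∑ z, ee W z * KK A W z w * (a z - a w) ^ 2) := by
    rw [h]; ring
  exact mul_left_cancel₀ hw h3

end P365L.Z622
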