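import Vale.Agent.P365.Z0.IntegFix

/-!
# P365 T1.5, Z7b: the slope of `LT` at a fixed strength, averaged over the labels
-/

set_option linter.all false

namespace Vale.Agent.P365.Z0

open P365L hiding Wp Wp_im
open P365O P365T1 P365L.TL Matrix Complex MeasureTheory Filter Topology Set
open Vale.Agent.P365.J376 Vale.Agent.P365.Z0.H640
open scoped ComplexConjugate ENNReal

variable {ι : Type*} [Fintype ι] [DecidableEq ι] {A : Matrix ι ι ℝ}
  {Λ : Type*} [Fintype Λ] {p : Λ → ℝ} {ν : Λ → Measure ℝ} {E : ℝ}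

/-- total mass off the traps -/
theorem out_mass (hA : A.IsSymm) [∀ k, IsProbabilityMeasure (ν k)] (hp : ∀ k, 0 ≤ p k)
    (hp1 : ∑ k, p k = 1) {e : (ι → Λ) → ι → ℝ} (he : ∀ l x, 0 < e l x)
    {T : (ι → Λ) → Finset ι} {em eN D0 : ℝ} (hem : 0 < em) (hemT : ∀ l, ∀ x ∈ T l, em ≤ e l x)
    (heN : ∀ l, ∀ x, x ∉ T l → e l x ≤ eN) (heN0 : 0 ≤ eN) {Dd : Λ → ℝ} (hDd0 : ∀ k, 0 ≤ Dd k)
    (hDd : ∀ k, DensLe (Dd k) (ν k)) (hD0 : ∑ k, p k * Dd k ≤ D0) :
    AvG p ν E e (fun l W => ∑ x ∈ T l, ∑ z ∈ (T l)ᶜ, (-(W z).im) * KK A W x z) ≤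
      eN / em * (Real.pi * D0) * (Fintype.card ι : ℝ) := by
  have hl : ∀ l : ι → Λ, Ex (fun x => ν (l x)) E (e l)
      (fun W => ∑ x ∈ T l, ∑ z ∈ (T l)ᶜ, (-(W z).im) * KK A W x z) ≤
      eN / em * ∑ z, Real.pi * Dd (l z) := by
    intro l
    have h1 : Ex (fun x => ν (l x)) E (e l)
        (fun W => ∑ x ∈ T l, ∑ z ∈ (T l)ᶜ, (-(W z).im) * KK A W x z) ≤
        Ex (fun x => ν (l x)) E (e l)
          (fun W => (1 / em) * ∑ z ∈ (T l)ᶜ, (-(W z).im) * mm A W z) := by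
      unfold Ex
      refine integral_mono (integrable_finset_sum _ fun x _ =>
        integrable_sumKK hA _ E (he l) x _) ?_ fun v => ?_
      · simp only [WV_imm]
        exact (integrable_finset_sum _ fun z _ => (integrable_mm hA _ E (he l) z).const_mul _).const_mul _
      · exact sum_out_le hA (WV_neg (he l) v) (T l) hem fun x hx => by
          rw [WV_imm, neg_neg]
          exact hemT l x hx
    refine h1.trans ?_
    have h2 : Ex (fun x => ν (l x)) E (e l)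
        (fun W => (1 / em) * ∑ z ∈ (T l)ᶜ, (-(W z).im) * mm A W z) =
        (1 / em) * ∑ z ∈ (T l)ᶜ, e l z * Ex (fun x => ν (l x)) E (e l) (fun W => mm A W z) := by
      unfold Ex
      simp only [WV_imm, neg_neg]
      rw [integral_const_mul, integral_finset_sum _ fun z _ =>
        (integrable_mm hA _ E (he l) z).const_mul _]
      congr 1
      exact Finset.sum_congr rfl fun z _ => integral_const_mul _ _
    rw [h2]
    have h3 : ∑ z ∈ (T l)ᶜ, e l z * Ex (fun x => ν (l x)) E (e l) (fun W => mm A W z) ≤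
        ∑ z, eN * (Real.pi * Dd (l z)) := by
      refine (Finset.sum_le_sum fun z hz => ?_).trans
        (Finset.sum_le_univ_sum_of_nonneg (s := (T l)ᶜ) (f := fun z => eN * (Real.pi * Dd (l z)))
          fun z => mul_nonneg heN0 (mul_nonneg Real.pi_pos.le (hDd0 _)))
      have h4 := Ex_mm_le hA (fun x => ν (l x)) (E := E) (he l) z (hDd0 (l z)) (hDd (l z))
      have h5 : 0 ≤ Ex (fun x => ν (l x)) E (e l) (fun W => mm A W z) :=
        Ex_nonneg _ _ _ fun v => (mm_pos hA (WV_neg (he l) v) z).le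
      exact mul_le_mul (heN l z (by simpa using hz)) h4 h5 heN0
    calc (1 / em) * ∑ z ∈ (T l)ᶜ, e l z * Ex (fun x => ν (l x)) E (e l) (fun W => mm A W z)
        ≤ (1 / em) * ∑ z, eN * (Real.pi * Dd (l z)) :=
          mul_le_mul_of_nonneg_left h3 (by positivity)
      _ = eN / em * ∑ z, Real.pi * Dd (l z) := by
          rw [← Finset.mul_sum]
          ring
  unfold AvG
  calc ∑ l : ι → Λ, (∏ x, p (l x)) * _ ≤
      ∑ l : ι → Λ, (∏ x, p (l x)) * (eN / em * ∑ z, Real.pi * Dd (l z)) :=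
        Finset.sum_le_sum fun l _ => mul_le_mul_of_nonneg_left (hl l)
          (Finset.prod_nonneg fun x _ => hp _)
    _ = eN / em * (Real.pi * ∑ z : ι, ∑ l : ι → Λ, (∏ x, p (l x)) * Dd (l z)) := by
        rw [Finset.sum_comm (s := (Finset.univ : Finset ι)), Finset.mul_sum, Finset.mul_sum]
        refine Finset.sum_congr rfl fun l _ => ?_
        rw [← Finset.mul_sum, ← Finset.mul_sum]
        ring
    _ = eN / em * (Real.pi * ((Fintype.card ι : ℝ) * ∑ k, p k * Dd k)) := by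
        have h6 : ∀ z : ι, ∑ l : ι → Λ, (∏ x, p (l x)) * Dd (l z) = ∑ k, p k * Dd k :=
          fun z => sum_lab_site hp1 z Dd
        simp_rw [h6]
        rw [Finset.sum_const, nsmul_eq_mul, Finset.card_univ]
    _ ≤ eN / em * (Real.pi * ((Fintype.card ι : ℝ) * D0)) := by
        have h7 : 0 ≤ eN / em := div_nonneg heN0 hem.le
        have h8 : (0 : ℝ) ≤ Fintype.card ι := Nat.cast_nonneg _
        have := Real.pi_pos
        gcongr
    _ = _ := by ring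

/-- **the averaged slope inequality at a fixed strength** -/
theorem LTd_ge (hA : A.IsSymm) [∀ k, IsProbabilityMeasure (ν k)] (hp : ∀ k, 0 ≤ p k)
    (hp1 : ∑ k, p k = 1) {u w : (ι → Λ) → ι → ℝ} {s : ℝ} (hs : 0 < s) (hu : ∀ l x, 0 < u l x)
    (hw : ∀ l x, 0 ≤ w l x) {T : (ι → Λ) → Finset ι} {B : ι → Finset ι}
    {κ εZ c0 wT Dc em eN D0 far prs : ℝ}
    (hκ : ∀ l, ∀ x ∈ T l, u l x ≤ κ * (u l x + s * w l x)) (hκ0 : 0 ≤ κ)
    (hwT : ∀ l, ∀ x ∈ T l, w l x ≤ wT) (hwT0 : 0 ≤ wT) (hDc0 : 0 ≤ Dc)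
    (hDc : ∀ l, ∀ x ∈ T l, DensLe Dc (ν (l x)))
    (hε : 0 ≤ εZ) (hc0 : 0 < c0)
    (hZ : ∀ l, ∀ x ∈ T l, ∃ bad : Set (ι → ℝ), MeasurableSet bad ∧
      Measure.pi (fun z => ν (l z)) bad ≤ ENNReal.ofReal εZ ∧ ∀ v ∉ bad,
        c0 ≤ ∫ t, mm A (WV E (fun x => u l x + s * w l x) (Function.update v x t)) x ∂(ν (l x)))
    (hem : 0 < em) (hemT : ∀ l, ∀ x ∈ T l, em ≤ u l x + s * w l x)
    (heN : ∀ l, ∀ x, x ∉ T l → u l x + s * w l x ≤ eN) (heN0 : 0 ≤ eN)
    {Dd : Λ → ℝ} (hDd0 : ∀ k, 0 ≤ Dd k)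
    (hDd : ∀ k, DensLe (Dd k) (ν k)) (hD0 : ∑ k, p k * Dd k ≤ D0)
    (hfar : AvG p ν E (fun l x => u l x + s * w l x)
      (fun l W => ∑ x ∈ T l, ∑ z ∈ T l ∩ (B x)ᶜ, (-(W z).im) * KK A W x z) ≤ far)
    (hprs : ∑ l : ι → Λ, (∏ x, p (l x)) * ∑ x ∈ T l, (((B x ∩ T l).erase x).card : ℝ) ≤ prs) :
    (1 - κ - 4 * εZ) * nT p T - 2 / c0 * (eN / em * (Real.pi * D0) * (Fintype.card ι : ℝ)) -
      2 / c0 * far - 2 * (s * wT * (Real.pi * Dc)) * prs ≤
    s * LTd A p ν E T (fun l x => u l x + s * w l x) w := by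
  have he : ∀ l x, 0 < u l x + s * w l x := fun l x => by
    have := mul_nonneg hs.le (hw l x)
    have := hu l x
    linarith
  have hout := out_mass (A := A) (E := E) (T := T) hA hp hp1 he hem hemT heN heN0 hDd0 hDd hD0
  have hl : ∀ l : ι → Λ, _ := fun l =>
    slope_lab (E := E) hA (fun x => ν (l x)) hs (hu l) (hw l) (T l) B (hκ l) hκ0 (hwT l) hDc0
      (hDc l) hε hc0 (hZ l)
  have hsum := Finset.sum_le_sum (s := (Finset.univ : Finset (ι → Λ))) fun l _ =>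
    mul_le_mul_of_nonneg_left (hl l) (Finset.prod_nonneg (s := (Finset.univ : Finset ι))
      fun x _ => hp (l x))
  have h2c : 0 ≤ 2 / c0 := by positivity
  have e1 : ∑ l : ι → Λ, (∏ x, p (l x)) * ((1 - κ - 4 * εZ) * ((T l).card : ℝ) -
      2 / c0 * Ex (fun x => ν (l x)) E (fun x => u l x + s * w l x)
        (fun W => ∑ x ∈ T l, ∑ z ∈ (T l)ᶜ, (-(W z).im) * KK A W x z) -
      2 / c0 * Ex (fun x => ν (l x)) E (fun x => u l x + s * w l x)
        (fun W => ∑ x ∈ T l, ∑ z ∈ T l ∩ (B x)ᶜ, (-(W z).im) * KK A W x z) -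
      2 * (s * wT * (Real.pi * Dc)) * ∑ x ∈ T l, (((B x ∩ T l).erase x).card : ℝ)) =
      (1 - κ - 4 * εZ) * nT p T -
      2 / c0 * AvG p ν E (fun l x => u l x + s * w l x)
        (fun l W => ∑ x ∈ T l, ∑ z ∈ (T l)ᶜ, (-(W z).im) * KK A W x z) -
      2 / c0 * AvG p ν E (fun l x => u l x + s * w l x)
        (fun l W => ∑ x ∈ T l, ∑ z ∈ T l ∩ (B x)ᶜ, (-(W z).im) * KK A W x z) -
      2 * (s * wT * (Real.pi * Dc)) *
        ∑ l : ι → Λ, (∏ x, p (l x)) * ∑ x ∈ T l, (((B x ∩ T l).erase x).card : ℝ) := by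
    unfold nT AvG
    rw [Finset.mul_sum, Finset.mul_sum, Finset.mul_sum, Finset.mul_sum,
      ← Finset.sum_sub_distrib, ← Finset.sum_sub_distrib, ← Finset.sum_sub_distrib]
    refine Finset.sum_congr rfl fun l _ => ?_
    ring
  have e2 : ∑ l : ι → Λ, (∏ x, p (l x)) * (s * Ex (fun x => ν (l x)) E
      (fun x => u l x + s * w l x)
      (fun W => ∑ x ∈ T l, (∑ z, w l z * ((gw A W x z) ^ 2).re) / Sf A W x)) =
      s * LTd A p ν E T (fun l x => u l x + s * w l x) w := by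
    unfold LTd AvG
    rw [Finset.mul_sum]
    refine Finset.sum_congr rfl fun l _ => ?_
    ring
  rw [e1, e2] at hsum
  have h3 := mul_le_mul_of_nonneg_left hout h2c
  have h4 := mul_le_mul_of_nonneg_left hfar h2c
  have h5 : 2 * (s * wT * (Real.pi * Dc)) *
      ∑ l : ι → Λ, (∏ x, p (l x)) * ∑ x ∈ T l, (((B x ∩ T l).erase x).card : ℝ) ≤
      2 * (s * wT * (Real.pi * Dc)) * prs :=
    mul_le_mul_of_nonneg_left hprs (by have := Real.pi_pos; positivity)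
  linarith

end Vale.Agent.P365.Z0
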