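import Vale.Agent.P365.Z0.IntegDefs
import Vale.Agent.P365.J376.Bridge
import Vale.Agent.P365.L5.Site

/-!
# P365 T1.5, Z7b: derivative of `LT` along `u + s w`
-/

set_option linter.all false

namespace Vale.Agent.P365.Z0

open P365L P365O P365T1 P365L.TL Matrix Complex MeasureTheory Filter Topology Set
open Vale.Agent.P365.J376
open scoped ComplexConjugate ENNReal

section one

variable {ι : Type*} [Fintype ι] [DecidableEq ι] {A : Matrix ι ι ℝ} {W : ι → ℂ}

/-- deterministic upper bound of the width -/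
theorem Sf_upper (hA : A.IsSymm) {b : ℝ} (hb : 0 < b) (hb1 : b ≤ 1) (hW : ∀ x, (W x).im ≤ -b)
    (x : ι) : Sf A W x ≤ -(W x).im + (2 * ∑ y, A x y ^ 2 + 2) / b := by
  have hneg : ∀ x, (W x).im < 0 := fun x => by linarith [hW x]
  have hI : (-I : ℂ).im < 0 := by simp
  set W' := Function.update W x (-I) with hW'
  have hneg' : ∀ y, (W' y).im < 0 := fun y => update_neg hneg hI y
  have hle' : ∀ y, (W' y).im ≤ -b := by
    intro y
    by_cases h : y = x
    · subst h
      rw [hW', Function.update_self]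
      simpa using hb1
    · rw [hW', Function.update_of_ne h]
      exact hW y
  have h1 := P365L5.mm_lower hA hb hle' x
  have h2 : ‖W' x‖ ^ 2 = 1 := by
    rw [hW', Function.update_self, norm_neg, Complex.norm_I, one_pow]
  rw [h2, mul_one] at h1
  have hsum : 0 ≤ ∑ y, A x y ^ 2 := Finset.sum_nonneg fun y _ => sq_nonneg _
  have h3 : 0 < b / (2 * ∑ y, A x y ^ 2 + 2) := by positivity
  have hmm : 0 < mm A W' x := h3.trans_le h1
  have h4 : mm A W' x ≤ ‖Gr A W' x x‖ := (le_abs_self _).trans (Complex.abs_im_le_norm _)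
  have h5 := mm_eq_Sf hA hneg' x
  have h6 : Sf A W' x ≤ (2 * ∑ y, A x y ^ 2 + 2) / b := by
    have h7 : Sf A W' x * mm A W' x ≤ 1 := by
      have h8 : Sf A W' x * mm A W' x ^ 2 ≤ mm A W' x := by
        rw [h5]
        have := Sf_pos hA hneg' x
        have h9 : mm A W' x ^ 2 ≤ ‖Gr A W' x x‖ ^ 2 := pow_le_pow_left₀ hmm.le h4 2
        rw [← h5]
        calc Sf A W' x * mm A W' x ^ 2 ≤ Sf A W' x * ‖Gr A W' x x‖ ^ 2 :=
              mul_le_mul_of_nonneg_left h9 this.le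
          _ = mm A W' x := h5.symm
      have h9 : (Sf A W' x * mm A W' x) * mm A W' x ≤ 1 * mm A W' x := by nlinarith
      exact le_of_mul_le_mul_right h9 hmm
    have h8 : Sf A W' x * (b / (2 * ∑ y, A x y ^ 2 + 2)) ≤ 1 :=
      (mul_le_mul_of_nonneg_left h1 (Sf_pos hA hneg' x).le).trans h7
    rw [le_div_iff₀ hb]
    rw [mul_div_assoc', div_le_one (by positivity)] at h8
    exact h8
  have h7 := sg_im hA hneg x
  have h8 := sg_im hA hneg' x
  rw [hW', sg_upd hA hneg hI, ← hW'] at h8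
  have h9 : (W' x).im = -1 := by rw [hW', Function.update_self]; simp
  rw [h9] at h8
  linarith

/-- bound of the derivative of `log Sf` -/
theorem abs_dlogSf_le (hA : A.IsSymm) (hW : ∀ x, (W x).im < 0) {K : ℝ} (hK : 0 ≤ K)
    {w : ι → ℝ} (hw0 : ∀ z, 0 ≤ w z) (hw : ∀ z, w z ≤ K * (-(W z).im)) (x : ι) :
    |(∑ z, w z * ((gw A W x z) ^ 2).re) / Sf A W x| ≤ K := by
  have hS := Sf_pos hA hW x
  rw [abs_div, abs_of_pos hS, div_le_iff₀ hS]
  refine (Finset.abs_sum_le_sum_abs _ _).trans ?_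
  rw [Sf, Finset.mul_sum]
  refine Finset.sum_le_sum fun z _ => ?_
  rw [abs_mul, abs_of_nonneg (hw0 z)]
  have h1 : |((gw A W x z) ^ 2).re| ≤ ‖gw A W x z‖ ^ 2 := by
    rw [← norm_pow]
    exact Complex.abs_re_le_norm _
  calc w z * |((gw A W x z) ^ 2).re| ≤ (K * (-(W z).im)) * ‖gw A W x z‖ ^ 2 :=
        mul_le_mul (hw z) h1 (abs_nonneg _) (mul_nonneg hK (by linarith [hW z]))
    _ = K * (-(W z).im * ‖gw A W x z‖ ^ 2) := by ring

theorem Sf_eq_neg_im_inv (hA : A.IsSymm) (hW : ∀ x, (W x).im < 0) (x : ι) :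
    Sf A W x = -((Gr A W x x)⁻¹).im := by
  have h := sg_im hA hW x
  rw [sg, Complex.sub_im] at h
  linarith

/-- derivative of the width along an imaginary path -/
theorem hasDerivAt_Sf' (hA : A.IsSymm) {a : ι → ℝ} {h : ℝ → ι → ℝ} {h' : ι → ℝ} {s₀ : ℝ}
    (hd : ∀ x, HasDerivAt (fun s => h s x) (h' x) s₀) (hpos : ∀ x, 0 < h s₀ x) (x : ι) :
    HasDerivAt (fun s => Sf A (Wp a (h s)) x)
      (∑ z, h' z * ((gw A (Wp a (h s₀)) x z) ^ 2).re) s₀ := by
  have hneg : ∀ x, (Wp a (h s₀) x).im < 0 := fun x => by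
    rw [J376.Wp_im]
    linarith [hpos x]
  have hWd : ∀ x, HasDerivAt (fun s => Wp a (h s) x) (-((h' x : ℂ) * I)) s₀ := by
    intro x
    have h1 : HasDerivAt (fun s => (h s x : ℂ)) (h' x : ℂ) s₀ := (hd x).ofReal_comp
    have h2 := (h1.mul_const I).const_sub (a x : ℂ)
    exact h2
  have hG0 := Gr_self_ne_zero hA hneg x
  have h1 := (hasDerivAt_Gr hA hWd hneg x x).inv hG0
  have h2 := (Complex.imCLM.hasFDerivAt.comp_hasDerivAt s₀ h1).neg
  have hev : (fun s => Sf A (Wp a (h s)) x) =ᶠ[𝓝 s₀]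
      fun s => -(Complex.imCLM ((Gr A (Wp a (h s)) x x)⁻¹)) := by
    have hev1 : ∀ᶠ s in 𝓝 s₀, ∀ y, 0 < h s y := by
      rw [eventually_all]
      intro y
      exact (hd y).continuousAt.eventually (lt_mem_nhds (hpos y))
    filter_upwards [hev1] with s hs
    rw [Sf_eq_neg_im_inv hA (fun y => by rw [J376.Wp_im]; linarith [hs y]) x]
    rfl
  refine HasDerivAt.congr_of_eventuallyEq ?_ hev
  have h3 : -(Complex.imCLM (-(∑ z, Gr A (Wp a (h s₀)) x z * (-(-((h' z : ℂ) * I))) *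
      Gr A (Wp a (h s₀)) z x) / (Gr A (Wp a (h s₀)) x x) ^ 2)) =
      ∑ z, h' z * ((gw A (Wp a (h s₀)) x z) ^ 2).re := by
    have h4 : -(∑ z, Gr A (Wp a (h s₀)) x z * (-(-((h' z : ℂ) * I))) *
        Gr A (Wp a (h s₀)) z x) / (Gr A (Wp a (h s₀)) x x) ^ 2 =
        -(I * ∑ z, (h' z : ℂ) * (gw A (Wp a (h s₀)) x z) ^ 2) := by
      rw [neg_div, Finset.sum_div, Finset.mul_sum]
      congr 1
      refine Finset.sum_congr rfl fun z _ => ?_
      rw [Gr_eq_gw' hA hneg x z, Gr_eq_gw hA hneg x z]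
      field_simp
    rw [h4, map_neg, neg_neg, Complex.imCLM_apply, Complex.I_mul_im, Complex.re_sum]
    refine Finset.sum_congr rfl fun z _ => ?_
    rw [Complex.re_ofReal_mul]
  rw [← h3]
  exact h2

theorem hasDerivAt_logSf' (hA : A.IsSymm) {a : ι → ℝ} {h : ℝ → ι → ℝ} {h' : ι → ℝ} {s₀ : ℝ}
    (hd : ∀ x, HasDerivAt (fun s => h s x) (h' x) s₀) (hpos : ∀ x, 0 < h s₀ x) (x : ι) :
    HasDerivAt (fun s => Real.log (Sf A (Wp a (h s)) x))
      ((∑ z, h' z * ((gw A (Wp a (h s₀)) x z) ^ 2).re) / Sf A (Wp a (h s₀)) x) s₀ :=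
  (hasDerivAt_Sf' hA hd hpos x).log
    (Sf_pos hA (fun x => by rw [J376.Wp_im]; linarith [hpos x]) x).ne'

end one

section avg

variable {ι : Type*} [Fintype ι] [DecidableEq ι] {A : Matrix ι ι ℝ}

theorem measurable_Sf_WV (E : ℝ) (e : ι → ℝ) (x : ι) :
    Measurable fun v : ι → ℝ => Sf A (WV E e v) x := by
  unfold Sf
  refine Finset.measurable_sum _ fun a _ => ?_
  have h0 : ∀ v : ι → ℝ, (WV E e v a).im = -(e a) := fun v => by
    rw [WV_eq_Wp, J376.Wp_im]
  simp only [h0]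
  exact ((measurable_gw_WV E e x a).norm.pow_const 2).const_mul _

/-- uniform bound of `|log Sf|` for profiles in `[b, H]` -/
theorem abs_log_Sf_le (hA : A.IsSymm) {b H : ℝ} (hb : 0 < b) (hb1 : b ≤ 1) (x : ι) :
    ∃ C : ℝ, 0 ≤ C ∧ ∀ (E : ℝ) (e v : ι → ℝ), (∀ z, b ≤ e z) → (∀ z, e z ≤ H) →
      |Real.log (Sf A (WV E e v) x)| ≤ C := by
  refine ⟨|Real.log b| + |Real.log (|H| + (2 * ∑ y, A x y ^ 2 + 2) / b)|, by positivity, ?_⟩
  intro E e v he hH
  have him : ∀ z, (WV E e v z).im = -(e z) := fun z => by rw [WV_eq_Wp, J376.Wp_im]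
  have hneg : ∀ z, (WV E e v z).im < 0 := fun z => by rw [him]; linarith [he z]
  have h1 : b ≤ Sf A (WV E e v) x := by
    refine le_trans ?_ (e_le_Sf hA hneg x)
    rw [him, neg_neg]
    exact he x
  have h2 := Sf_upper hA hb hb1 (W := WV E e v) (fun z => by rw [him]; linarith [he z]) x
  rw [him, neg_neg] at h2
  have h3 : Sf A (WV E e v) x ≤ |H| + (2 * ∑ y, A x y ^ 2 + 2) / b :=
    h2.trans (by linarith [hH x, le_abs_self H])
  have h4 : Real.log b ≤ Real.log (Sf A (WV E e v) x) := Real.log_le_log hb h1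
  have h5 : Real.log (Sf A (WV E e v) x) ≤
      Real.log (|H| + (2 * ∑ y, A x y ^ 2 + 2) / b) := Real.log_le_log (hb.trans_le h1) h3
  rw [abs_le]
  constructor
  · linarith [neg_abs_le (Real.log b), abs_nonneg (Real.log (|H| + (2 * ∑ y, A x y ^ 2 + 2) / b))]
  · linarith [le_abs_self (Real.log (|H| + (2 * ∑ y, A x y ^ 2 + 2) / b)),
      abs_nonneg (Real.log b)]

theorem measurable_logSf (E : ℝ) (e : ι → ℝ) (x : ι) :
    Measurable fun v : ι → ℝ => Real.log (Sf A (WV E e v) x) :=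
  Real.measurable_log.comp (measurable_Sf_WV E e x)

theorem exists_low [Finite ι] {e : ι → ℝ} (he : ∀ x, 0 < e x) :
    ∃ b : ℝ, 0 < b ∧ b ≤ 1 ∧ ∀ x, b ≤ e x := by
  rcases isEmpty_or_nonempty ι with h | h
  · exact ⟨1, one_pos, le_rfl, fun x => (h.false x).elim⟩
  · obtain ⟨x₀, hx₀⟩ := Finite.exists_min e
    exact ⟨min (e x₀) 1, lt_min (he x₀) one_pos, min_le_right _ _,
      fun x => (min_le_left _ _).trans (hx₀ x)⟩

theorem integrable_logSf (hA : A.IsSymm) (m : Measure (ι → ℝ)) [IsFiniteMeasure m] (E : ℝ)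
    {e : ι → ℝ} (he : ∀ x, 0 < e x) (x : ι) :
    Integrable (fun v => Real.log (Sf A (WV E e v) x)) m := by
  obtain ⟨b, hb, hb1, hbe⟩ := exists_low he
  obtain ⟨C, hC0, hC⟩ := abs_log_Sf_le (A := A) (H := ∑ y, e y) hA hb hb1 x
  refine Integrable.mono' (integrable_const C) (measurable_logSf E e x).aestronglyMeasurable
    (Eventually.of_forall fun v => ?_)
  rw [Real.norm_eq_abs]
  exact hC E e v hbe fun z => Finset.single_le_sum (f := e) (fun y _ => (he y).le)
    (Finset.mem_univ z)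

theorem measurable_dlogSf (E : ℝ) (e w : ι → ℝ) (x : ι) :
    Measurable fun v : ι → ℝ =>
      (∑ z, w z * ((gw A (WV E e v) x z) ^ 2).re) / Sf A (WV E e v) x :=
  (Finset.measurable_sum _ fun z _ => (Complex.measurable_re.comp
    ((measurable_gw_WV E e x z).pow_const 2)).const_mul _).div (measurable_Sf_WV E e x)

/-- derivative of the expected `∑ log Sf` -/
theorem hasDerivAt_Ex_logSf (hA : A.IsSymm) (m : ι → Measure ℝ) [∀ x, IsProbabilityMeasure (m x)]
    (E : ℝ) {b Wm : ℝ} (hb : 0 < b) (hWm : 0 < Wm) {u w : ι → ℝ} (hub : ∀ x, b ≤ u x)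
    (hw0 : ∀ x, 0 ≤ w x) (hw1 : ∀ x, w x ≤ Wm) (T : Finset ι) {s : ℝ} (hs : 0 ≤ s) :
    HasDerivAt (fun s => Ex m E (fun x => u x + s * w x) fun W => ∑ x ∈ T, Real.log (Sf A W x))
      (Ex m E (fun x => u x + s * w x) fun W =>
        ∑ x ∈ T, (∑ z, w z * ((gw A W x z) ^ 2).re) / Sf A W x) s := by
  have hd0 : 0 < b / (2 * Wm) := by positivity
  have hsn : Ioo (-(b / (2 * Wm))) (s + 1) ∈ 𝓝 s := Ioo_mem_nhds (by linarith) (by linarith)
  have hlow : ∀ t ∈ Ioo (-(b / (2 * Wm))) (s + 1), ∀ x, b / 2 ≤ u x + t * w x := by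
    intro t ht x
    have h1 := hub x
    have h4 : -(b / (2 * Wm)) * w x ≤ t * w x := mul_le_mul_of_nonneg_right ht.1.le (hw0 x)
    have h5 : b / (2 * Wm) * w x ≤ b / (2 * Wm) * Wm :=
      mul_le_mul_of_nonneg_left (hw1 x) hd0.le
    have h6 : b / (2 * Wm) * Wm = b / 2 := by field_simp
    nlinarith
  unfold Ex
  refine (hasDerivAt_integral_of_dominated_loc_of_deriv_le (μ := Measure.pi m)
    (s := Ioo (-(b / (2 * Wm))) (s + 1))
    (F := fun t v => ∑ x ∈ T, Real.log (Sf A (WV E (fun x => u x + t * w x) v) x))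
    (F' := fun t v => ∑ x ∈ T, (∑ z, w z * ((gw A (WV E (fun x => u x + t * w x) v) x z) ^ 2).re) /
      Sf A (WV E (fun x => u x + t * w x) v) x)
    (bound := fun _ => T.card * (Wm / (b / 2))) hsn ?_ ?_ ?_ ?_ (integrable_const _) ?_).2
  · filter_upwards with t
    exact (Finset.measurable_sum _ fun x _ => measurable_logSf E _ x).aestronglyMeasurable
  · refine integrable_finset_sum _ fun x _ => integrable_logSf hA _ E (fun z => ?_) x
    have := hlow s (mem_of_mem_nhds hsn) z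
    linarith [half_pos hb]
  · exact (Finset.measurable_sum _ fun x _ => measurable_dlogSf E _ w x).aestronglyMeasurable
  · refine Eventually.of_forall fun v t ht => ?_
    rw [Real.norm_eq_abs]
    refine (Finset.abs_sum_le_sum_abs _ _).trans ?_
    rw [← nsmul_eq_mul]
    refine Finset.sum_le_card_nsmul _ _ _ fun x _ => ?_
    have him : ∀ z, (WV E (fun x => u x + t * w x) v z).im = -(u z + t * w z) := fun z => by
      rw [WV_eq_Wp, J376.Wp_im]
    refine abs_dlogSf_le hA (fun z => ?_) (by positivity) hw0 (fun z => ?_) x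
    · rw [him]
      linarith [hlow t ht z, half_pos hb]
    · rw [him, neg_neg]
      have h1 := hlow t ht z
      calc w z ≤ Wm := hw1 z
        _ = Wm / (b / 2) * (b / 2) := by field_simp
        _ ≤ Wm / (b / 2) * (u z + t * w z) := mul_le_mul_of_nonneg_left h1 (by positivity)
  · refine Eventually.of_forall fun v t ht => ?_
    have h1 := HasDerivAt.fun_sum (u := T) fun x _ =>
      hasDerivAt_logSf' (A := A) (a := fun x => v x - E) (h := fun s x => u x + s * w x)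
        (h' := w) (s₀ := t) hA
        (fun x => by simpa using ((hasDerivAt_id t).mul_const (w x)).const_add (u x))
        (fun x => (half_pos hb).trans_le (hlow t ht x)) x
    simpa only [← WV_eq_Wp] using h1

variable {Λ : Type*} [Fintype Λ] {p : Λ → ℝ} {ν : Λ → Measure ℝ} {E : ℝ}
  {T : (ι → Λ) → Finset ι}

theorem hasDerivAt_LT (hA : A.IsSymm) [∀ k, IsProbabilityMeasure (ν k)] {b Wm : ℝ}
    (hb : 0 < b) (hWm : 0 < Wm) {u w : (ι → Λ) → ι → ℝ} (hub : ∀ l x, b ≤ u l x)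
    (hw0 : ∀ l x, 0 ≤ w l x) (hw1 : ∀ l x, w l x ≤ Wm) {s : ℝ} (hs : 0 ≤ s) :
    HasDerivAt (fun s : ℝ => LT A p ν E T (fun l x => u l x + s * w l x))
      (LTd A p ν E T (fun l x => u l x + s * w l x) w) s := by
  unfold LT LTd AvG
  exact HasDerivAt.fun_sum fun l _ => HasDerivAt.const_mul _
    (hasDerivAt_Ex_logSf hA (fun x => ν (l x)) E hb hWm (hub l) (hw0 l) (hw1 l) (T l) hs)

/-- the derivative is at most `nT / s` when `s w ≤ e` -/
theorem abs_LTd_le (hA : A.IsSymm) [∀ k, IsProbabilityMeasure (ν k)] (hp : ∀ k, 0 ≤ p k)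
    {e w : (ι → Λ) → ι → ℝ} {s : ℝ} (hs : 0 < s) (he : ∀ l x, 0 < e l x)
    (hw0 : ∀ l x, 0 ≤ w l x) (hwe : ∀ l x, s * w l x ≤ e l x) :
    |LTd A p ν E T e w| ≤ nT p T / s := by
  unfold LTd AvG nT
  refine (Finset.abs_sum_le_sum_abs _ _).trans ?_
  rw [Finset.sum_div]
  refine Finset.sum_le_sum fun l _ => ?_
  have hpr : 0 ≤ ∏ x, p (l x) := Finset.prod_nonneg fun x _ => hp _
  rw [abs_mul, abs_of_nonneg hpr, mul_div_assoc]
  refine mul_le_mul_of_nonneg_left ?_ hpr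
  unfold Ex
  rw [← Real.norm_eq_abs]
  have h1 := norm_integral_le_of_norm_le_const (μ := Measure.pi fun x => ν (l x))
    (f := fun v => ∑ x ∈ T l, (∑ z, w l z * ((gw A (WV E (e l) v) x z) ^ 2).re) /
      Sf A (WV E (e l) v) x) (C := (T l).card * (1 / s))
    (Eventually.of_forall fun v => by
      rw [Real.norm_eq_abs]
      refine (Finset.abs_sum_le_sum_abs _ _).trans ?_
      rw [← nsmul_eq_mul]
      refine Finset.sum_le_card_nsmul _ _ _ fun x _ => ?_
      have him : ∀ z, (WV E (e l) v z).im = -(e l z) := fun z => by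
        rw [WV_eq_Wp, J376.Wp_im]
      refine abs_dlogSf_le hA (fun z => ?_) (by positivity) (hw0 l) (fun z => ?_) x
      · rw [him]
        linarith [he l z]
      · rw [him, neg_neg, one_div, ← div_eq_inv_mul, le_div_iff₀ hs, mul_comm]
        exact hwe l z)
  refine h1.trans (le_of_eq ?_)
  simp
  ring

end avg

end Vale.Agent.P365.Z0
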