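import Vale.Agent.P365.Z0.IntegAvg
import Vale.Agent.P365.Z0.Bad

/-!
# P365 T1.5, Z7b: one line, and the mass off the traps in a trap world
-/

set_option linter.all false

namespace Vale.Agent.P365.Z0

open P365L hiding Wp Wp_im
open P365O P365T1 P365L.TL Matrix Complex MeasureTheory Filter Topology Set
open Vale.Agent.P365.J376 Vale.Agent.P365.Z0.H640
open P365Z (pc pw Off mm_line pw_pos measurableSet_Off)
open scoped ComplexConjugate ENNReal

variable {ι : Type*} [Fintype ι] [DecidableEq ι] {A : Matrix ι ι ℝ}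

theorem integrable_mm_line (hA : A.IsSymm) {E : ℝ} {e : ι → ℝ} (he : ∀ x, 0 < e x) (v : ι → ℝ)
    (x : ι) (m : Measure ℝ) [IsFiniteMeasure m] :
    Integrable (fun u => mm A (WV E e (Function.update v x u)) x) m := by
  obtain ⟨b, hb, -, hbe⟩ := exists_low he
  have hmeas : Measurable fun u : ℝ => mm A (WV E e (Function.update v x u)) x := by
    have h1 : Measurable fun v : ι → ℝ => mm A (WV E e v) x := P365Z.measurable_mmv x
    exact h1.comp (measurable_update v)
  refine Integrable.mono' (integrable_const (1 / b)) hmeas.aestronglyMeasurable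
    (Eventually.of_forall fun u => ?_)
  rw [Real.norm_eq_abs, abs_of_nonneg (mm_pos hA (WV_neg he _) x).le]
  exact mm_le_inv hA hb hbe _ x

/-- a resonance which is inside of the flat part of the law and narrow is seen by the average -/
theorem mm_line_ge (hA : A.IsSymm) {E : ℝ} {e : ι → ℝ} (he : ∀ x, 0 < e x) {v : ι → ℝ} {x : ι}
    {m : Measure ℝ} [IsProbabilityMeasure m] {c0 a a' dl σ : ℝ} (hc0 : 0 ≤ c0) (haa : a < a')
    (hdl : 0 ≤ dl) (hc : DensGe c0 (a' + dl) m) (hσ : σ ≤ 1) (hv : v ∉ Off A E e a σ x) :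
    c0 * min 1 (a' - a) ≤ ∫ u, mm A (WV E e (Function.update v x u)) x ∂m := by
  have h3 : |pc A E e v x| ≤ a ∧ pw A E e v x ≤ σ := by
    by_contra hcon
    exact hv hcon
  set c := pc A E e v x with hcdef
  set w := pw A E e v x with hwdef
  have hw : 0 < w := pw_pos (E := E) hA he v x
  have hw1 : w ≤ 1 := h3.2.trans hσ
  have had : 0 < a' - a := by linarith
  set h := min w (a' - a) with hh
  have hh0 : 0 < h := lt_min hw had
  have hhw : h ≤ w := min_le_left _ _
  have hha : h ≤ a' - a := min_le_right _ _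
  have hsub : Icc (c - h) (c + h) ⊆ Icc (-(a' + dl)) (a' + dl) := by
    intro u hu
    have h1 := abs_le.1 h3.1
    exact ⟨by linarith [hu.1], by linarith [hu.2]⟩
  have hmass : c0 * (2 * h) ≤ m.real (Icc (c - h) (c + h)) := by
    have h1 : ENNReal.ofReal c0 * volume (Icc (c - h) (c + h)) ≤ m (Icc (c - h) (c + h)) := by
      have h2 := hc (Icc (c - h) (c + h))
      rw [Measure.smul_apply, smul_eq_mul, Measure.restrict_apply measurableSet_Icc,
        inter_eq_left.2 hsub] at h2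
      exact h2
    rw [Real.volume_Icc, show c + h - (c - h) = 2 * h by ring, ← ENNReal.ofReal_mul hc0] at h1
    rw [Measure.real]
    exact (ENNReal.ofReal_le_iff_le_toReal (measure_ne_top _ _)).1 h1
  have hlow : ∀ u, (Icc (c - h) (c + h)).indicator (fun _ => 1 / (2 * w)) u ≤
      mm A (WV E e (Function.update v x u)) x := by
    intro u
    by_cases hu : u ∈ Icc (c - h) (c + h)
    · rw [indicator_of_mem hu, mm_line hA he, ← hcdef, ← hwdef,
        div_le_div_iff₀ (by positivity) (by positivity), one_mul]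
      have h4 : |u - c| ≤ w := abs_le.2 ⟨by linarith [hu.1], by linarith [hu.2]⟩
      have h5 : (u - c) ^ 2 ≤ w ^ 2 := by
        rw [← sq_abs (u - c)]
        exact pow_le_pow_left₀ (abs_nonneg _) h4 2
      nlinarith
    · rw [indicator_of_notMem hu]
      exact (mm_pos hA (WV_neg he _) x).le
  have hint : Integrable ((Icc (c - h) (c + h)).indicator fun _ : ℝ => 1 / (2 * w)) m :=
    (integrable_const _).indicator measurableSet_Icc
  have h6 := integral_mono hint (integrable_mm_line hA he v x m) hlow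
  rw [integral_indicator measurableSet_Icc, setIntegral_const, smul_eq_mul] at h6
  refine le_trans ?_ h6
  have h7 : min 1 (a' - a) ≤ h / w := by
    rw [le_div_iff₀ hw]
    rcases le_total w (a' - a) with h8 | h8
    · rw [hh, min_eq_left h8]
      calc min 1 (a' - a) * w ≤ 1 * w := mul_le_mul_of_nonneg_right (min_le_left _ _) hw.le
        _ = w := one_mul w
    · rw [hh, min_eq_right h8]
      calc min 1 (a' - a) * w ≤ (a' - a) * w := mul_le_mul_of_nonneg_right (min_le_right _ _) hw.le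
        _ ≤ (a' - a) * 1 := mul_le_mul_of_nonneg_left hw1 had.le
        _ = a' - a := mul_one _
  calc c0 * min 1 (a' - a) ≤ c0 * (h / w) := mul_le_mul_of_nonneg_left h7 hc0
    _ = c0 * (2 * h) * (1 / (2 * w)) := by field_simp
    _ ≤ m.real (Icc (c - h) (c + h)) * (1 / (2 * w)) :=
        mul_le_mul_of_nonneg_right hmass (by positivity)

section avg

variable {Λ : Type*} [Fintype Λ] {p : Λ → ℝ} {ν : Λ → Measure ℝ} {E : ℝ}

/-- total mass off the traps, from the product of the profile and the density -/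
theorem out_mass' (hA : A.IsSymm) [∀ k, IsProbabilityMeasure (ν k)] (hp : ∀ k, 0 ≤ p k)
    (hp1 : ∑ k, p k = 1) {e : (ι → Λ) → ι → ℝ} (he : ∀ l x, 0 < e l x)
    {T : (ι → Λ) → Finset ι} {em eD : ℝ} (hem : 0 < em) (hemT : ∀ l, ∀ x ∈ T l, em ≤ e l x)
    (heD0 : 0 ≤ eD) {Dd : Λ → ℝ} (hDd0 : ∀ k, 0 ≤ Dd k) (hDd : ∀ k, DensLe (Dd k) (ν k))
    (heD : ∀ l, ∀ x, x ∉ T l → e l x * Dd (l x) ≤ eD) :
    AvG p ν E e (fun l W => ∑ x ∈ T l, ∑ z ∈ (T l)ᶜ, (-(W z).im) * KK A W x z) ≤
      1 / em * (Real.pi * eD) * (Fintype.card ι : ℝ) := by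
  have hl : ∀ l : ι → Λ, Ex (fun x => ν (l x)) E (e l)
      (fun W => ∑ x ∈ T l, ∑ z ∈ (T l)ᶜ, (-(W z).im) * KK A W x z) ≤
      1 / em * (Real.pi * eD) * (Fintype.card ι : ℝ) := by
    intro l
    have h1 : Ex (fun x => ν (l x)) E (e l)
        (fun W => ∑ x ∈ T l, ∑ z ∈ (T l)ᶜ, (-(W z).im) * KK A W x z) ≤
        Ex (fun x => ν (l x)) E (e l)
          (fun W => (1 / em) * ∑ z ∈ (T l)ᶜ, (-(W z).im) * mm A W z) := by
      unfold Ex
      refine integral_mono (integrable_finset_sum _ fun x _ =>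
        integrable_sumKK hA _ E (he l) x _) ?_ fun v => ?_
      · simp only [WV_imm]
        exact (integrable_finset_sum _ fun z _ => (integrable_mm hA _ E (he l) z).const_mul _).const_mul _
      · exact sum_out_le hA (WV_neg (he l) v) (T l) hem fun x hx => by
          rw [WV_imm, neg_neg]
          exact hemT l x hx
    refine h1.trans ?_
    have h2 : Ex (fun x => ν (l x)) E (e l)
        (fun W => (1 / em) * ∑ z ∈ (T l)ᶜ, (-(W z).im) * mm A W z) =
        (1 / em) * ∑ z ∈ (T l)ᶜ, e l z * Ex (fun x => ν (l x)) E (e l) (fun W => mm A W z) := by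
      unfold Ex
      simp only [WV_imm, neg_neg]
      rw [integral_const_mul, integral_finset_sum _ fun z _ =>
        (integrable_mm hA _ E (he l) z).const_mul _]
      congr 1
      exact Finset.sum_congr rfl fun z _ => integral_const_mul _ _
    rw [h2]
    have hpi := Real.pi_pos
    have h3 : ∑ z ∈ (T l)ᶜ, e l z * Ex (fun x => ν (l x)) E (e l) (fun W => mm A W z) ≤
        (Fintype.card ι : ℝ) * (Real.pi * eD) := by
      calc ∑ z ∈ (T l)ᶜ, e l z * Ex (fun x => ν (l x)) E (e l) (fun W => mm A W z)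
          ≤ ∑ z ∈ (T l)ᶜ, Real.pi * eD := by
            refine Finset.sum_le_sum fun z hz => ?_
            have h4 := Ex_mm_le hA (fun x => ν (l x)) (E := E) (he l) z (hDd0 (l z)) (hDd (l z))
            calc e l z * Ex (fun x => ν (l x)) E (e l) (fun W => mm A W z)
                ≤ e l z * (Real.pi * Dd (l z)) := mul_le_mul_of_nonneg_left h4 (he l z).le
              _ = Real.pi * (e l z * Dd (l z)) := by ring
              _ ≤ Real.pi * eD := mul_le_mul_of_nonneg_left (heD l z (by simpa using hz)) hpi.le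
        _ = (((T l)ᶜ).card : ℝ) * (Real.pi * eD) := by rw [Finset.sum_const, nsmul_eq_mul]
        _ ≤ (Fintype.card ι : ℝ) * (Real.pi * eD) := by
            refine mul_le_mul_of_nonneg_right ?_ (mul_nonneg hpi.le heD0)
            exact_mod_cast Finset.card_le_univ _
    calc (1 / em) * ∑ z ∈ (T l)ᶜ, e l z * Ex (fun x => ν (l x)) E (e l) (fun W => mm A W z)
        ≤ (1 / em) * ((Fintype.card ι : ℝ) * (Real.pi * eD)) :=
          mul_le_mul_of_nonneg_left h3 (by positivity)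
      _ = _ := by ring
  unfold AvG
  calc ∑ l : ι → Λ, (∏ x, p (l x)) * _ ≤
      ∑ l : ι → Λ, (∏ x, p (l x)) * (1 / em * (Real.pi * eD) * (Fintype.card ι : ℝ)) :=
        Finset.sum_le_sum fun l _ => mul_le_mul_of_nonneg_left (hl l)
          (Finset.prod_nonneg fun x _ => hp _)
    _ = _ := by rw [← Finset.sum_mul, sum_lab_one hp1, one_mul]

/-- **the averaged slope inequality at a fixed strength**, general form -/
theorem LTd_ge' (hA : A.IsSymm) [∀ k, IsProbabilityMeasure (ν k)] (hp : ∀ k, 0 ≤ p k)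
    {u w : (ι → Λ) → ι → ℝ} {s : ℝ} (hs : 0 < s) (hu : ∀ l x, 0 < u l x)
    (hw : ∀ l x, 0 ≤ w l x) {T : (ι → Λ) → Finset ι} {B : ι → Finset ι}
    {κ εZ c0 wT Dc out far prs : ℝ}
    (hκ : ∀ l, ∀ x ∈ T l, u l x ≤ κ * (u l x + s * w l x)) (hκ0 : 0 ≤ κ)
    (hwT : ∀ l, ∀ x ∈ T l, w l x ≤ wT) (hwT0 : 0 ≤ wT) (hDc0 : 0 ≤ Dc)
    (hDc : ∀ l, ∀ x ∈ T l, DensLe Dc (ν (l x)))
    (hε : 0 ≤ εZ) (hc0 : 0 < c0)
    (hZ : ∀ l, ∀ x ∈ T l, ∃ bad : Set (ι → ℝ), MeasurableSet bad ∧
      Measure.pi (fun z => ν (l z)) bad ≤ ENNReal.ofReal εZ ∧ ∀ v ∉ bad,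
        c0 ≤ ∫ t, mm A (WV E (fun x => u l x + s * w l x) (Function.update v x t)) x ∂(ν (l x)))
    (hout : AvG p ν E (fun l x => u l x + s * w l x)
      (fun l W => ∑ x ∈ T l, ∑ z ∈ (T l)ᶜ, (-(W z).im) * KK A W x z) ≤ out)
    (hfar : AvG p ν E (fun l x => u l x + s * w l x)
      (fun l W => ∑ x ∈ T l, ∑ z ∈ T l ∩ (B x)ᶜ, (-(W z).im) * KK A W x z) ≤ far)
    (hprs : ∑ l : ι → Λ, (∏ x, p (l x)) * ∑ x ∈ T l, (((B x ∩ T l).erase x).card : ℝ) ≤ prs) :
    (1 - κ - 4 * εZ) * nT p T - 2 / c0 * out - 2 / c0 * far -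
      2 * (s * wT * (Real.pi * Dc)) * prs ≤
    s * LTd A p ν E T (fun l x => u l x + s * w l x) w := by
  have he : ∀ l x, 0 < u l x + s * w l x := fun l x => by
    have := mul_nonneg hs.le (hw l x)
    have := hu l x
    linarith
  have hl : ∀ l : ι → Λ, _ := fun l =>
    slope_lab (E := E) hA (fun x => ν (l x)) hs (hu l) (hw l) (T l) B (hκ l) hκ0 (hwT l) hDc0
      (hDc l) hε hc0 (hZ l)
  have hsum := Finset.sum_le_sum (s := (Finset.univ : Finset (ι → Λ))) fun l _ =>
    mul_le_mul_of_nonneg_left (hl l) (Finset.prod_nonneg (s := (Finset.univ : Finset ι))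
      fun x _ => hp (l x))
  have h2c : 0 ≤ 2 / c0 := by positivity
  have e1 : ∑ l : ι → Λ, (∏ x, p (l x)) * ((1 - κ - 4 * εZ) * ((T l).card : ℝ) -
      2 / c0 * Ex (fun x => ν (l x)) E (fun x => u l x + s * w l x)
        (fun W => ∑ x ∈ T l, ∑ z ∈ (T l)ᶜ, (-(W z).im) * KK A W x z) -
      2 / c0 * Ex (fun x => ν (l x)) E (fun x => u l x + s * w l x)
        (fun W => ∑ x ∈ T l, ∑ z ∈ T l ∩ (B x)ᶜ, (-(W z).im) * KK A W x z) -
      2 * (s * wT * (Real.pi * Dc)) * ∑ x ∈ T l, (((B x ∩ T l).erase x).card : ℝ)) =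
      (1 - κ - 4 * εZ) * nT p T -
      2 / c0 * AvG p ν E (fun l x => u l x + s * w l x)
        (fun l W => ∑ x ∈ T l, ∑ z ∈ (T l)ᶜ, (-(W z).im) * KK A W x z) -
      2 / c0 * AvG p ν E (fun l x => u l x + s * w l x)
        (fun l W => ∑ x ∈ T l, ∑ z ∈ T l ∩ (B x)ᶜ, (-(W z).im) * KK A W x z) -
      2 * (s * wT * (Real.pi * Dc)) *
        ∑ l : ι → Λ, (∏ x, p (l x)) * ∑ x ∈ T l, (((B x ∩ T l).erase x).card : ℝ) := by
    unfold nT AvG
    rw [Finset.mul_sum, Finset.mul_sum, Finset.mul_sum, Finset.mul_sum,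
      ← Finset.sum_sub_distrib, ← Finset.sum_sub_distrib, ← Finset.sum_sub_distrib]
    refine Finset.sum_congr rfl fun l _ => ?_
    ring
  have e2 : ∑ l : ι → Λ, (∏ x, p (l x)) * (s * Ex (fun x => ν (l x)) E
      (fun x => u l x + s * w l x)
      (fun W => ∑ x ∈ T l, (∑ z, w l z * ((gw A W x z) ^ 2).re) / Sf A W x)) =
      s * LTd A p ν E T (fun l x => u l x + s * w l x) w := by
    unfold LTd AvG
    rw [Finset.mul_sum]
    refine Finset.sum_congr rfl fun l _ => ?_
    ring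
  rw [e1, e2] at hsum
  have h3 := mul_le_mul_of_nonneg_left hout h2c
  have h4 := mul_le_mul_of_nonneg_left hfar h2c
  have h5 : 2 * (s * wT * (Real.pi * Dc)) *
      ∑ l : ι → Λ, (∏ x, p (l x)) * ∑ x ∈ T l, (((B x ∩ T l).erase x).card : ℝ) ≤
      2 * (s * wT * (Real.pi * Dc)) * prs :=
    mul_le_mul_of_nonneg_left hprs (by have := Real.pi_pos; positivity)
  linarith

end avg

end Vale.Agent.P365.Z0
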