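import Mathlib.MeasureTheory.Integral.IntervalIntegral.FundThmCalculus
import Mathlib.Analysis.SpecialFunctions.Integrals.Basic
import Mathlib.Analysis.Calculus.FDeriv.Measurable

/-!
# P365 T1.5, Z7b: integration of a slope inequality with a measurable set of good times
-/

set_option linter.all false

namespace Vale.Agent.P365.Z0

open MeasureTheory Set Real

/-- If `s F' ≥ (1-δ) K` at good times and `s F' ≥ -K` at all times of `[s₁, 1]`, then
`F s₁ ≤ F 1 - (1-δ) K log (1/s₁) + 2 K β`, `β` = logarithmic measure of the bad times. -/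
theorem good_times {F F' : ℝ → ℝ} {s₁ K δ β : ℝ} (hs0 : 0 < s₁) (hs1 : s₁ ≤ 1) (hK : 0 ≤ K)
    (hδ : 0 ≤ δ) (hd : ∀ s ∈ Icc s₁ 1, HasDerivAt F (F' s) s)
    (habs : ∀ s ∈ Icc s₁ 1, |F' s| ≤ K / s) {G : Set ℝ} (hG : MeasurableSet G)
    (hgood : ∀ s ∈ Icc s₁ 1, s ∈ G → (1 - δ) * (K / s) ≤ F' s)
    (hbad : ∫ s in Ioc s₁ 1 ∩ Gᶜ, s⁻¹ ≤ β) :
    F s₁ ≤ F 1 - (1 - δ) * K * Real.log (1 / s₁) + 2 * K * β := by
  have hmeas : Measurable (deriv F) := measurable_deriv F
  have hder : ∀ s ∈ Icc s₁ 1, deriv F s = F' s := fun s hs => (hd s hs).deriv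
  have hbound : ∀ s ∈ Ioc s₁ 1, ‖deriv F s‖ ≤ K / s₁ := by
    intro s hs
    rw [hder s (Ioc_subset_Icc_self hs), Real.norm_eq_abs]
    refine (habs s (Ioc_subset_Icc_self hs)).trans ?_
    exact div_le_div_of_nonneg_left hK hs0 hs.1.le
  have hint : IntegrableOn (deriv F) (Ioc s₁ 1) := by
    refine Measure.integrableOn_of_bounded (M := K / s₁) (by simp) hmeas.aestronglyMeasurable ?_
    exact (ae_restrict_iff' measurableSet_Ioc).2 (Filter.Eventually.of_forall hbound)
  have hftc : ∫ s in s₁..1, deriv F s = F 1 - F s₁ := by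
    refine intervalIntegral.integral_eq_sub_of_hasDerivAt (fun s hs => ?_) ?_
    · rw [uIcc_of_le hs1] at hs
      rw [hder s hs]
      exact hd s hs
    · rw [intervalIntegrable_iff_integrableOn_Ioc_of_le hs1]
      exact hint
  rw [intervalIntegral.integral_of_le hs1] at hftc
  have hinv : IntegrableOn (fun s : ℝ => s⁻¹) (Ioc s₁ 1) := by
    have h1 : IntervalIntegrable (fun s : ℝ => s⁻¹) volume s₁ 1 := by
      refine intervalIntegral.intervalIntegrable_inv (fun s hs => ?_) continuousOn_id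
      rw [uIcc_of_le hs1] at hs
      exact (hs0.trans_le hs.1).ne'
    rwa [intervalIntegrable_iff_integrableOn_Ioc_of_le hs1] at h1
  have hlog : ∫ s in Ioc s₁ 1, s⁻¹ = Real.log (1 / s₁) := by
    rw [← intervalIntegral.integral_of_le hs1, integral_inv_of_pos hs0 one_pos]
  -- lower bound of the derivative
  have hlow : ∀ s ∈ Ioc s₁ 1, (1 - δ) * K * s⁻¹ - 2 * K * (Gᶜ).indicator (fun s => s⁻¹) s ≤
      deriv F s := by
    intro s hs
    have hs' := Ioc_subset_Icc_self hs
    have hspos : 0 < s := hs0.trans hs.1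
    rw [hder s hs']
    by_cases hg : s ∈ G
    · rw [indicator_of_notMem (by simpa using hg), mul_zero, sub_zero]
      have := hgood s hs' hg
      rwa [div_eq_mul_inv, ← mul_assoc] at this
    · rw [indicator_of_mem (by simpa using hg)]
      have h1 := (abs_le.1 (habs s hs')).1
      rw [div_eq_mul_inv] at h1
      have h2 : 0 ≤ δ * (K * s⁻¹) := mul_nonneg hδ (mul_nonneg hK (inv_pos.2 hspos).le)
      nlinarith
  have hind : IntegrableOn ((Gᶜ).indicator fun s : ℝ => s⁻¹) (Ioc s₁ 1) :=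
    hinv.indicator hG.compl
  have hmono := setIntegral_mono_on (μ := volume) (s := Ioc s₁ 1)
    ((hinv.const_mul ((1 - δ) * K)).sub (hind.const_mul (2 * K))) hint measurableSet_Ioc hlow
  simp only [Pi.sub_apply] at hmono
  rw [integral_sub (hinv.const_mul _) (hind.const_mul _), integral_const_mul,
    integral_const_mul, hlog, setIntegral_indicator hG.compl, hftc] at hmono
  have h3 : 2 * K * ∫ s in Ioc s₁ 1 ∩ Gᶜ, s⁻¹ ≤ 2 * K * β :=
    mul_le_mul_of_nonneg_left hbad (by linarith)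
  linarith

end Vale.Agent.P365.Z0
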