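import Vale.Agent.P365.Z0.IntegTW
import Vale.Agent.P365.Z0.IntegReal

/-!
# P365 T1.5, Z7b: integration over the last stage of a chain
-/

set_option linter.all false

namespace Vale.Agent.P365.Z0

open P365L hiding Wp Wp_im
open P365O P365T1 P365L.TL Matrix Complex MeasureTheory Filter Topology Set
open Vale.Agent.P365.J376 Vale.Agent.P365.Z0.H640
open P365Z (pc pw Off mm_line pw_pos measurableSet_Off TW Lz)
open P365Z.Loss327
open scoped ComplexConjugate ENNReal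

variable {D : V3} {N : ℕ} [NeZero N] {ρ : Measure ℝ}

/-- logarithmic measure of the times with a large loss -/
theorem bad_log (h : D.Ok ρ) (E : ℝ) {i : ℕ} (hi : i ≤ D.I + 1) {t s₁ C θ : ℝ} (ht : 0 < t)
    (hst : t ≤ s₁) (hC : 0 ≤ C) (hθ : 0 < θ)
    (hLoss : ∫⁻ s in Ioo t 1, ENNReal.ofReal (LossS D N E i s) ≤
      ENNReal.ofReal (C * (N : ℝ) ^ 2)) :
    ∫ s in Ioc s₁ 1 ∩ {s | s * LossS D N E i s ≤ θ * (N : ℝ) ^ 2}ᶜ, s⁻¹ ≤ C / θ := by
  have hN : (0 : ℝ) < (N : ℝ) ^ 2 := by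
    have : (0 : ℝ) < N := by exact_mod_cast Nat.pos_of_ne_zero (NeZero.ne N)
    positivity
  have hmL := measurable_LossS (N := N) h E i
  set G := {s : ℝ | s * LossS D N E i s ≤ θ * (N : ℝ) ^ 2} with hG
  have hGm : MeasurableSet G := measurableSet_le (measurable_id.mul hmL) measurable_const
  set S := Ioc s₁ 1 ∩ Gᶜ with hS
  have hSm : MeasurableSet S := measurableSet_Ioc.inter hGm.compl
  have hpos : ∀ s ∈ S, 0 < s := fun s hs => (ht.trans_le hst).trans hs.1.1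
  have h0 : 0 ≤ᵐ[volume.restrict S] fun s : ℝ => s⁻¹ := by
    refine (ae_restrict_iff' hSm).2 (Eventually.of_forall fun s hs => ?_)
    exact (inv_pos.2 (hpos s hs)).le
  rw [integral_eq_lintegral_of_nonneg_ae h0 measurable_inv.aestronglyMeasurable]
  refine ENNReal.toReal_le_of_le_ofReal (by positivity) ?_
  calc ∫⁻ s in S, ENNReal.ofReal s⁻¹
      ≤ ∫⁻ s in S, ENNReal.ofReal (1 / (θ * (N : ℝ) ^ 2)) *
          ENNReal.ofReal (LossS D N E i s) := by
        refine setLIntegral_mono (hmL.ennreal_ofReal.const_mul _) fun s hs => ?_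
        rw [← ENNReal.ofReal_mul (by positivity)]
        refine ENNReal.ofReal_le_ofReal ?_
        have h1 : θ * (N : ℝ) ^ 2 < s * LossS D N E i s := by
          have h2 : ¬ (s * LossS D N E i s ≤ θ * (N : ℝ) ^ 2) := hs.2
          exact not_le.1 h2
        have h3 := hpos s hs
        rw [inv_eq_one_div, one_div_mul_eq_div, div_le_div_iff₀ h3 (by positivity)]
        nlinarith
    _ = ENNReal.ofReal (1 / (θ * (N : ℝ) ^ 2)) *
          ∫⁻ s in S, ENNReal.ofReal (LossS D N E i s) :=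
        lintegral_const_mul _ hmL.ennreal_ofReal
    _ ≤ ENNReal.ofReal (1 / (θ * (N : ℝ) ^ 2)) * ENNReal.ofReal (C * (N : ℝ) ^ 2) := by
        gcongr
        refine le_trans ?_ hLoss
        have h4 : ∫⁻ s in Ioo t 1, ENNReal.ofReal (LossS D N E i s) =
            ∫⁻ s in Ioc t 1, ENNReal.ofReal (LossS D N E i s) :=
          setLIntegral_congr Ioo_ae_eq_Ioc
        rw [h4]
        refine lintegral_mono_set ?_
        intro s hs
        exact ⟨lt_of_le_of_lt hst hs.1.1, hs.1.2⟩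
    _ = ENNReal.ofReal (C / θ) := by
        rw [← ENNReal.ofReal_mul (by positivity)]
        congr 1
        have h5 : (N : ℝ) ≠ 0 := by
          intro h6
          rw [h6] at hN
          norm_num at hN
        field_simp

/-- **integration over the last stage** -/
theorem last_stage_LT (h : D.Ok ρ) (E : ℝ) {T : (Tor N → D.Λ) → Finset (Tor N)}
    (hTc : ∀ l, ∀ x ∈ T l, D.cen D.I l x)
    {Dt c0 a a' dl C0 q η ηF κ κ' dF s₁ C δ₁ : ℝ} {Dn : D.Λ → ℝ}
    (hDt : 0 < Dt) (hc0 : 0 < c0) (haa : a < a') (hdl : 0 < dl) (hC0 : 0 < C0) (hη0 : 0 < η)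
    (hη1 : η ≤ 1) (hκ : 0 < κ) (hκ' : 0 ≤ κ') (hκ1 : κ' ≤ 1) (hs0 : 0 < s₁) (hs1 : s₁ ≤ 1)
    (hst : D.t (D.I + 1) ≤ s₁)
    (hTW : ∀ s, s₁ ≤ s → s ≤ 1 → TW N D.p D.ν E (D.prof (D.I + 1) s) T Dt c0 a a' dl C0
      (s * D.e0 D.I) q η Dn)
    (hb : D.b ≤ κ' * (s₁ * D.e0 D.I)) (hb1 : D.b ≤ 1)
    (hPhi : ∀ s ∈ Icc (D.t (D.I + 1)) 1, PhiS D N E (D.I + 1) s ≤ C * (N : ℝ) ^ 2)
    (hLoss : ∫⁻ s in Ioo (D.t (D.I + 1)) 1, ENNReal.ofReal (LossS D N E (D.I + 1) s) ≤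
      ENNReal.ofReal (C * (N : ℝ) ^ 2)) (hC : 0 ≤ C) (hηF : 0 < ηF)
    (hFar : ∀ s, s₁ ≤ s → s ≤ 1 → PhiG (AT N) D.p D.ν E (phi N) (D.prof (D.I + 1) s) ≤
      C * (N : ℝ) ^ 2 →
      AvG D.p D.ν E (D.prof (D.I + 1) s) (fun l W => ∑ x ∈ T l, D.prof (D.I + 1) s l x *
        ∑ k, Lz (AT N) W (phi N k) x) ≤ ηF * (N : ℝ) ^ 2 →
      AvG D.p D.ν E (D.prof (D.I + 1) s) (fun l W => ∑ x ∈ T l, ∑ y ∈ (T l).filter
        (fun y => κ / Real.sqrt (q * (s * D.e0 D.I)) < (nrm (x - y) : ℝ)),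
          D.prof (D.I + 1) s l y * KK (AT N) W x y) ≤ dF * nT D.p T)
    (hδ0 : 0 ≤ δ₁)
    (hδ : κ' + 4 * η + 2 / (c0 * min 1 (a' - a)) * (Real.pi * η) +
      2 / (c0 * min 1 (a' - a)) * dF + 6 * Real.pi * Dt * C0 * (η + κ ^ 2) ≤ δ₁) :
    LT (AT N) D.p D.ν E T (fun _ _ => D.b) ≤
      (Real.log (1 + s₁ * 33 / D.b) + η * Real.log (19 / D.b) -
        (1 - δ₁) * Real.log (1 / s₁) + 2 * (2 * C / ηF)) * nT D.p T := by
  haveI := h.prob
  have hA := AT_symm N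
  have hi : D.I + 1 ≤ D.I + 1 := le_rfl
  set w := D.Ws (N := N) (D.I + 1) with hw
  have hprof : ∀ s : ℝ, D.prof (N := N) (D.I + 1) s = fun l x => D.b + s * w l x := by
    intro s
    funext l x
    unfold V3.prof
    rw [V3.us_last]
  have hb0 : 0 < D.b := h.b_pos
  have he0 : 0 < D.e0 D.I := h.e0_pos D.I le_rfl
  have hw0 : ∀ l x, 0 ≤ w l x := fun l x => h.Ws_nonneg hi l x
  have hw1 : ∀ l x, w l x ≤ 33 := fun l x => h.Ws_le hi l x
  have ht0 : 0 < D.t (D.I + 1) := h.t_pos _ le_rfl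
  have hnT0 : 0 ≤ nT D.p T := Finset.sum_nonneg fun l _ => mul_nonneg
    (Finset.prod_nonneg fun x _ => h.p_nonneg _) (Nat.cast_nonneg _)
  set F : ℝ → ℝ := fun s => LT (AT N) D.p D.ν E T (fun l x => D.b + s * w l x) with hF
  set F' : ℝ → ℝ := fun s => LTd (AT N) D.p D.ν E T (fun l x => D.b + s * w l x) w with hF'
  have hd : ∀ s ∈ Icc s₁ 1, HasDerivAt F (F' s) s := fun s hs =>
    hasDerivAt_LT (u := fun _ _ => D.b) hA hb0 (show (0 : ℝ) < 33 by norm_num)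
      (fun l x => le_rfl) hw0 hw1 (hs0.le.trans hs.1)
  have hpos : ∀ s, 0 < s → ∀ l x, 0 < D.b + s * w l x := fun s hs l x => by
    have := mul_nonneg hs.le (hw0 l x)
    linarith
  have habs : ∀ s ∈ Icc s₁ 1, |F' s| ≤ nT D.p T / s := fun s hs =>
    abs_LTd_le (E := E) hA h.p_nonneg (hs0.trans_le hs.1) (hpos s (hs0.trans_le hs.1)) hw0
      fun l x => by linarith
  set G := {s : ℝ | s * LossS D N E (D.I + 1) s ≤ ηF / 2 * (N : ℝ) ^ 2} with hG
  have hGm : MeasurableSet G := measurableSet_le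
    (measurable_id.mul (measurable_LossS (N := N) h E _)) measurable_const
  have hgood : ∀ s ∈ Icc s₁ 1, s ∈ G → (1 - δ₁) * (nT D.p T / s) ≤ F' s := by
    intro s hs hsG
    have hs' : 0 < s := hs0.trans_le hs.1
    have htw := hTW s hs.1 hs.2
    have hbs : D.b ≤ κ' * (s * D.e0 D.I) := hb.trans (mul_le_mul_of_nonneg_left
      (mul_le_mul_of_nonneg_right hs.1 he0.le) hκ')
    have hloss : AvG D.p D.ν E (D.prof (D.I + 1) s) (fun l W => ∑ x ∈ T l,
        D.prof (D.I + 1) s l x * ∑ k, Lz (AT N) W (phi N k) x) ≤ ηF * (N : ℝ) ^ 2 := by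
      refine (loss_T h E hi hs'.le (T := T) fun l x hx => ?_).trans ?_
      · have h1 := (h.Ws_cen le_rfl (hTc l x hx)).1
        rw [hprof]
        have h2 : s * D.e0 D.I ≤ s * w l x := mul_le_mul_of_nonneg_left h1 hs'.le
        have h3 : κ' * (s * D.e0 D.I) ≤ 1 * (s * D.e0 D.I) :=
          mul_le_mul_of_nonneg_right hκ1 (mul_pos hs' he0).le
        simp only
        linarith
      · have h4 : s * LossS D N E (D.I + 1) s ≤ ηF / 2 * (N : ℝ) ^ 2 := hsG
        linarith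
    have hfar := hFar s hs.1 hs.2 (hPhi s ⟨hst.trans hs.1, hs.2⟩) hloss
    rw [hprof] at htw hfar
    have h5 := tw_slope (u := fun _ _ => D.b) (w := w) htw hDt hc0 haa hdl hC0 hη0 hη1 hκ hκ'
      hs' (fun l x => hb0) hw0 (fun l x hx => hbs) hfar
    have h6 : (1 - δ₁) * nT D.p T ≤ s * F' s := by
      refine le_trans (mul_le_mul_of_nonneg_right ?_ hnT0) h5
      linarith
    rw [← mul_div_assoc, div_le_iff₀ hs', mul_comm (F' s)]
    exact h6
  have hbad := bad_log (N := N) h E hi ht0 hst hC (show 0 < ηF / 2 by positivity) hLoss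
  have hmain := good_times hs0 hs1 hnT0 hδ0 hd habs hGm hgood hbad
  have hstart : F 1 ≤ η * Real.log (19 / D.b) * nT D.p T := by
    have htw := hTW 1 hs1 le_rfl
    rw [hprof] at htw
    refine tw_start htw hη1 ?_ hb0 hb1 fun l x => ?_
    · rw [one_mul]
      exact h.e0_le D.I le_rfl
    · have := hw0 l x
      linarith
  have hend := H550.LT_end (A := AT N) (p := D.p) (ν := D.ν) (E := E) (T := T) hA h.p_nonneg hb0
    (show (0 : ℝ) ≤ 33 by norm_num) (u := fun _ _ => D.b) (w := w) (fun l x => le_rfl) hw0 hw1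
    hs0.le
  have hend' : LT (AT N) D.p D.ν E T (fun _ _ => D.b) ≤ F s₁ +
      Real.log (1 + s₁ * 33 / D.b) * nT D.p T := hend
  have e1 : C / (ηF / 2) = 2 * C / ηF := by field_simp
  rw [e1] at hmain
  nlinarith

end Vale.Agent.P365.Z0
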