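import Vale.Agent.P365.Z0.Loss3

/-!
# P365, Z0: the loss on the traps, in the form consumed by the static theorem (Z5).
-/

set_option linter.all false

namespace P365Z.Loss327

open P365L P365O P365T1 P365L.TL Matrix Complex MeasureTheory Filter Topology Set
open Vale.Agent.P365.J376
open scoped ComplexConjugate ENNReal

section trap

variable {ι : Type*} [Fintype ι] [DecidableEq ι] {A : Matrix ι ι ℝ}
  {Λ : Type*} [Fintype Λ] {p : Λ → ℝ} {ν : Λ → Measure ℝ} {E : ℝ}
  {κ : Type*} [Fintype κ] {f : κ → ι → ℝ}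

/-- the loss on a set of sites of strength at least `ε` is at most a quarter of the full loss
in a direction `w` with `ε ≤ c w` there -/
theorem loss_trap (hA : A.IsSymm) [∀ k, IsProbabilityMeasure (ν k)] (hp : ∀ k, 0 ≤ p k)
    {e w : (ι → Λ) → ι → ℝ} (he : ∀ l x, 0 < e l x) (hw0 : ∀ l x, 0 ≤ w l x)
    {T : (ι → Λ) → Finset ι} {ε c : ℝ} (hc : 0 ≤ c)
    (hw : ∀ l, ∀ x ∈ T l, ε ≤ c * w l x) :
    AvG p ν E e (fun l W => ∑ k, ∑ x ∈ T l,
      ε * (Bf A W (f k) x ^ 2 * Sf A W x * ‖Gr A W x x‖ ^ 4)) ≤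
      c / 4 * LossG A p ν E f e w := by
  unfold LossG AvG
  rw [Finset.mul_sum]
  refine Finset.sum_le_sum fun l _ => ?_
  rw [← mul_assoc, mul_comm (c / 4), mul_assoc]
  refine mul_le_mul_of_nonneg_left ?_ (Finset.prod_nonneg fun x _ => hp _)
  unfold Ex
  rw [← integral_const_mul]
  have hi : ∀ k x, Integrable (fun v => Ls A (WV E (e l) v) (f k) x)
      (Measure.pi fun x => ν (l x)) := fun k x => integrable_Ls hA _ E (he l) (f k) x
  have hL : ∀ (v : ι → ℝ) k x, Bf A (WV E (e l) v) (f k) x ^ 2 * Sf A (WV E (e l) v) x *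
      ‖Gr A (WV E (e l) v) x x‖ ^ 4 = 1 / 4 * Ls A (WV E (e l) v) (f k) x := by
    intro v k x
    unfold Ls
    ring
  refine integral_mono ?_ ?_ fun v => ?_
  · simp only [hL]
    exact integrable_finset_sum _ fun k _ => integrable_finset_sum _ fun x _ =>
      ((hi k x).const_mul _).const_mul _
  · exact (integrable_finset_sum _ fun x _ => (integrable_finset_sum _ fun k _ =>
      hi k x).const_mul _).const_mul _
  · simp only [hL]
    have h1 : ∀ x ∈ T l, ∀ k, ε * (1 / 4 * Ls A (WV E (e l) v) (f k) x) ≤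
        c / 4 * (w l x * Ls A (WV E (e l) v) (f k) x) := by
      intro x hx k
      have h0 : 0 ≤ Ls A (WV E (e l) v) (f k) x := Ls_nonneg hA (WV_neg (he l) v) (f k) x
      have h2 := mul_le_mul_of_nonneg_right (hw l x hx) h0
      nlinarith [h2]
    calc ∑ k, ∑ x ∈ T l, ε * (1 / 4 * Ls A (WV E (e l) v) (f k) x)
        ≤ ∑ k, ∑ x ∈ T l, c / 4 * (w l x * Ls A (WV E (e l) v) (f k) x) :=
          Finset.sum_le_sum fun k _ => Finset.sum_le_sum fun x hx => h1 x hx k
      _ ≤ ∑ k, ∑ x, c / 4 * (w l x * Ls A (WV E (e l) v) (f k) x) :=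
          Finset.sum_le_sum fun k _ => Finset.sum_le_sum_of_subset_of_nonneg
            (Finset.subset_univ _) fun x _ _ => mul_nonneg (by positivity)
              (mul_nonneg (hw0 l x) (Ls_nonneg hA (WV_neg (he l) v) (f k) x))
      _ = c / 4 * ∑ x, w l x * ∑ k, Ls A (WV E (e l) v) (f k) x := by
          rw [Finset.sum_comm, Finset.mul_sum]
          refine Finset.sum_congr rfl fun x _ => ?_
          rw [Finset.mul_sum, Finset.mul_sum]

end trap

section stage

variable {D : V3} {N : ℕ} [NeZero N] {ρ : Measure ℝ}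

/-- the trap loss at stage `i`, strength `s`: sites with `ε ≤ s w_x` -/
theorem lossS_trap (h : D.Ok ρ) (E : ℝ) {i : ℕ} (hi : i ≤ D.I + 1) {s ε : ℝ} (hs : 0 ≤ s)
    {T : (Tor N → D.Λ) → Finset (Tor N)} (hT : ∀ l, ∀ x ∈ T l, ε ≤ s * D.Ws i l x) :
    AvG D.p D.ν E (D.prof (N := N) i s) (fun l W => ∑ k, ∑ x ∈ T l,
      ε * (Bf (AT N) W (phi N k) x ^ 2 * Sf (AT N) W x * ‖Gr (AT N) W x x‖ ^ 4)) ≤
      1 / 4 * (s * LossS D N E i s) := by
  haveI := h.prob
  have h1 := loss_trap (A := AT N) (p := D.p) (ν := D.ν) (E := E) (f := phi N) (AT_symm N)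
    h.p_nonneg (fun l x => h.prof_pos hi hs l x) (fun l x => h.Ws_nonneg hi l x) hs hT
  refine h1.trans (le_of_eq ?_)
  unfold LossS
  ring

end stage

end P365Z.Loss327
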