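import Vale.Agent.P365.Z0.IntegLine
import Vale.Agent.P365.Z0.Iface
import Vale.Agent.P365.Z0.LossTrap
import Vale.Agent.P365.Z0.H550.End
import Vale.Agent.P365.Z0.H550.Up

/-!
# P365 T1.5, Z7b: the slope in a trap world, the loss on the traps, the start at `s = 1`
-/

set_option linter.all false

namespace Vale.Agent.P365.Z0

open P365L hiding Wp Wp_im
open P365O P365T1 P365L.TL Matrix Complex MeasureTheory Filter Topology Set
open Vale.Agent.P365.J376 Vale.Agent.P365.Z0.H640
open P365Z (pc pw Off mm_line pw_pos measurableSet_Off TW Lz)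
open scoped ComplexConjugate ENNReal

section tw

variable {N : ℕ} [NeZero N] {Λ : Type} [Fintype Λ] {p : Λ → ℝ} {ν : Λ → Measure ℝ} {E : ℝ}
  {T : (Tor N → Λ) → Finset (Tor N)}

theorem cardTor : (Fintype.card (Tor N) : ℝ) = (N : ℝ) ^ 2 := by
  rw [card_Tor_nat]
  push_cast
  rfl

theorem AT_row (x : Tor N) : ∑ y, |AT N x y| ≤ 4 := by
  refine le_trans (le_of_eq ?_) (row_sum_le x)
  exact Finset.sum_congr rfl fun y _ => abs_of_nonneg (AT_nonneg x y)

/-- a trap world with smaller `η` is a trap world with larger `η` -/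
theorem tw_mono {e : (Tor N → Λ) → Tor N → ℝ} {Dt c0 a a' dl C0 C0' ε q η η' : ℝ} {Dn : Λ → ℝ}
    (h : TW N p ν E e T Dt c0 a a' dl C0 ε q η Dn) (hη : η ≤ η') (hC : C0 ≤ C0') :
    TW N p ν E e T Dt c0 a a' dl C0' ε q η' Dn where
  prob := h.prob
  p_nonneg := h.p_nonneg
  p_sum := h.p_sum
  eps_pos := h.eps_pos
  eps_le := h.eps_le.trans hη
  q_pos := h.q_pos
  e_pos := h.e_pos
  e_lo := h.e_lo
  e_hi := h.e_hi
  dens := h.dens
  core := h.core
  Dn_nonneg := h.Dn_nonneg
  densN := h.densN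
  bulk := fun l x hx => (h.bulk l x hx).trans
    (mul_le_mul_of_nonneg_right hη (mul_pos h.q_pos h.eps_pos).le)
  loc := fun l x hx => by
    refine (measure_mono ?_).trans ((h.loc l x hx).trans (ENNReal.ofReal_le_ofReal hη))
    intro v hv hcon
    exact hv ⟨hcon.1, hcon.2.trans hη⟩
  card := h.card
  pair := fun r hr => (h.pair r hr).trans (by
    have h1 := h.q_pos
    have h2 : 0 ≤ 1 + q * r ^ 2 := by positivity
    have h3 : 0 ≤ q * (N : ℝ) ^ 2 := by positivity
    exact mul_le_mul_of_nonneg_right (mul_le_mul_of_nonneg_right hC h3) h2)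

/-- **the slope in a trap world** -/
theorem tw_slope {u w : (Tor N → Λ) → Tor N → ℝ} {Dt c0 a a' dl C0 ε q η s κ κ' dF : ℝ}
    {Dn : Λ → ℝ} (h : TW N p ν E (fun l x => u l x + s * w l x) T Dt c0 a a' dl C0 ε q η Dn)
    (hDt : 0 < Dt) (hc0 : 0 < c0) (haa : a < a') (hdl : 0 < dl) (hC0 : 0 < C0) (hη0 : 0 < η)
    (hη1 : η ≤ 1) (hκ : 0 < κ) (hκ' : 0 ≤ κ') (hs : 0 < s) (hu : ∀ l x, 0 < u l x)
    (hw : ∀ l x, 0 ≤ w l x) (hub : ∀ l, ∀ x ∈ T l, u l x ≤ κ' * ε)
    (hfar : AvG p ν E (fun l x => u l x + s * w l x) (fun l W => ∑ x ∈ T l,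
      ∑ y ∈ (T l).filter (fun y => κ / Real.sqrt (q * ε) < (nrm (x - y) : ℝ)),
        (u l y + s * w l y) * KK (AT N) W x y) ≤ dF * nT p T) :
    (1 - κ' - 4 * η - 2 / (c0 * min 1 (a' - a)) * (Real.pi * η) -
      2 / (c0 * min 1 (a' - a)) * dF - 6 * Real.pi * Dt * C0 * (η + κ ^ 2)) * nT p T ≤
    s * LTd (AT N) p ν E T (fun l x => u l x + s * w l x) w := by
  classical
  haveI := h.prob
  have hA := AT_symm N
  have hε := h.eps_pos
  have hq := h.q_pos
  have hqε : 0 < q * ε := mul_pos hq hε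
  have hsq : 0 < Real.sqrt (q * ε) := Real.sqrt_pos.2 hqε
  have hsq2 : Real.sqrt (q * ε) ^ 2 = q * ε := Real.sq_sqrt hqε.le
  have hm : 0 < c0 * min 1 (a' - a) := mul_pos hc0 (lt_min one_pos (by linarith))
  have hN2 : (0 : ℝ) ≤ (N : ℝ) ^ 2 := by positivity
  have hnT0 : 0 ≤ nT p T := by
    rw [h.card]
    positivity
  set r := κ / Real.sqrt (q * ε) with hr
  have hr0 : 0 ≤ r := by positivity
  have hqr : q * r ^ 2 = κ ^ 2 / ε := by
    rw [hr, div_pow, hsq2]
    field_simp
  set B : Tor N → Finset (Tor N) := fun x =>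
    Finset.univ.filter fun y => (nrm (x - y) : ℝ) ≤ r with hB
  have hBc : ∀ l x, T l ∩ (B x)ᶜ = (T l).filter fun y => r < (nrm (x - y) : ℝ) := by
    intro l x
    ext y
    simp [hB]
  -- mass outside
  have hout := out_mass' (A := AT N) (E := E) (T := T) hA h.p_nonneg h.p_sum
    (e := fun l x => u l x + s * w l x) h.e_pos hε h.e_lo
    (eD := η * (q * ε)) (by positivity) h.Dn_nonneg h.densN (fun l x hx => by
      refine le_trans ?_ (h.bulk l x hx)
      have h1 := h.e_pos l x
      nlinarith)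
  -- pairs
  have hprs : ∑ l : Tor N → Λ, (∏ x, p (l x)) * ∑ x ∈ T l, (((B x ∩ T l).erase x).card : ℝ) ≤
      C0 * (q * (N : ℝ) ^ 2) * (1 + q * r ^ 2) := by
    refine le_trans (le_of_eq ?_) (h.pair r hr0)
    refine Finset.sum_congr rfl fun l _ => ?_
    congr 1
    rw [← Nat.cast_sum]
    congr 1
    rw [Finset.card_filter, Finset.sum_product]
    refine Finset.sum_congr rfl fun x hx => ?_
    rw [← Finset.card_filter]
    congr 1
    ext y
    simp only [hB, Finset.mem_erase, Finset.mem_inter, Finset.mem_filter, Finset.mem_univ,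
      true_and, ne_eq]
    constructor
    · rintro ⟨h1, h2, h3⟩
      exact ⟨h3, h2, fun h4 => h1 h4.symm⟩
    · rintro ⟨h1, h2, h3⟩
      exact ⟨fun h4 => h3 h4.symm, h2, h1⟩
  have hfar' : AvG p ν E (fun l x => u l x + s * w l x)
      (fun l W => ∑ x ∈ T l, ∑ z ∈ T l ∩ (B x)ᶜ, (-(W z).im) * KK (AT N) W x z) ≤
      dF * nT p T := by
    refine le_trans (le_of_eq ?_) hfar
    simp only [AvG, Ex, WV_imm, neg_neg, hBc]
  have hmain := LTd_ge' (A := AT N) (p := p) (ν := ν) (E := E) (u := u) (w := w) (s := s)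
    (T := T) (B := B) (κ := κ') (εZ := η) (c0 := c0 * min 1 (a' - a)) (wT := 3 * ε / s)
    (Dc := Dt) hA h.p_nonneg hs hu hw
    (fun l x hx => (hub l x hx).trans (mul_le_mul_of_nonneg_left (h.e_lo l x hx) hκ')) hκ'
    (fun l x hx => by
      rw [le_div_iff₀ hs, mul_comm]
      have h1 := h.e_hi l x hx
      have h2 := hu l x
      linarith)
    (by positivity) hDt.le h.dens hη0.le hm
    (fun l x hx => ⟨Off (AT N) E (fun x => u l x + s * w l x) a η x, measurableSet_Off a η x,
      h.loc l x hx, fun v hv => mm_line_ge hA (h.e_pos l) hc0.le haa hdl.le (h.core l x hx)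
        hη1 hv⟩) hout hfar' hprs
  refine le_trans ?_ hmain
  rw [cardTor, hqr]
  have hpi := Real.pi_pos
  have e1 : 1 / ε * (Real.pi * (η * (q * ε))) * (N : ℝ) ^ 2 = Real.pi * η * nT p T := by
    rw [h.card]
    field_simp
  have e2 : 2 * (s * (3 * ε / s) * (Real.pi * Dt)) *
      (C0 * (q * (N : ℝ) ^ 2) * (1 + κ ^ 2 / ε)) =
      6 * Real.pi * Dt * C0 * (ε + κ ^ 2) * nT p T := by
    rw [h.card]
    field_simp
    ring
  rw [e1, e2]
  have h1 : 6 * Real.pi * Dt * C0 * (ε + κ ^ 2) * nT p T ≤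
      6 * Real.pi * Dt * C0 * (η + κ ^ 2) * nT p T := by
    refine mul_le_mul_of_nonneg_right (mul_le_mul_of_nonneg_left ?_ (by positivity)) hnT0
    linarith [h.eps_le]
  linarith

/-- **the start**: the averaged log-width in a trap world, from the location alone -/
theorem tw_start {e : (Tor N → Λ) → Tor N → ℝ} {Dt c0 a a' dl C0 ε q η b : ℝ} {Dn : Λ → ℝ}
    (h : TW N p ν E e T Dt c0 a a' dl C0 ε q η Dn) (hη1 : η ≤ 1) (hε1 : ε ≤ 1) (hb : 0 < b)
    (hb1 : b ≤ 1) (hbe : ∀ l x, b ≤ e l x) :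
    LT (AT N) p ν E T e ≤ η * Real.log (19 / b) * nT p T := by
  haveI := h.prob
  have hA := AT_symm N
  have hη0 : 0 ≤ η := h.eps_pos.le.trans h.eps_le
  have hL : 0 ≤ Real.log (19 / b) := by
    refine Real.log_nonneg ?_
    rw [le_div_iff₀ hb]
    linarith
  have hone : ∀ l, ∀ x ∈ T l, ∫ v, Real.log (Sf (AT N) (WV E (e l) v) x)
      ∂(Measure.pi fun x => ν (l x)) ≤ η * Real.log (19 / b) := by
    intro l x hx
    set Of := Off (AT N) E (e l) a η x with hOf
    have hOm : MeasurableSet Of := measurableSet_Off a η x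
    have hpt : ∀ v, Real.log (Sf (AT N) (WV E (e l) v) x) ≤
        Of.indicator (fun _ => Real.log (19 / b)) v := by
      intro v
      have hS := Sf_pos hA (WV_neg (E := E) (h.e_pos l) v) x
      by_cases hv : v ∈ Of
      · rw [indicator_of_mem hv]
        refine Real.log_le_log hS ?_
        have h1 := H550.Sf_le_const hA hb (W := WV E (e l) v)
          (fun z => by rw [WV_imm]; linarith [hbe l z]) x (em := 3 * ε)
          (by rw [WV_imm, neg_neg]; exact h.e_hi l x hx) (AT_row x)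
        refine h1.trans ?_
        rw [le_div_iff₀ hb]
        have h2 : (3 * ε + 4 * (4 * (1 / b))) * b = 3 * ε * b + 16 := by
          field_simp
          ring
        rw [h2]
        have h3 : ε * b ≤ 1 * 1 := mul_le_mul hε1 hb1 hb.le zero_le_one
        linarith
      · rw [indicator_of_notMem hv]
        have h3 : |pc (AT N) E (e l) v x| ≤ a ∧ pw (AT N) E (e l) v x ≤ η := by
          by_contra hcon
          exact hv hcon
        rw [P365Z.pw_eq_Sf hA (h.e_pos l)] at h3
        exact Real.log_nonpos hS.le (h3.2.trans hη1)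
    have h4 := integral_mono (integrable_logSf hA (Measure.pi fun x => ν (l x)) E (h.e_pos l) x)
      ((integrable_const (Real.log (19 / b))).indicator hOm) hpt
    rw [integral_indicator hOm, setIntegral_const, smul_eq_mul] at h4
    refine h4.trans (mul_le_mul_of_nonneg_right ?_ hL)
    exact ENNReal.toReal_le_of_le_ofReal hη0 (h.loc l x hx)
  unfold LT AvG nT
  rw [Finset.mul_sum]
  refine Finset.sum_le_sum fun l _ => ?_
  have h5 : Ex (fun x => ν (l x)) E (e l) (fun W => ∑ x ∈ T l, Real.log (Sf (AT N) W x)) ≤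
      η * Real.log (19 / b) * ((T l).card : ℝ) := by
    unfold Ex
    rw [integral_finset_sum _ fun x _ => integrable_logSf hA _ E (h.e_pos l) x,
      mul_comm (η * Real.log (19 / b)), ← nsmul_eq_mul]
    exact Finset.sum_le_card_nsmul _ _ _ fun x hx => hone l x hx
  calc (∏ x, p (l x)) * _ ≤ (∏ x, p (l x)) * (η * Real.log (19 / b) * ((T l).card : ℝ)) :=
        mul_le_mul_of_nonneg_left h5 (Finset.prod_nonneg fun x _ => h.p_nonneg _)
    _ = _ := by ring

end tw

section loss

open P365Z.Loss327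

variable {D : V3} {N : ℕ} [NeZero N] {ρ : Measure ℝ}

/-- the loss on the traps, weighted by the profile -/
theorem loss_T (h : D.Ok ρ) (E : ℝ) {i : ℕ} (hi : i ≤ D.I + 1) {s : ℝ} (hs : 0 ≤ s)
    {T : (Tor N → D.Λ) → Finset (Tor N)}
    (hT : ∀ l, ∀ x ∈ T l, D.prof i s l x ≤ 2 * (s * D.Ws i l x)) :
    AvG D.p D.ν E (D.prof (N := N) i s) (fun l W => ∑ x ∈ T l, D.prof i s l x *
      ∑ k, Lz (AT N) W (phi N k) x) ≤ 2 * (s * LossS D N E i s) := by
  haveI := h.prob
  have hA := AT_symm N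
  have he : ∀ l x, 0 < D.prof (N := N) i s l x := fun l x => h.prof_pos hi hs l x
  have hLz : ∀ (W : Tor N → ℂ) (f : Tor N → ℝ) (x : Tor N), Lz (AT N) W f x =
      Ls (AT N) W f x := fun W f x => rfl
  unfold LossS LossG AvG
  rw [Finset.mul_sum, Finset.mul_sum]
  refine Finset.sum_le_sum fun l _ => ?_
  have hp : 0 ≤ ∏ x, D.p (l x) := Finset.prod_nonneg fun x _ => h.p_nonneg _
  have hi' : ∀ k x, Integrable (fun v => Ls (AT N) (WV E (D.prof i s l) v) (phi N k) x)
      (Measure.pi fun x => D.ν (l x)) := fun k x => integrable_Ls hA _ E (he l) (phi N k) x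
  have h0 : ∀ v k x, 0 ≤ Ls (AT N) (WV E (D.prof i s l) v) (phi N k) x := fun v k x =>
    Ls_nonneg hA (WV_neg (he l) v) (phi N k) x
  have h1 : Ex (fun x => D.ν (l x)) E (D.prof i s l) (fun W => ∑ x ∈ T l, D.prof i s l x *
      ∑ k, Lz (AT N) W (phi N k) x) ≤ 2 * (s * Ex (fun x => D.ν (l x)) E (D.prof i s l)
        (fun W => ∑ x, D.Ws i l x * ∑ k, Ls (AT N) W (phi N k) x)) := by
    unfold Ex
    simp only [hLz]
    rw [← integral_const_mul, ← integral_const_mul]
    refine integral_mono ?_ ?_ fun v => ?_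
    · exact integrable_finset_sum _ fun x _ => (integrable_finset_sum _ fun k _ =>
        hi' k x).const_mul _
    · exact ((integrable_finset_sum _ fun x _ => (integrable_finset_sum _ fun k _ =>
        hi' k x).const_mul _).const_mul _).const_mul _
    · simp only
      rw [Finset.mul_sum, Finset.mul_sum]
      have h2 : ∀ x, 0 ≤ ∑ k, Ls (AT N) (WV E (D.prof i s l) v) (phi N k) x :=
        fun x => Finset.sum_nonneg fun k _ => h0 v k x
      calc ∑ x ∈ T l, D.prof i s l x * ∑ k, Ls (AT N) (WV E (D.prof i s l) v) (phi N k) x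
          ≤ ∑ x ∈ T l, 2 * (s * (D.Ws i l x *
            ∑ k, Ls (AT N) (WV E (D.prof i s l) v) (phi N k) x)) := by
            refine Finset.sum_le_sum fun x hx => ?_
            have h3 := mul_le_mul_of_nonneg_right (hT l x hx) (h2 x)
            refine h3.trans (le_of_eq ?_)
            ring
        _ ≤ ∑ x, 2 * (s * (D.Ws i l x *
            ∑ k, Ls (AT N) (WV E (D.prof i s l) v) (phi N k) x)) :=
            Finset.sum_le_univ_sum_of_nonneg fun x => by
              have h4 := mul_nonneg (h.Ws_nonneg hi l x) (h2 x)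
              positivity
  calc (∏ x, D.p (l x)) * _ ≤ (∏ x, D.p (l x)) * _ := mul_le_mul_of_nonneg_left h1 hp
    _ = _ := by ring

end loss

end Vale.Agent.P365.Z0
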