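import Vale.Agent.P365.Stat.KickPt

/-!
# P365 Z0, Z3: kick lemmas on a wide window

Ports of `two_pt` and `three_pt_val` of `Stat/KickPt` to the window `|t + Re (1/g)| ≤ K bet g`,
with separation `h bet g`.
-/

set_option linter.all false

namespace P365Z0

open Matrix Complex MeasureTheory P365L P365L.Stat
open scoped ComplexConjugate ENNReal

/-- common constant of the kick lemmas -/
noncomputable def ck (K h : ℝ) : ℝ := 100 * K ^ 4 / h ^ 2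

theorem ck_pos {K h : ℝ} (hK : 1 ≤ K) (hh : 0 < h) : 0 < ck K h := by
  unfold ck
  have : 0 < K := by linarith
  positivity

theorem ss_sq_le {g : ℂ} {K : ℝ} (hK : 1 ≤ K) {t : ℝ} (ht : |t + (g⁻¹).re| ≤ K * bet g) :
    ‖ss g t‖ ^ 2 ≤ 2 * K ^ 2 * bet g ^ 2 := by
  have h2 : (t + (g⁻¹).re) ^ 2 ≤ (K * bet g) ^ 2 := by
    rw [← sq_abs]
    exact pow_le_pow_left₀ (abs_nonneg _) ht 2
  have h3 : (1 : ℝ) ≤ K ^ 2 := one_le_pow₀ hK
  rw [ss_normSq]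
  nlinarith [sq_nonneg (bet g), mul_le_mul_of_nonneg_right h3 (sq_nonneg (bet g))]

theorem ss_le {g : ℂ} (hg : 0 < g.im) {K : ℝ} (hK : 1 ≤ K) {t : ℝ}
    (ht : |t + (g⁻¹).re| ≤ K * bet g) : ‖ss g t‖ ≤ 3 / 2 * K * bet g := by
  have hb := bet_pos hg
  have hK0 : 0 < K := by linarith
  have h1 := ss_sq_le hK ht
  have h3 : ‖ss g t‖ ^ 2 ≤ (3 / 2 * K * bet g) ^ 2 := by
    have : (0 : ℝ) ≤ K ^ 2 * bet g ^ 2 := by positivity
    nlinarith
  exact le_of_sq_le_sq h3 (by positivity)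

/-- two points: an affine function of `θ` is not small at two separated points of the window -/
theorem two_pt {g : ℂ} (hg : 0 < g.im) {K h : ℝ} (hK : 1 ≤ K) (hh : 0 < h) (hh1 : h ≤ 1)
    {X Y : ℂ} {t1 t2 M : ℝ} (h1 : |t1 + (g⁻¹).re| ≤ K * bet g)
    (h2 : |t2 + (g⁻¹).re| ≤ K * bet g) (hsep : h * bet g ≤ |t1 - t2|)
    (hM1 : ‖X - th g t1 * Y‖ ≤ M) (hM2 : ‖X - th g t2 * Y‖ ≤ M) :
    ‖X‖ ≤ ck K h * M ∧ ‖Y‖ / g.im ≤ ck K h * M := by
  have hb := bet_pos hg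
  have hK0 : 0 < K := by linarith
  have hM : 0 ≤ M := (norm_nonneg _).trans hM1
  set P := X - g⁻¹ * Y with hP
  set N := g⁻¹ ^ 2 * Y with hN
  have key : ∀ t : ℝ, ss g t * (X - th g t * Y) = P * ss g t + N := by
    intro t
    rw [th_eq hg, hP, hN]
    have h0 : g⁻¹ ^ 2 / ss g t * ss g t = g⁻¹ ^ 2 := div_mul_cancel₀ _ (ss_ne hg t)
    linear_combination Y * h0
  have e1 := key t1
  have e2 := key t2
  have e3 : P * ((t1 - t2 : ℝ) : ℂ) =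
      ss g t1 * (X - th g t1 * Y) - ss g t2 * (X - th g t2 * Y) := by
    rw [e1, e2]
    have : ((t1 - t2 : ℝ) : ℂ) = ss g t1 - ss g t2 := by
      rw [ss, ss]; push_cast; ring
    rw [this]; ring
  have n1 : ‖ss g t1 * (X - th g t1 * Y)‖ ≤ 3 / 2 * K * bet g * M := by
    rw [norm_mul]
    exact mul_le_mul (ss_le hg hK h1) hM1 (norm_nonneg _) (by positivity)
  have n2 : ‖ss g t2 * (X - th g t2 * Y)‖ ≤ 3 / 2 * K * bet g * M := by
    rw [norm_mul]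
    exact mul_le_mul (ss_le hg hK h2) hM2 (norm_nonneg _) (by positivity)
  -- `‖P‖ ≤ 3 K M / h`
  have n3 : ‖P‖ * h ≤ 3 * K * M := by
    have h4 : ‖P‖ * |t1 - t2| ≤ 3 * K * bet g * M := by
      have h5 : ‖P * ((t1 - t2 : ℝ) : ℂ)‖ ≤ 3 * K * bet g * M := by
        rw [e3]
        refine (norm_sub_le _ _).trans ?_
        linarith
      rwa [norm_mul, Complex.norm_real, Real.norm_eq_abs] at h5
    have h6 : ‖P‖ * (h * bet g) ≤ 3 * K * bet g * M :=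
      (mul_le_mul_of_nonneg_left hsep (norm_nonneg _)).trans h4
    have h7 : bet g * (‖P‖ * h) ≤ bet g * (3 * K * M) := by nlinarith
    exact le_of_mul_le_mul_left h7 hb
  have n3' : ‖P‖ ≤ 3 * K * M / h := by
    rw [le_div_iff₀ hh]; exact n3
  have hA : K ≤ K ^ 2 / h := by
    rw [le_div_iff₀ hh]; nlinarith
  have n4 : ‖N‖ ≤ 6 * (K ^ 2 / h) * bet g * M := by
    have h8 : N = ss g t1 * (X - th g t1 * Y) - P * ss g t1 := by rw [e1]; ring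
    rw [h8]
    refine (norm_sub_le _ _).trans ?_
    have h9 : ‖P * ss g t1‖ ≤ 3 * K * M / h * (3 / 2 * K * bet g) := by
      rw [norm_mul]
      exact mul_le_mul n3' (ss_le hg hK h1) (norm_nonneg _) (by positivity)
    have h10 : 3 * K * M / h * (3 / 2 * K * bet g) = 9 / 2 * (K ^ 2 / h) * bet g * M := by
      field_simp
      ring
    rw [h10] at h9
    have h11 : K * (bet g * M) ≤ K ^ 2 / h * (bet g * M) :=
      mul_le_mul_of_nonneg_right hA (by positivity)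
    linarith
  have hne : g ≠ 0 := by rintro rfl; simp at hg
  have hgn : 0 < ‖g‖ := norm_pos_iff.2 hne
  have n5 : ‖Y‖ / g.im ≤ 6 * (K ^ 2 / h) * M := by
    rw [im_eq_bet hg, div_le_iff₀ (by positivity)]
    have h10 : ‖N‖ * ‖g‖ ^ 2 = ‖Y‖ := by
      rw [hN, norm_mul, norm_pow, norm_inv]
      field_simp
    rw [← h10]
    calc ‖N‖ * ‖g‖ ^ 2 ≤ (6 * (K ^ 2 / h) * bet g * M) * ‖g‖ ^ 2 :=
          mul_le_mul_of_nonneg_right n4 (by positivity)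
      _ = 6 * (K ^ 2 / h) * M * (bet g * ‖g‖ ^ 2) := by ring
  have hck : K ^ 2 / h ≤ K ^ 4 / h ^ 2 := by
    rw [div_le_div_iff₀ hh (by positivity)]
    have a1 : (1 : ℝ) ≤ K ^ 2 := one_le_pow₀ hK
    have a2 : K ^ 2 * h ^ 2 ≤ K ^ 2 * h :=
      mul_le_mul_of_nonneg_left (by nlinarith) (sq_nonneg K)
    have a3 : K ^ 2 * h ≤ K ^ 4 * h :=
      mul_le_mul_of_nonneg_right (pow_le_pow_right₀ hK (by norm_num)) hh.le
    linarith
  have hck2 : 12 * (K ^ 2 / h) * M ≤ ck K h * M := by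
    refine mul_le_mul_of_nonneg_right ?_ hM
    have e : ck K h = 100 * (K ^ 4 / h ^ 2) := by unfold ck; ring
    rw [e]
    have : 0 ≤ K ^ 2 / h := by positivity
    linarith
  have hpos : 0 ≤ K ^ 2 / h * M := by positivity
  refine ⟨?_, n5.trans (by linarith)⟩
  have h11 : X = P + g⁻¹ * Y := by rw [hP]; ring
  have h12 : ‖g⁻¹ * Y‖ ≤ 6 * (K ^ 2 / h) * M := by
    rw [norm_mul, norm_inv, inv_mul_eq_div]
    refine le_trans ?_ n5
    exact div_le_div_of_nonneg_left (norm_nonneg _) hg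
      ((le_abs_self _).trans (Complex.abs_im_le_norm g))
  have h13 : ‖P‖ ≤ 3 * (K ^ 2 / h) * M := by
    refine n3'.trans ?_
    have : K * M / h ≤ K ^ 2 / h * M := by
      rw [div_mul_eq_mul_div]
      exact div_le_div_of_nonneg_right
        (mul_le_mul_of_nonneg_right (by nlinarith : K ≤ K ^ 2) hM) hh.le
    calc 3 * K * M / h = 3 * (K * M / h) := by ring
      _ ≤ 3 * (K ^ 2 / h * M) := by linarith
      _ = 3 * (K ^ 2 / h) * M := by ring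
  calc ‖X‖ ≤ ‖P‖ + ‖g⁻¹ * Y‖ := by rw [h11]; simpa using norm_add_le P (g⁻¹ * Y)
    _ ≤ 12 * (K ^ 2 / h) * M := by linarith
    _ ≤ ck K h * M := hck2

/-- quadratic polynomials: coefficients are controlled by three points of `[-b, b]` with
separation `σ` -/
theorem three_gen {b σ : ℝ} (hb : 0 < b) (hσ : 0 < σ) {r0 r1 r2 : ℂ} {x1 x2 x3 : ℝ} {S : ℝ}
    (h1 : |x1| ≤ b) (h2 : |x2| ≤ b) (h3 : |x3| ≤ b)
    (h12 : σ ≤ |x1 - x2|) (h13 : σ ≤ |x1 - x3|) (h23 : σ ≤ |x2 - x3|)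
    (b1 : ‖r0 + r1 * x1 + r2 * (x1 : ℂ) ^ 2‖ ≤ S) (b2 : ‖r0 + r1 * x2 + r2 * (x2 : ℂ) ^ 2‖ ≤ S)
    (b3 : ‖r0 + r1 * x3 + r2 * (x3 : ℂ) ^ 2‖ ≤ S) :
    ‖r2‖ ≤ 3 * (S / σ ^ 2) ∧ ‖r1‖ ≤ 6 * b * (S / σ ^ 2) ∧ ‖r0‖ ≤ 3 * b ^ 2 * (S / σ ^ 2) := by
  have hS : 0 ≤ S := (norm_nonneg _).trans b1
  set R1 := r0 + r1 * x1 + r2 * (x1 : ℂ) ^ 2 with hR1
  set R2 := r0 + r1 * x2 + r2 * (x2 : ℂ) ^ 2 with hR2
  set R3 := r0 + r1 * x3 + r2 * (x3 : ℂ) ^ 2 with hR3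
  have n12 : x1 - x2 ≠ 0 := abs_pos.1 (hσ.trans_le h12)
  have n13 : x1 - x3 ≠ 0 := abs_pos.1 (hσ.trans_le h13)
  have n23 : x2 - x3 ≠ 0 := abs_pos.1 (hσ.trans_le h23)
  have c12 : ((x1 : ℂ) - x2) ≠ 0 := by exact_mod_cast n12
  have c13 : ((x1 : ℂ) - x3) ≠ 0 := by exact_mod_cast n13
  have c23 : ((x2 : ℂ) - x3) ≠ 0 := by exact_mod_cast n23
  set D1 : ℂ := (((x1 - x2) * (x1 - x3) : ℝ) : ℂ) with hD1
  set D2 : ℂ := (((x2 - x1) * (x2 - x3) : ℝ) : ℂ) with hD2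
  set D3 : ℂ := (((x3 - x1) * (x3 - x2) : ℝ) : ℂ) with hD3
  set κ := S / σ ^ 2 with hκ
  have hκ0 : 0 ≤ κ := by positivity
  have dd : ∀ (R : ℂ) (u v : ℝ), ‖R‖ ≤ S → σ ≤ |u| → σ ≤ |v| →
      ‖R / ((u * v : ℝ) : ℂ)‖ ≤ κ := by
    intro R u v hR hu hv
    rw [norm_div, Complex.norm_real, Real.norm_eq_abs, abs_mul, hκ]
    have : σ * σ ≤ |u| * |v| := mul_le_mul hu hv hσ.le (abs_nonneg _)
    rw [div_le_div_iff₀ (mul_pos (hσ.trans_le hu) (hσ.trans_le hv)) (by positivity)]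
    calc ‖R‖ * σ ^ 2 ≤ S * σ ^ 2 := mul_le_mul_of_nonneg_right hR (by positivity)
      _ = S * (σ * σ) := by ring
      _ ≤ S * (|u| * |v|) := mul_le_mul_of_nonneg_left this hS
  have d1 : ‖R1 / D1‖ ≤ κ := dd _ _ _ b1 h12 h13
  have d2 : ‖R2 / D2‖ ≤ κ := dd _ _ _ b2 (by rwa [abs_sub_comm] at h12) h23
  have d3 : ‖R3 / D3‖ ≤ κ :=
    dd _ _ _ b3 (by rwa [abs_sub_comm] at h13) (by rwa [abs_sub_comm] at h23)
  have c21 : ((x2 : ℂ) - x1) ≠ 0 := by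
    intro h; exact c12 (by linear_combination -h)
  have c31 : ((x3 : ℂ) - x1) ≠ 0 := by
    intro h; exact c13 (by linear_combination -h)
  have c32 : ((x3 : ℂ) - x2) ≠ 0 := by
    intro h; exact c23 (by linear_combination -h)
  have e2 : r2 = R1 / D1 + R2 / D2 + R3 / D3 := by
    rw [hR1, hR2, hR3, hD1, hD2, hD3]
    push_cast
    field_simp
    ring
  have e1 : r1 = -(R1 / D1 * ((x2 + x3 : ℝ) : ℂ) + R2 / D2 * ((x1 + x3 : ℝ) : ℂ) +
      R3 / D3 * ((x1 + x2 : ℝ) : ℂ)) := by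
    rw [hR1, hR2, hR3, hD1, hD2, hD3]
    push_cast
    field_simp
    ring
  have e0 : r0 = R1 / D1 * ((x2 * x3 : ℝ) : ℂ) + R2 / D2 * ((x1 * x3 : ℝ) : ℂ) +
      R3 / D3 * ((x1 * x2 : ℝ) : ℂ) := by
    rw [hR1, hR2, hR3, hD1, hD2, hD3]
    push_cast
    field_simp
    ring
  have term : ∀ (z : ℂ) (r c : ℝ), ‖z‖ ≤ κ → |r| ≤ c → ‖z * (r : ℂ)‖ ≤ κ * c := by
    intro z r c hz hr
    rw [norm_mul, Complex.norm_real, Real.norm_eq_abs]
    exact mul_le_mul hz hr (abs_nonneg _) hκ0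
  have a23 : |x2 + x3| ≤ 2 * b := (abs_add_le _ _).trans (by linarith)
  have a13 : |x1 + x3| ≤ 2 * b := (abs_add_le _ _).trans (by linarith)
  have a12 : |x1 + x2| ≤ 2 * b := (abs_add_le _ _).trans (by linarith)
  have m23 : |x2 * x3| ≤ b ^ 2 := by
    rw [abs_mul, sq]; exact mul_le_mul h2 h3 (abs_nonneg _) hb.le
  have m13 : |x1 * x3| ≤ b ^ 2 := by
    rw [abs_mul, sq]; exact mul_le_mul h1 h3 (abs_nonneg _) hb.le
  have m12 : |x1 * x2| ≤ b ^ 2 := by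
    rw [abs_mul, sq]; exact mul_le_mul h1 h2 (abs_nonneg _) hb.le
  refine ⟨?_, ?_, ?_⟩
  · rw [e2]
    refine (norm_add₃_le).trans ?_
    linarith
  · rw [e1, norm_neg]
    refine (norm_add₃_le).trans ?_
    linarith [term _ _ _ d1 a23, term _ _ _ d2 a13, term _ _ _ d3 a12]
  · rw [e0]
    refine (norm_add₃_le).trans ?_
    linarith [term _ _ _ d1 m23, term _ _ _ d2 m13, term _ _ _ d3 m12]

/-- value at `t = 0` of `T - θ X - conj θ Y` from three separated points of the window -/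
theorem three_val {g : ℂ} (hg : 0 < g.im) {K h : ℝ} (hK : 1 ≤ K) (hh : 0 < h) (hh1 : h ≤ 1)
    {T X Y : ℂ} {t1 t2 t3 M : ℝ} (h1 : |t1 + (g⁻¹).re| ≤ K * bet g)
    (h2 : |t2 + (g⁻¹).re| ≤ K * bet g) (h3 : |t3 + (g⁻¹).re| ≤ K * bet g)
    (h12 : h * bet g ≤ |t1 - t2|) (h13 : h * bet g ≤ |t1 - t3|) (h23 : h * bet g ≤ |t2 - t3|)
    (b1 : ‖T - th g t1 * X - conj (th g t1) * Y‖ ≤ M)
    (b2 : ‖T - th g t2 * X - conj (th g t2) * Y‖ ≤ M)
    (b3 : ‖T - th g t3 * X - conj (th g t3) * Y‖ ≤ M) :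
    ‖T‖ ≤ ck K h * M := by
  have hb := bet_pos hg
  have hK0 : 0 < K := by linarith
  have hM : 0 ≤ M := (norm_nonneg _).trans b1
  set al : ℝ := (g⁻¹).re with hal
  set β : ℝ := bet g with hβ
  set c : ℂ := T - g⁻¹ * X - conj g⁻¹ * Y with hc
  set N : ℂ := g⁻¹ ^ 2 * X with hN
  set N' : ℂ := conj g⁻¹ ^ 2 * Y with hN'
  set r0 : ℂ := c * β ^ 2 + I * β * (N - N') with hr0
  set r1 : ℂ := N + N' with hr1
  have hs : ∀ t : ℝ, ss g t = ((t + al : ℝ) : ℂ) - I * β := by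
    intro t
    apply Complex.ext
    · rw [ss_re]; simp [hal]
    · rw [ss_im]; simp [hβ]
  have hsc : ∀ t : ℝ, conj (ss g t) = ((t + al : ℝ) : ℂ) + I * β := by
    intro t
    rw [hs t]
    simp only [map_sub, map_mul, Complex.conj_ofReal, Complex.conj_I]
    ring
  have key : ∀ t : ℝ, ss g t * conj (ss g t) * (T - th g t * X - conj (th g t) * Y) =
      r0 + r1 * ((t + al : ℝ) : ℂ) + c * ((t + al : ℝ) : ℂ) ^ 2 := by
    intro t
    have k0 : g⁻¹ ^ 2 / ss g t * ss g t = g⁻¹ ^ 2 := div_mul_cancel₀ _ (ss_ne hg t)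
    have k1 : conj g⁻¹ ^ 2 / conj (ss g t) * conj (ss g t) = conj g⁻¹ ^ 2 := by
      refine div_mul_cancel₀ _ ?_
      intro h
      exact ss_ne hg t ((map_eq_zero _).1 h)
    rw [th_eq hg, map_sub, map_div₀, map_pow]
    have e1 : ss g t * conj (ss g t) * (T - (g⁻¹ - g⁻¹ ^ 2 / ss g t) * X -
        (conj g⁻¹ - conj g⁻¹ ^ 2 / conj (ss g t)) * Y) =
        ss g t * conj (ss g t) * c + N * conj (ss g t) + N' * ss g t := by
      rw [hc, hN, hN']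
      linear_combination (conj (ss g t) * X) * k0 + (ss g t * Y) * k1
    rw [e1, hsc t, hs t, hr0, hr1]
    linear_combination (-(c * (β : ℂ) ^ 2)) * Complex.I_mul_I
  have nrm : ∀ t : ℝ, ‖ss g t * conj (ss g t)‖ = ‖ss g t‖ ^ 2 := by
    intro t
    rw [norm_mul, RCLike.norm_conj, sq]
  have bd : ∀ t : ℝ, |t + al| ≤ K * β → ‖T - th g t * X - conj (th g t) * Y‖ ≤ M →
      ‖r0 + r1 * ((t + al : ℝ) : ℂ) + c * ((t + al : ℝ) : ℂ) ^ 2‖ ≤
        2 * K ^ 2 * β ^ 2 * M := by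
    intro t ht hM1
    rw [← key t, norm_mul, nrm t]
    exact mul_le_mul (ss_sq_le hK ht) hM1 (norm_nonneg _) (by positivity)
  obtain ⟨q2, q1, q0⟩ := three_gen (b := K * β) (σ := h * β) (by positivity) (by positivity)
    (x1 := t1 + al) (x2 := t2 + al) (x3 := t3 + al) h1 h2 h3
    (by rwa [add_sub_add_right_eq_sub]) (by rwa [add_sub_add_right_eq_sub])
    (by rwa [add_sub_add_right_eq_sub]) (bd t1 h1 b1) (bd t2 h2 b2) (bd t3 h3 b3)
  have hSσ : 2 * K ^ 2 * β ^ 2 * M / (h * β) ^ 2 = 2 * K ^ 2 * M / h ^ 2 := by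
    field_simp
  rw [hSσ] at q2 q1 q0
  set J : ℝ := K ^ 4 * M / h ^ 2 with hJ
  have hJ0 : 0 ≤ J := by positivity
  have hK1 : (1 : ℝ) ≤ K ^ 2 := one_le_pow₀ hK
  have k24 : K ^ 2 ≤ K ^ 4 := pow_le_pow_right₀ hK (by norm_num)
  have k34 : K ^ 3 ≤ K ^ 4 := pow_le_pow_right₀ hK (by norm_num)
  have hMh : 0 ≤ M / h ^ 2 := by positivity
  have p2 : ‖c‖ ≤ 6 * J := by
    calc ‖c‖ ≤ 3 * (2 * K ^ 2 * M / h ^ 2) := q2
      _ = 6 * (K ^ 2 * (M / h ^ 2)) := by ring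
      _ ≤ 6 * (K ^ 4 * (M / h ^ 2)) := by
          have := mul_le_mul_of_nonneg_right k24 hMh
          linarith
      _ = 6 * J := by rw [hJ]; ring
  have p1 : ‖r1‖ ≤ 12 * β * J := by
    calc ‖r1‖ ≤ 6 * (K * β) * (2 * K ^ 2 * M / h ^ 2) := q1
      _ = 12 * β * (K ^ 3 * (M / h ^ 2)) := by ring
      _ ≤ 12 * β * (K ^ 4 * (M / h ^ 2)) :=
          mul_le_mul_of_nonneg_left (mul_le_mul_of_nonneg_right k34 hMh) (by positivity)
      _ = 12 * β * J := by rw [hJ]; ring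
  have p0 : ‖r0‖ ≤ 6 * β ^ 2 * J := by
    calc ‖r0‖ ≤ 3 * (K * β) ^ 2 * (2 * K ^ 2 * M / h ^ 2) := q0
      _ = 6 * β ^ 2 * J := by rw [hJ]; ring
  have h0 := key 0
  have t0 : th g ((0 : ℝ) : ℂ) = 0 := by rw [th]; simp
  rw [t0] at h0
  simp only [zero_mul, map_zero, sub_zero, zero_add] at h0
  have hx : 2 * (β * |al|) ≤ al ^ 2 + β ^ 2 := by
    have h1 := sq_abs al
    nlinarith [sq_nonneg (|al| - β)]
  have h5 : ‖ss g 0‖ ^ 2 * ‖T‖ ≤ 12 * J * (al ^ 2 + β ^ 2) := by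
    rw [← nrm 0, ← norm_mul, h0]
    refine (norm_add₃_le).trans ?_
    rw [norm_mul, norm_mul, norm_pow, Complex.norm_real, Real.norm_eq_abs, sq_abs]
    calc ‖r0‖ + ‖r1‖ * |al| + ‖c‖ * al ^ 2
        ≤ 6 * β ^ 2 * J + 12 * β * J * |al| + 6 * J * al ^ 2 := by
          have := mul_le_mul_of_nonneg_right p1 (abs_nonneg al)
          have := mul_le_mul_of_nonneg_right p2 (sq_nonneg al)
          linarith
      _ = 6 * J * (al ^ 2 + β ^ 2) + 6 * J * (2 * (β * |al|)) := by ring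
      _ ≤ 6 * J * (al ^ 2 + β ^ 2) + 6 * J * (al ^ 2 + β ^ 2) := by
          have := mul_le_mul_of_nonneg_left hx (show (0 : ℝ) ≤ 6 * J by positivity)
          linarith
      _ = 12 * J * (al ^ 2 + β ^ 2) := by ring
  have h6 : ‖ss g 0‖ ^ 2 = al ^ 2 + β ^ 2 := by
    rw [ss_normSq, zero_add]
  rw [h6] at h5
  have h7 : 0 < al ^ 2 + β ^ 2 := by positivity
  have h8 : (al ^ 2 + β ^ 2) * ‖T‖ ≤ (al ^ 2 + β ^ 2) * (12 * J) := by linarith
  have h9 : ‖T‖ ≤ 12 * J := le_of_mul_le_mul_left h8 h7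
  calc ‖T‖ ≤ 12 * J := h9
    _ ≤ 100 * J := by linarith
    _ = ck K h * M := by rw [hJ, ck]; ring

end P365Z0
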