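import Vale.Agent.P365.ISL.RowT77

/-!
# P365-T1.5, Z6: location of the pole `sg` at the centre of a cell
-/

set_option linter.all false

namespace P365T1.Z0.Loc

open P365L P365O P365T1 P365T1.Link Vale.Agent.P365.C937 Vale.Agent.P365.J376 P365SH P365T1.H417
open P365T1.ISL Matrix Complex MeasureTheory
open scoped ENNReal

section general

variable {ι : Type*} [Fintype ι] [DecidableEq ι] {A : Matrix ι ι ℝ} {W : ι → ℂ}

/-- the inner Green function is the Green function of the graph cut at `y` -/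
theorem Gi_eq_cut (hA : A.IsSymm) (hW : ∀ x, (W x).im < 0) {y a b : ι} (ha : a ≠ y) (hb : b ≠ y) :
    Gi A W y a b = Gr (mk A ({y}ᶜ : Finset ι)) W a b := by
  have key : ∀ n ∈ ({y}ᶜ : Finset ι), ∑ k ∈ ({y}ᶜ : Finset ι), (A n k : ℂ) * Gi A W y k b +
      W n * Gi A W y n b = if n = b then 1 else 0 := by
    intro n hn
    have hny : n ≠ y := by simpa using hn
    have h1 : ∑ k ∈ ({y}ᶜ : Finset ι), (A n k : ℂ) * Gi A W y k b =
        ∑ k, (A n k : ℂ) * Gi A W y k b := by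
      refine Finset.sum_subset (Finset.subset_univ _) fun k _ hk => ?_
      have hky : k = y := by simpa using hk
      rw [hky, Gi_left hA hW, mul_zero]
    have h2 := Kmat_mulVec_Gr hA hW b n
    have h3 := Kmat_mulVec_Gr hA hW y n
    rw [Kmat_mulVec] at h2 h3
    rw [if_neg hny] at h3
    have h4 : ∑ k, (A n k : ℂ) * Gi A W y k b = ∑ k, (A n k : ℂ) * Gr A W k b -
        (∑ k, (A n k : ℂ) * Gr A W k y) * (Gr A W y b / Gr A W y y) := by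
      rw [Finset.sum_mul, ← Finset.sum_sub_distrib]
      refine Finset.sum_congr rfl fun k _ => ?_
      rw [Gi, gw]
      ring
    rw [h1, h4, Gi, gw, ← h2]
    linear_combination -(Gr A W y b / Gr A W y y) * h3
  have h := GB_unique hA hW (Lc := ({y}ᶜ : Finset ι)) (v := fun k => Gi A W y k b)
    (r := fun n => if n = b then 1 else 0) key (n := a) (by simpa using ha)
  rw [h]
  have hb' : b ∈ ({y}ᶜ : Finset ι) := by simpa using hb
  simp only [mul_ite, mul_one, mul_zero, Finset.sum_ite_eq', if_pos hb', GB]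

/-- **the pole at the centre**: exact formula through the ports -/
theorem sg_eq {y : ι} {Lc S : Finset ι} (hB : CBox A y Lc S) (hA : A.IsSymm)
    (hW : ∀ x, (W x).im < 0) :
    sg A W y = tt A W Lc y y +
      ∑ z ∈ S, ∑ z' ∈ S, tt A W Lc y z * tt A W Lc y z' * Gi A W y z' z := by
  have hG := Gr_self_ne_zero hA hW y
  have h1 := hB.row hA hW (x := y) hB.yL
  rw [if_pos rfl] at h1
  have h2 : (Gr A W y y)⁻¹ = W y - tt A W Lc y y - ∑ z ∈ S, tt A W Lc y z * gw A W y z := by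
    have h3 : ∑ z ∈ S, tt A W Lc y z * gw A W y z =
        (∑ z ∈ S, tt A W Lc y z * Gr A W z y) * (Gr A W y y)⁻¹ := by
      rw [Finset.sum_mul]
      refine Finset.sum_congr rfl fun z _ => ?_
      rw [gw, div_eq_mul_inv]
      ring
    rw [h3]
    field_simp
    linear_combination -h1
  have h3 : ∀ z ∈ S, gw A W y z = ∑ z' ∈ S, tt A W Lc y z' * Gi A W y z' z := by
    intro z hz
    have hzy : z ≠ y := fun h => hB.yS (h ▸ hz)
    have h4 := hB.row hA hW (x := z) (fun h => Finset.disjoint_left.1 hB.LS h hz)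
    rw [if_neg hzy] at h4
    have h5 : ∑ z' ∈ S, tt A W Lc y z' * Gr A W z' z =
        ∑ z' ∈ S, tt A W Lc y z' * Gi A W y z' z +
          (∑ z' ∈ S, tt A W Lc y z' * gw A W y z') * Gr A W y z := by
      rw [Finset.sum_mul, ← Finset.sum_add_distrib]
      refine Finset.sum_congr rfl fun z' _ => ?_
      rw [Gi]
      ring
    rw [h5] at h4
    rw [gw, div_eq_mul_inv, h2, Gr_symm hA z y]
    linear_combination h4
  rw [sg, h2]
  have h4 : ∑ z ∈ S, tt A W Lc y z * gw A W y z =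
      ∑ z ∈ S, ∑ z' ∈ S, tt A W Lc y z * tt A W Lc y z' * Gi A W y z' z := by
    refine Finset.sum_congr rfl fun z hz => ?_
    rw [h3 z hz, Finset.mul_sum]
    exact Finset.sum_congr rfl fun z' _ => by ring
  rw [← h4]
  ring

theorem sg_close {y : ι} {Lc S : Finset ι} (hB : CBox A y Lc S) (hA : A.IsSymm)
    (hW : ∀ x, (W x).im < 0) {τ δ t : ℝ} {θ : ℂ} (hτ : 0 ≤ τ) (ht : 0 ≤ t)
    (h1 : ∀ z ∈ S, ‖tt A W Lc y z‖ ≤ τ) (h2 : ‖tt A W Lc y y - θ‖ ≤ δ)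
    (h3 : ∀ z ∈ S, ∀ z' ∈ S, ‖Gr (mk A ({y}ᶜ : Finset ι)) W z' z‖ ≤ t) :
    ‖sg A W y - θ‖ ≤ δ + τ ^ 2 * (S.card : ℝ) ^ 2 * t := by
  rw [sg_eq hB hA hW]
  have h4 : ‖∑ z ∈ S, ∑ z' ∈ S, tt A W Lc y z * tt A W Lc y z' * Gi A W y z' z‖ ≤
      ∑ z ∈ S, ∑ z' ∈ S, τ ^ 2 * t := by
    refine (norm_sum_le _ _).trans (Finset.sum_le_sum fun z hz => ?_)
    refine (norm_sum_le _ _).trans (Finset.sum_le_sum fun z' hz' => ?_)
    have hzy : z ≠ y := fun h => hB.yS (h ▸ hz)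
    have hzy' : z' ≠ y := fun h => hB.yS (h ▸ hz')
    rw [Gi_eq_cut hA hW hzy' hzy, norm_mul, norm_mul, pow_two]
    have a1 := h1 z hz
    have a2 := h1 z' hz'
    have a3 := h3 z hz z' hz'
    gcongr
  have h5 : ∑ z ∈ S, ∑ z' ∈ S, τ ^ 2 * t = τ ^ 2 * (S.card : ℝ) ^ 2 * t := by
    simp only [Finset.sum_const, nsmul_eq_mul]
    ring
  rw [h5] at h4
  have h6 : tt A W Lc y y + ∑ z ∈ S, ∑ z' ∈ S, tt A W Lc y z * tt A W Lc y z' * Gi A W y z' z - θ =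
      (tt A W Lc y y - θ) +
        ∑ z ∈ S, ∑ z' ∈ S, tt A W Lc y z * tt A W Lc y z' * Gi A W y z' z := by ring
  rw [h6]
  exact (norm_add_le _ _).trans (add_le_add h2 h4)

/-- weak-`L¹` bound of the entries between the ports `S` -/
def WeakG (ν : ι → Measure ℝ) (E : ℝ) (e : ι → ℝ) (S : Finset ι) (B : Matrix ι ι ℝ) (K : ℝ) :
    Prop :=
  ∀ z ∈ S, ∀ z' ∈ S, ∀ t : ℝ, 0 < t →
    Measure.pi ν {v | t ≤ ‖Gr B (WV E e v) z z'‖} ≤ ENNReal.ofReal (K / t)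

/-- **location of the pole in probability** -/
theorem loc_prob (hA : A.IsSymm) {ν : ι → Measure ℝ} [∀ x, IsProbabilityMeasure (ν x)]
    {E : ℝ} {e : ι → ℝ} (he : ∀ x, 0 < e x) {y : ι} {Lc S : Finset ι} (hB : CBox A y Lc S)
    {K : ℝ} (hK : 0 ≤ K) (hweak : WeakG ν E e S (mk A ({y}ᶜ : Finset ι)) K)
    {τ δ : ℝ} {θ : ℂ} (hτ : 0 ≤ τ)
    (hcell : ∀ᵐ v ∂(Measure.pi ν), (∀ z ∈ S, ‖tt A (WV E e v) Lc y z‖ ≤ τ) ∧
      ‖tt A (WV E e v) Lc y y - θ‖ ≤ δ) {t : ℝ} (ht : 0 < t) :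
    Measure.pi ν {v | δ + τ ^ 2 * (S.card : ℝ) ^ 2 * t < ‖sg A (WV E e v) y - θ‖} ≤
      ENNReal.ofReal (K * (S.card : ℝ) ^ 2 / t) := by
  set B : Matrix ι ι ℝ := mk A ({y}ᶜ : Finset ι) with hBdef
  have h1 : {v | δ + τ ^ 2 * (S.card : ℝ) ^ 2 * t < ‖sg A (WV E e v) y - θ‖} ≤ᵐ[Measure.pi ν]
      ⋃ p ∈ S ×ˢ S, {v | t ≤ ‖Gr B (WV E e v) p.1 p.2‖} := by
    filter_upwards [hcell] with v hv hlt
    by_contra hcon
    refine not_le.2 hlt (sg_close hB hA (WV_neg he v) hτ ht.le hv.1 hv.2 fun z hz z' hz' => ?_)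
    by_contra h
    refine hcon ?_
    show v ∈ ⋃ p ∈ S ×ˢ S, {v | t ≤ ‖Gr B (WV E e v) p.1 p.2‖}
    rw [Set.mem_iUnion₂]
    exact ⟨(z', z), Finset.mem_product.2 ⟨hz', hz⟩, (not_le.1 h).le⟩
  refine (measure_mono_ae h1).trans ((measure_biUnion_finset_le _ _).trans ?_)
  have h2 : ∀ p ∈ S ×ˢ S, Measure.pi ν {v | t ≤ ‖Gr B (WV E e v) p.1 p.2‖} ≤
      ENNReal.ofReal (K / t) := fun p hp =>
    hweak p.1 (Finset.mem_product.1 hp).1 p.2 (Finset.mem_product.1 hp).2 t ht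
  refine (Finset.sum_le_sum h2).trans (le_of_eq ?_)
  rw [Finset.sum_const, nsmul_eq_mul, Finset.card_product, ← ENNReal.ofReal_natCast,
    ← ENNReal.ofReal_mul (Nat.cast_nonneg _)]
  congr 1
  push_cast
  ring

end general

section cell

variable {D : V3} {ρ : Measure ℝ} {N : ℕ} [NeZero N] {i r : ℕ} {c : Loc} {y : Xr r}
  {Vs : ℤ × ℤ → ℝ} {w E lam' κ : ℝ} {ms R0 : ℕ}

/-- couplings and self-energy of the box of a matched cell, for almost every potential and every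
positive profile which is at most `e1` on the box -/
theorem cell_ae (hC : CellIn D i r c (y : ℤ × ℤ) Vs w) (h : D.Ok ρ)
    (hmN : D.m i ∣ N) (hG : CellGood E lam' κ ms R0 r Vs y) (hw : 0 ≤ w) {e1 : ℝ} (he1 : 0 ≤ e1)
    (hu : 2 * (w + e1) * (2 * (r : ℝ) + 1) ^ (ms + 2) ≤ 1)
    {l : Tor N → D.Λ} {x : Tor N} (hx : D.cen i l x) {e : Tor N → ℝ} (he : ∀ z, 0 < e z)
    (hel : ∀ z ∈ LcT x (y : ℤ × ℤ) r, e z ≤ e1) :
    ∀ᵐ v ∂(Measure.pi fun z => D.ν (l z)),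
      (∀ z ∈ ST x (y : ℤ × ℤ) r, ‖tt (AT N) (WV E e v) (LcT x (y : ℤ × ℤ) r) x z‖ ≤
        32 * (2 * (r : ℝ) + 1) ^ ms * κ ^ (r - R0)) ∧
      ‖tt (AT N) (WV E e v) (LcT x (y : ℤ × ℤ) r) x x - ((sE r Vs E y - E : ℝ) : ℂ)‖ ≤
        32 * (2 * (r : ℝ) + 1) ^ (2 * ms + 2) * (w + e1) := by
  have hN := hC.N_gt hmN
  have hcb := cbox (x := x) hN hC.y1 hC.y2
  filter_upwards [hC.ae_win h hmN hx] with v hv
  have hW := WV_neg (E := E) he v
  have hphy : ph x (y : ℤ × ℤ) (y : ℤ × ℤ) = x := ph_self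
  have hcell := hG.cell (Tor N) (AT N) (WV E e v) (ph x (y : ℤ × ℤ)) (w + e1)
    (boxEmb hN _) hW (fun a ha => by
      have ha' : (a : ℤ × ℤ) ≠ y := fun h' => ha (Subtype.ext h')
      have hz : ph x (y : ℤ × ℤ) a ∈ LcT x (y : ℤ × ℤ) r :=
        Finset.mem_image.2 ⟨a, Finset.mem_erase.2 ⟨ha', a.2⟩, rfl⟩
      have h1 := hel _ hz
      have h2 := hv a a.2 ha'
      refine norm_sub_le_of_window ?_ (hW _) ?_
      · have h3 : (WV E e v (ph x (y : ℤ × ℤ) a)).re =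
            v (ph x (y : ℤ × ℤ) a) - E := by simp [WV]
        rw [h3]
        have h4 : v (ph x (y : ℤ × ℤ) a) - E - (Vs a - E) = v (ph x (y : ℤ × ℤ) a) - Vs a := by
          ring
        rw [h4]
        exact h2
      · rw [WV_im, neg_neg]
        exact h1)
    hu (by linarith)
  rw [LcX_eq, hphy] at hcell
  obtain ⟨h1, h2⟩ := hcell
  refine ⟨?_, h2⟩
  intro z hz
  refine h1 z ?_
  rintro ⟨a, ha, haz⟩
  obtain ⟨b, hb', hbz⟩ := Finset.mem_image.1 hz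
  obtain ⟨hbX, hbr⟩ := Finset.mem_sdiff.1 hb'
  refine hbr ?_
  rw [ph_inj (x := x) (y0 := (y : ℤ × ℤ)) hN hbX (Xr_mono (by omega) ha) (by rw [hbz, haz])]
  exact ha

/-- **location of the pole at the centre of a matched block** -/
theorem loc_cell (hC : CellIn D i r c (y : ℤ × ℤ) Vs w) (h : D.Ok ρ)
    (hmN : D.m i ∣ N) (hG : CellGood E lam' κ ms R0 r Vs y) (hw : 0 ≤ w) {e1 : ℝ} (he1 : 0 ≤ e1)
    (hu : 2 * (w + e1) * (2 * (r : ℝ) + 1) ^ (ms + 2) ≤ 1)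
    {l : Tor N → D.Λ} {x : Tor N} (hx : D.cen i l x) {e : Tor N → ℝ} (he : ∀ z, 0 < e z)
    (hel : ∀ z ∈ LcT x (y : ℤ × ℤ) r, e z ≤ e1) {K : ℝ} (hK : 0 ≤ K)
    (hweak : WeakG (fun z => D.ν (l z)) E e (ST x (y : ℤ × ℤ) r)
      (mk (AT N) ({x}ᶜ : Finset (Tor N))) K) {t : ℝ} (ht : 0 < t) :
    Measure.pi (fun z => D.ν (l z)) {v |
      32 * (2 * (r : ℝ) + 1) ^ (2 * ms + 2) * (w + e1) +
        (32 * (2 * (r : ℝ) + 1) ^ ms * κ ^ (r - R0)) ^ 2 * (8 * (r : ℝ) + 8) ^ 2 * t <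
        ‖sg (AT N) (WV E e v) x - ((sE r Vs E y - E : ℝ) : ℂ)‖} ≤
      ENNReal.ofReal (K * (8 * (r : ℝ) + 8) ^ 2 / t) := by
  haveI := h.prob
  have hN := hC.N_gt hmN
  have hcb := cbox (x := x) hN hC.y1 hC.y2
  have hκ := hG.hκ
  have hcard : ((ST x (y : ℤ × ℤ) r).card : ℝ) ≤ 8 * (r : ℝ) + 8 := by
    exact_mod_cast card_ST_le (x := x) (y0 := (y : ℤ × ℤ)) (r := r)
  have hcard2 : ((ST x (y : ℤ × ℤ) r).card : ℝ) ^ 2 ≤ (8 * (r : ℝ) + 8) ^ 2 := by gcongr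
  have main := loc_prob (AT_symm N) he hcb hK hweak
    (τ := 32 * (2 * (r : ℝ) + 1) ^ ms * κ ^ (r - R0))
    (δ := 32 * (2 * (r : ℝ) + 1) ^ (2 * ms + 2) * (w + e1)) (by positivity)
    (cell_ae hC h hmN hG hw he1 hu hx he hel) ht
  refine (measure_mono fun v hv => ?_).trans (main.trans (ENNReal.ofReal_le_ofReal ?_))
  · rw [Set.mem_setOf_eq] at hv ⊢
    refine lt_of_le_of_lt ?_ hv
    gcongr
  · gcongr

end cell

end P365T1.Z0.Loc
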