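import Vale.Agent.P365.Z0.Loc

/-!
# P365-T1.5, Z6: averaged mass at the centre of a cell
-/

set_option linter.all false

namespace P365T1.Z0.Loc

open P365L P365O P365T1 P365T1.Link Vale.Agent.P365.C937 Vale.Agent.P365.J376 P365SH P365T1.H417
open P365T1.ISL Matrix Complex MeasureTheory
open scoped ENNReal

/-- a law with a density bounded below sees a Lorentzian which is centred inside -/
theorem lorentz_ge {ν' : Measure ℝ} [IsProbabilityMeasure ν'] {κy ay : ℝ} (hκ : 0 ≤ κy)
    (hd : DensGe κy ay ν') {q S g : ℝ} (hS : 0 < S) (hS1 : S ≤ 1) (hg : 0 < g)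
    (hq : |q| + g ≤ ay) : κy * min 1 g ≤ ∫ u, S / ((u - q) ^ 2 + S ^ 2) ∂ν' := by
  set f : ℝ → ℝ := fun u => S / ((u - q) ^ 2 + S ^ 2) with hf
  have hden : ∀ u, 0 < (u - q) ^ 2 + S ^ 2 := fun u => by positivity
  have hf0 : ∀ u, 0 ≤ f u := fun u => div_nonneg hS.le (hden u).le
  have hcont : Continuous f := by
    refine continuous_const.div (by fun_prop) fun u => (hden u).ne'
  have hfb : ∀ u, f u ≤ 1 / S := by
    intro u
    rw [hf]
    simp only
    rw [div_le_div_iff₀ (hden u) hS]
    nlinarith [sq_nonneg (u - q)]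
  have hfi : Integrable f ν' := by
    refine Integrable.mono' (g := fun _ => 1 / S) (integrable_const _)
      hcont.aestronglyMeasurable (Filter.Eventually.of_forall fun u => ?_)
    rw [Real.norm_eq_abs, abs_of_nonneg (hf0 u)]
    exact hfb u
  set h : ℝ := min S g with hh
  have hh0 : 0 < h := lt_min hS hg
  have hhS : h ≤ S := min_le_left _ _
  have hhg : h ≤ g := min_le_right _ _
  have s1 : ∫ u, f u ∂(ENNReal.ofReal κy • (volume : Measure ℝ).restrict (Set.Icc (-ay) ay)) ≤
      ∫ u, f u ∂ν' := integral_mono_measure hd (Filter.Eventually.of_forall hf0) hfi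
  rw [integral_smul_measure, ENNReal.toReal_ofReal hκ, smul_eq_mul] at s1
  refine le_trans (mul_le_mul_of_nonneg_left ?_ hκ) s1
  have hsub : Set.Icc (q - h) (q + h) ⊆ Set.Icc (-ay) ay := by
    have h1 := abs_le.1 (show |q| ≤ |q| from le_rfl)
    refine Set.Icc_subset_Icc ?_ ?_ <;> linarith
  have s2 : ∫ u in Set.Icc (q - h) (q + h), f u ≤ ∫ u in Set.Icc (-ay) ay, f u :=
    setIntegral_mono_set (hcont.continuousOn.integrableOn_compact isCompact_Icc)
      (Filter.Eventually.of_forall hf0) hsub.eventuallyLE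
  refine le_trans ?_ s2
  have s3 : ∫ u in Set.Icc (q - h) (q + h), (1 / (2 * S)) ≤ ∫ u in Set.Icc (q - h) (q + h), f u := by
    refine setIntegral_mono_on (integrableOn_const (by simp))
      (hcont.continuousOn.integrableOn_compact isCompact_Icc) measurableSet_Icc fun u hu => ?_
    have h1 : |u - q| ≤ h := by
      rw [abs_le]
      constructor <;> linarith [hu.1, hu.2]
    have h2 : (u - q) ^ 2 ≤ S ^ 2 := by
      rw [← sq_abs (u - q)]
      have := abs_nonneg (u - q)
      nlinarith
    rw [hf]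
    simp only
    rw [div_le_div_iff₀ (by positivity) (hden u)]
    nlinarith
  refine le_trans ?_ s3
  rw [setIntegral_const, Measure.real, Real.volume_Icc, smul_eq_mul,
    ENNReal.toReal_ofReal (by linarith)]
  have e1 : (q + h - (q - h)) * (1 / (2 * S)) = h / S := by
    field_simp
    ring
  rw [e1, le_div_iff₀ hS, hh]
  rcases le_total S g with h1 | h1
  · rw [min_eq_left h1]
    have := min_le_left (1 : ℝ) g
    nlinarith
  · rw [min_eq_right h1]
    have := min_le_right (1 : ℝ) g
    nlinarith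

section

variable {ι : Type*} [Fintype ι] [DecidableEq ι] {A : Matrix ι ι ℝ} {W : ι → ℂ}

theorem Gr_self_upd (hA : A.IsSymm) (hW : ∀ x, (W x).im < 0) {z : ι} {a : ℂ} (ha : a.im < 0) :
    Gr A (Function.update W z a) z z = (a - sg A W z)⁻¹ := by
  have h := Gr_zz_update hA hW (z := z) (δ := a - W z) (by
    have : W z + (a - W z) = a := by ring
    rw [this]; exact ha)
  have e1 : W z + (a - W z) = a := by ring
  rw [e1] at h
  rw [← inv_inv (Gr A (Function.update W z a) z z), h, sg]
  congr 1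
  ring

theorem sg_self_upd (hA : A.IsSymm) (hW : ∀ x, (W x).im < 0) {z : ι} {a : ℂ} (ha : a.im < 0) :
    sg A (Function.update W z a) z = sg A W z := by
  have h := sg_update hA hW (z := z) (δ := a - W z) (by
    have : W z + (a - W z) = a := by ring
    rw [this]; exact ha)
  have e1 : W z + (a - W z) = a := by ring
  rwa [e1] at h

theorem upd_im_neg {E : ℝ} {e : ι → ℝ} (he : ∀ x, 0 < e x) (x : ι) (u : ℝ) :
    ((((u - E : ℝ) : ℂ) - (e x : ℂ) * I)).im < 0 := by
  simp [he x]

theorem sg_WV_upd (hA : A.IsSymm) {E : ℝ} {e : ι → ℝ} (he : ∀ x, 0 < e x) (v : ι → ℝ) (x : ι)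
    (u : ℝ) : sg A (WV E e (Function.update v x u)) x = sg A (WV E e v) x := by
  rw [P365T1.Switch.WV_update]
  exact sg_self_upd hA (WV_neg he v) (upd_im_neg he x u)

/-- the mass at `x` as a function of the potential at `x` -/
theorem mm_upd (hA : A.IsSymm) {E : ℝ} {e : ι → ℝ} (he : ∀ x, 0 < e x) (v : ι → ℝ) (x : ι)
    (u : ℝ) : mm A (WV E e (Function.update v x u)) x =
      (e x + (sg A (WV E e v) x).im) / ((u - (E + (sg A (WV E e v) x).re)) ^ 2 +
        (e x + (sg A (WV E e v) x).im) ^ 2) := by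
  rw [mm, P365T1.Switch.WV_update, Gr_self_upd hA (WV_neg he v) (upd_im_neg he x u),
    Complex.inv_im, Complex.normSq_apply]
  simp only [Complex.sub_im, Complex.sub_re, Complex.mul_im, Complex.mul_re, Complex.ofReal_re,
    Complex.ofReal_im, Complex.I_re, Complex.I_im]
  congr 1 <;> ring

/-- **averaged mass at a centre** -/
theorem mass_ge (hA : A.IsSymm) {E : ℝ} {e : ι → ℝ} (he : ∀ x, 0 < e x) (v : ι → ℝ) (x : ι)
    {ν' : Measure ℝ} [IsProbabilityMeasure ν'] {κy ay : ℝ} (hκ : 0 ≤ κy)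
    (hd : DensGe κy ay ν') {θ τ g : ℝ} (hθ : ‖sg A (WV E e v) x - (θ : ℂ)‖ ≤ τ)
    (hex : e x + τ ≤ 1) (hg : 0 < g) (hq : |E + θ| + τ + g ≤ ay) :
    κy * min 1 g ≤ ∫ u, mm A (WV E e (Function.update v x u)) x ∂ν' := by
  simp only [mm_upd hA he]
  have h1 : |(sg A (WV E e v) x).im| ≤ τ := by
    have h := (Complex.abs_im_le_norm _).trans hθ
    simpa using h
  have h2 : |(sg A (WV E e v) x).re - θ| ≤ τ := by
    have h := (Complex.abs_re_le_norm _).trans hθ
    simpa using h
  have h3 := sg_im_nonneg hA (WV_neg (E := E) he v) x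
  have h4 := he x
  refine lorentz_ge hκ hd (by linarith) (by linarith [le_abs_self (sg A (WV E e v) x).im]) hg ?_
  have h5 : E + (sg A (WV E e v) x).re = (E + θ) + ((sg A (WV E e v) x).re - θ) := by ring
  rw [h5]
  linarith [abs_add_le (E + θ) ((sg A (WV E e v) x).re - θ)]

theorem measurable_sg (A : Matrix ι ι ℝ) (E : ℝ) (e : ι → ℝ) (x : ι) :
    Measurable fun v : ι → ℝ => sg A (WV E e v) x := by
  unfold sg
  exact (measurable_WV E e x).sub
    (measurable_Gr (fun v : ι → ℝ => WV E e v) (measurable_WV E e) x x).inv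

end

end P365T1.Z0.Loc
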