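import Mathlib

/-!
# P365-T1.5, Z6: numbers
-/

set_option linter.all false

namespace P365T1.Z0.Num

open Filter Topology

theorem ev_poly_exp {C b c ε : ℝ} (hC : 0 ≤ C) (n : ℕ) (hb : 0 ≤ b) (hbc : b * Real.exp c < 1)
    (hε : 0 < ε) : ∀ᶠ r : ℕ in atTop,
      C * (2 * (r : ℝ) + 1) ^ n * b ^ r ≤ ε * Real.exp (-(c * r)) := by
  have h0 : 0 ≤ b * Real.exp c := mul_nonneg hb (Real.exp_pos c).le
  have h1 := tendsto_pow_const_mul_const_pow_of_abs_lt_one n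
    (show |b * Real.exp c| < 1 by rwa [abs_of_nonneg h0])
  have h2 : Tendsto (fun r : ℕ => C * 3 ^ n * ((r : ℝ) ^ n * (b * Real.exp c) ^ r)) atTop
      (𝓝 0) := by
    have := h1.const_mul (C * 3 ^ n)
    rwa [mul_zero] at this
  filter_upwards [h2.eventually (gt_mem_nhds hε), eventually_ge_atTop 1] with r h3 h4
  have hr : (1 : ℝ) ≤ r := by exact_mod_cast h4
  have e1 : b ^ r = (b * Real.exp c) ^ r * Real.exp (-(c * r)) := by
    rw [mul_pow, ← Real.exp_nat_mul, mul_assoc, ← Real.exp_add]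
    have : (r : ℝ) * c + -(c * r) = 0 := by ring
    rw [this, Real.exp_zero, mul_one]
  rw [e1, ← mul_assoc]
  refine mul_le_mul_of_nonneg_right ?_ (Real.exp_pos _).le
  refine le_trans ?_ h3.le
  have h5 : (2 * (r : ℝ) + 1) ^ n ≤ (3 * (r : ℝ)) ^ n := by
    refine pow_le_pow_left₀ (by positivity) (by linarith) n
  calc C * (2 * (r : ℝ) + 1) ^ n * (b * Real.exp c) ^ r
      ≤ C * (3 * (r : ℝ)) ^ n * (b * Real.exp c) ^ r := by gcongr
    _ = C * 3 ^ n * ((r : ℝ) ^ n * (b * Real.exp c) ^ r) := by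
        rw [mul_pow]; ring

/-- the numbers -/
theorem loc_num {κ K : ℝ} (hκ0 : 0 < κ) (hκ1 : κ < 1) (hK : 0 ≤ K) (ms R0 : ℕ) :
    ∃ c : ℝ, 0 < c ∧ ∀ᶠ r : ℕ in atTop,
      32 * (2 * (r : ℝ) + 1) ^ (2 * ms + 2) * (Real.exp (-(r : ℝ)) + Real.exp (-(r : ℝ))) +
          (32 * (2 * (r : ℝ) + 1) ^ ms * κ ^ (r - R0)) ^ 2 * (8 * (r : ℝ) + 8) ^ 2 * (κ⁻¹) ^ r ≤
        Real.exp (-(c * r)) ∧
      16 * K * (8 * (r : ℝ) + 8) ^ 2 / (κ⁻¹) ^ r ≤ Real.exp (-(c * r)) ∧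
      Real.exp (-(c * r)) ≤ 1 / 2 := by
  have hlog : Real.log κ < 0 := Real.log_neg hκ0 hκ1
  obtain ⟨c, hc⟩ : ∃ c : ℝ, c = min (1 / 2) (-Real.log κ / 2) := ⟨_, rfl⟩
  have hc0 : 0 < c := by
    rw [hc]
    exact lt_min (by norm_num) (by linarith)
  have hc1 : c ≤ 1 / 2 := by rw [hc]; exact min_le_left _ _
  have hc2 : c ≤ -Real.log κ / 2 := by rw [hc]; exact min_le_right _ _
  have hb1 : Real.exp (-1) * Real.exp c < 1 := by
    rw [← Real.exp_add]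
    exact Real.exp_lt_one_iff.2 (by linarith)
  have hb2 : κ * Real.exp c < 1 := by
    have h : κ * Real.exp c = Real.exp (Real.log κ + c) := by
      rw [Real.exp_add, Real.exp_log hκ0]
    rw [h]
    exact Real.exp_lt_one_iff.2 (by linarith)
  refine ⟨c, hc0, ?_⟩
  have hp : 0 ≤ 65536 * (κ⁻¹) ^ (2 * R0) := by positivity
  have h4 : Tendsto (fun r : ℕ => Real.exp (-(c * r))) atTop (𝓝 0) := by
    refine Real.tendsto_exp_neg_atTop_nhds_zero.comp ?_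
    exact (tendsto_natCast_atTop_atTop).const_mul_atTop hc0
  filter_upwards [ev_poly_exp (C := 64) (b := Real.exp (-1)) (c := c) (ε := 1 / 2) (by norm_num)
      (2 * ms + 2) (Real.exp_pos _).le hb1 (by norm_num),
    ev_poly_exp (C := 65536 * (κ⁻¹) ^ (2 * R0)) (b := κ) (c := c) (ε := 1 / 2) hp
      (2 * ms + 2) hκ0.le hb2 (by norm_num),
    ev_poly_exp (C := 1024 * K) (b := κ) (c := c) (ε := 1) (by positivity)
      2 hκ0.le hb2 (by norm_num), eventually_ge_atTop R0,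
    h4.eventually (gt_mem_nhds (show (0 : ℝ) < 1 / 2 by norm_num))] with r h1 h2 h3 hr h5
  have hr0 : (0 : ℝ) ≤ r := Nat.cast_nonneg r
  have e8 : (8 * (r : ℝ) + 8) ^ 2 ≤ 64 * (2 * (r : ℝ) + 1) ^ 2 := by nlinarith
  refine ⟨?_, ?_, h5.le⟩
  · have e1 : 32 * (2 * (r : ℝ) + 1) ^ (2 * ms + 2) * (Real.exp (-(r : ℝ)) + Real.exp (-(r : ℝ))) =
        64 * (2 * (r : ℝ) + 1) ^ (2 * ms + 2) * Real.exp (-1) ^ r := by
      rw [← Real.exp_nat_mul]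
      have : (r : ℝ) * -1 = -(r : ℝ) := by ring
      rw [this]
      ring
    have e2 : (32 * (2 * (r : ℝ) + 1) ^ ms * κ ^ (r - R0)) ^ 2 * (8 * (r : ℝ) + 8) ^ 2 *
        (κ⁻¹) ^ r ≤ 65536 * (κ⁻¹) ^ (2 * R0) * (2 * (r : ℝ) + 1) ^ (2 * ms + 2) * κ ^ r := by
      have a1 : κ ^ (r - R0) = κ ^ r * (κ⁻¹) ^ R0 := by
        rw [inv_pow]
        field_simp
        rw [← pow_add]
        congr 1
        omega
      have a2 : κ ^ r * (κ⁻¹) ^ r = 1 := by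
        rw [← mul_pow, mul_inv_cancel₀ hκ0.ne', one_pow]
      calc (32 * (2 * (r : ℝ) + 1) ^ ms * κ ^ (r - R0)) ^ 2 * (8 * (r : ℝ) + 8) ^ 2 * (κ⁻¹) ^ r
          ≤ (32 * (2 * (r : ℝ) + 1) ^ ms * κ ^ (r - R0)) ^ 2 * (64 * (2 * (r : ℝ) + 1) ^ 2) *
            (κ⁻¹) ^ r := by gcongr
        _ = 65536 * (κ⁻¹) ^ (2 * R0) * (2 * (r : ℝ) + 1) ^ (2 * ms + 2) * κ ^ r *
            (κ ^ r * (κ⁻¹) ^ r) := by
            rw [a1]; ring
        _ = _ := by rw [a2, mul_one]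
    rw [e1]
    linarith
  · have e3 : 16 * K * (8 * (r : ℝ) + 8) ^ 2 / (κ⁻¹) ^ r =
        16 * K * (8 * (r : ℝ) + 8) ^ 2 * κ ^ r := by
      rw [inv_pow, div_inv_eq_mul]
    rw [e3]
    refine le_trans ?_ (h3.trans (by rw [one_mul]))
    have : 16 * K * (8 * (r : ℝ) + 8) ^ 2 ≤ 1024 * K * (2 * (r : ℝ) + 1) ^ 2 := by
      nlinarith
    gcongr

end P365T1.Z0.Num
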