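import Vale.Agent.P365.T1.HCDD77
import Vale.Agent.P365.T1.H3.DensS
import Vale.Agent.P365.Z0.Mass915
import Vale.Agent.P365.Z0.Num915

/-!
# P365-T1.5, Z6: location of the pole and averaged mass at the matched centres of the concrete chain
-/

set_option linter.all false

namespace P365T1.Z0.Loc

open P365L P365O P365T1 P365T1.Link Vale.Agent.P365.C937 Vale.Agent.P365.J376 P365SH P365T1.H417
open P365T1.ISL Matrix Complex MeasureTheory
open P365L.TL P365T1.Seq Set P365T1.Bump P365T1.HCnum Filter P365T1.Conc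
open scoped ENNReal

/-- **weak `L¹`** : entries of Green functions between two sites with bounded densities -/
def WeakStmt : Prop :=
  ∀ (ι : Type) [Fintype ι] [DecidableEq ι] (A : Matrix ι ι ℝ) (ν : ι → Measure ℝ)
    [∀ x, IsProbabilityMeasure (ν x)] (E : ℝ) (e : ι → ℝ) (K : ℝ) (z z' : ι), A.IsSymm →
    (∀ x, 0 < e x) → 0 ≤ K → DensLe K (ν z) → DensLe K (ν z') → ∀ t : ℝ, 0 < t →
      Measure.pi ν {v | t ≤ ‖Gr A (WV E e v) z z'‖} ≤ ENNReal.ofReal (16 * K / t)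

section

variable {D : V3} {ρ : Measure ℝ} {N : ℕ} [NeZero N] {i r : ℕ} {c : Loc} {y : Xr r}
  {Vs : ℤ × ℤ → ℝ} {w E lam' κ : ℝ} {ms R0 : ℕ}

/-- **pole and averaged mass at the centre of a matched block** -/
theorem loc_mass (hW : WeakStmt) (hC : CellIn D i r c (y : ℤ × ℤ) Vs w) (h : D.Ok ρ)
    (hmN : D.m i ∣ N) (hG : CellGood E lam' κ ms R0 r Vs y) (hw : 0 ≤ w) {e1 : ℝ} (he1 : 0 ≤ e1)
    (hu : 2 * (w + e1) * (2 * (r : ℝ) + 1) ^ (ms + 2) ≤ 1)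
    {l : Tor N → D.Λ} {x : Tor N} (hx : D.cen i l x) {e : Tor N → ℝ} (he : ∀ z, 0 < e z)
    (hel : ∀ z ∈ LcT x (y : ℤ × ℤ) r, e z ≤ e1) {K : ℝ} (hK : 0 ≤ K)
    (hdens : ∀ k, D.mov k → DensLe K (D.ν k)) {t τ : ℝ} (ht : 0 < t)
    (hτ : 32 * (2 * (r : ℝ) + 1) ^ (2 * ms + 2) * (w + e1) +
        (32 * (2 * (r : ℝ) + 1) ^ ms * κ ^ (r - R0)) ^ 2 * (8 * (r : ℝ) + 8) ^ 2 * t ≤ τ)
    {P0 : ℝ} (hP0 : 16 * K * (8 * (r : ℝ) + 8) ^ 2 / t ≤ P0)
    {κy ay g : ℝ} (hκy : 0 ≤ κy) (hd : DensGe κy ay (D.ν (l x))) (hex : e x + τ ≤ 1)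
    (hg : 0 < g) (hay : lam' + τ + g ≤ ay) :
    ∃ bad : Set (Tor N → ℝ), MeasurableSet bad ∧
      (∀ v u, Function.update v x u ∈ bad ↔ v ∈ bad) ∧
      Measure.pi (fun z => D.ν (l z)) bad ≤ ENNReal.ofReal P0 ∧
      ∀ v, v ∉ bad → ‖sg (AT N) (WV E e v) x - ((sE r Vs E y - E : ℝ) : ℂ)‖ ≤ τ ∧
        κy * min 1 g ≤ ∫ u, mm (AT N) (WV E e (Function.update v x u)) x ∂(D.ν (l x)) := by
  haveI := h.prob
  refine ⟨{v | τ < ‖sg (AT N) (WV E e v) x - ((sE r Vs E y - E : ℝ) : ℂ)‖}, ?_, ?_, ?_, ?_⟩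
  · exact measurableSet_lt measurable_const
      (((measurable_sg (AT N) E e x).sub measurable_const).norm)
  · intro v u
    simp only [mem_setOf_eq, sg_WV_upd (AT_symm N) he v x u]
  · have hweak : WeakG (fun z => D.ν (l z)) E e (ST x (y : ℤ × ℤ) r)
        (mk (AT N) ({x}ᶜ : Finset (Tor N))) (16 * K) := by
      intro z hz z' hz' s hs
      exact hW (Tor N) _ (fun z => D.ν (l z)) E e K z z' (mk_symm (AT_symm N) _) he hK
        (hdens _ (hC.mov_ST hmN hx hz)) (hdens _ (hC.mov_ST hmN hx hz')) s hs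
    have main := loc_cell hC h hmN hG hw he1 hu hx he hel (by positivity) hweak ht
    refine (measure_mono fun v hv => ?_).trans (main.trans (ENNReal.ofReal_le_ofReal hP0))
    exact lt_of_le_of_lt hτ hv
  · intro v hv
    have hv' : ‖sg (AT N) (WV E e v) x - ((sE r Vs E y - E : ℝ) : ℂ)‖ ≤ τ := not_lt.1 hv
    refine ⟨hv', mass_ge (AT_symm N) he v x hκy hd hv' hex hg ?_⟩
    have h1 : E + (sE r Vs E y - E) = sE r Vs E y := by ring
    rw [h1]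
    have h2 := hG.sE_le
    linarith

end

/-- **(HC), location of the pole and averaged mass at the centres, for the concrete chain** -/
theorem hc_loc_dd (hWk : WeakStmt) {lam E l : ℝ} (hlam : 0 < lam) (hE : |E| < 4 + lam)
    (hl : 0 < l) (hl2 : 2 * l ≤ lam) :
    ∃ (lam' c c0 : ℝ) (yf : ℕ → ℤ × ℤ) (Vsf : ℕ → ℤ × ℤ → ℝ) (th : ℕ → ℝ) (R : ℕ),
      0 < lam' ∧ lam' < lam ∧ 0 < c ∧ 0 < c0 ∧
      2 ≤ R ∧ (∀ r, R ≤ r → yf r ∈ Xr r) ∧ (∀ r z, |Vsf r z| ≤ lam') ∧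
      (∀ r, R ≤ r → |E + th r| ≤ lam') ∧
      ∀ rs, R ≤ rs → ∀ (I : ℕ) (ρ : Measure ℝ) (p : (PP yf rs I).Lb → ℝ)
        (ν : (PP yf rs I).Lb → Measure ℝ), Lw ρ p ν →
        (∀ k, (DD p ν).mov k → ν k = nuS lam l) →
        (∀ (i : ℕ) (hi : i ≤ I) (z : ((Xr (rr rs i)).erase (yf (rr rs i)) : Finset (ℤ × ℤ))),
          ν ((PP yf rs I).win ⟨⟨i, Nat.lt_succ_of_le hi⟩, z⟩) =
            nuB (Vsf (rr rs i) z) (Real.exp (-(rr rs i : ℝ)))) →
        ∀ (N : ℕ) [NeZero N], (∀ i ≤ I, mS rs i ∣ N) →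
          ∀ i ≤ I,
            (∀ s ∈ Ioo (tS rs I (i + 1)) 1,
              (DD p ν).HC N E i s (1 / (rr rs i : ℝ) ^ 30)) ∧
            ∀ (l' : Tor N → (DD p ν).Λ) (x : Tor N), (DD p ν).cen i l' x →
              ∀ e : Tor N → ℝ, (∀ z, 0 < e z) → e x ≤ 1 / 2 →
              (∀ z ∈ LcT x (yf (rr rs i)) (rr rs i), e z ≤ Real.exp (-(rr rs i : ℝ))) →
              ∃ bad : Set (Tor N → ℝ), MeasurableSet bad ∧
                (∀ v u, Function.update v x u ∈ bad ↔ v ∈ bad) ∧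
                Measure.pi (fun z => (DD p ν).ν (l' z)) bad ≤
                  ENNReal.ofReal (Real.exp (-(c * rr rs i))) ∧
                ∀ v, v ∉ bad →
                  ‖sg (AT N) (WV E e v) x - (th (rr rs i) : ℂ)‖ ≤ Real.exp (-(c * rr rs i)) ∧
                  c0 ≤ ∫ u, mm (AT N) (WV E e (Function.update v x u)) x
                    ∂((DD p ν).ν (l' x)) := by
  obtain ⟨C, κ, lam', ms, R0, r0, hC, hκ0, hκ1, hl0, hl1, hcell, hmain⟩ :=
    hc_nuS hlam hE hl hl2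
  have hch : ∀ r : ℕ, ∃ (Vs : ℤ × ℤ → ℝ) (y : ℤ × ℤ) (θ : ℝ), (∀ z, |Vs z| ≤ lam') ∧
      (r0 ≤ r → ∃ hy : y ∈ Xr r, CellGood E lam' κ ms R0 r Vs ⟨y, hy⟩ ∧
        θ = sE r Vs E ⟨y, hy⟩ - E) := by
    intro r
    by_cases hr : r0 ≤ r
    · obtain ⟨Vs, y, h⟩ := hcell r hr
      exact ⟨Vs, (y : ℤ × ℤ), _, h.Vs_le, fun _ => ⟨y.2, h, rfl⟩⟩
    · exact ⟨fun _ => 0, 0, 0, fun z => by rw [abs_zero]; exact hl0.le, fun h => absurd h hr⟩
  choose Vsf yf th hVs hgood using hch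
  set K : ℝ := (2 * (lam - l))⁻¹ with hKdef
  have hK0 : 0 ≤ K := by
    rw [hKdef]
    exact inv_nonneg.2 (by linarith)
  obtain ⟨κy, hκy, hdens⟩ := P365T1.Link.densGe_nuS hl hl2 (show (lam' + lam) / 2 < lam by linarith)
  obtain ⟨c, hc0, hcnum⟩ := P365T1.Z0.Num.loc_num hκ0 hκ1 hK0 ms R0
  have hg0 : 0 < (lam - lam') / 4 := by linarith
  have hev3 : ∀ᶠ r : ℕ in atTop, Real.exp (-(c * r)) ≤ (lam - lam') / 4 := by
    have h4 : Tendsto (fun r : ℕ => Real.exp (-(c * r))) atTop (nhds 0) := by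
      refine Real.tendsto_exp_neg_atTop_nhds_zero.comp ?_
      exact (tendsto_natCast_atTop_atTop).const_mul_atTop hc0
    exact (h4.eventually (gt_mem_nhds hg0)).mono fun r hr => hr.le
  obtain ⟨R1, -, hR1⟩ := exists_rs (((hc_num_exp hC hκ0 hκ1 ms R0).and (window_num ms)).and
    (hcnum.and hev3))
  refine ⟨lam', c, κy * min 1 ((lam - lam') / 4), yf, Vsf, th, max (max r0 R0) (max R1 5), hl0,
    hl1, hc0, mul_pos hκy (lt_min one_pos hg0), by omega, ?_, hVs, ?_, ?_⟩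
  · intro r hr
    obtain ⟨hy, -⟩ := hgood r (by omega)
    exact hy
  · intro r hr
    obtain ⟨hy, hG, hth⟩ := hgood r (by omega)
    have h1 : E + th r = sE r (Vsf r) E ⟨yf r, hy⟩ := by rw [hth]; ring
    rw [h1]
    exact hG.sE_le
  intro rs hrs I ρ p ν hL hmov hwin N _ hN i hi
  have hrs2 : 2 ≤ rs := by omega
  have hrr : rs ≤ rr rs i := le_rr (by omega) i
  obtain ⟨⟨hnum, hwn⟩, ⟨b1, b2, b3⟩, b4⟩ := hR1 rs (by omega) i
  obtain ⟨hy, hG, hth⟩ := hgood (rr rs i) (by omega)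
  have hyb : ∀ r, rs ≤ r → |(yf r).1| < r ∧ |(yf r).2| < r := by
    intro r hr
    obtain ⟨hy', hG', -⟩ := hgood r (by omega)
    have h1 := hG'.y1
    have h2 := hG'.y2
    simp only at h1 h2
    constructor
    · refine lt_of_lt_of_le h1 ?_
      exact_mod_cast (show R0 ≤ r by omega)
    · refine lt_of_lt_of_le h2 ?_
      exact_mod_cast (show R0 ≤ r by omega)
  have hok : (DD p ν).Ok ρ := DD_ok hrs2 (fun r hr => mem_Xr_of_abs (hyb r hr).1 (hyb r hr).2) hL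
  have hcin : CellIn (DD p ν) i (rr rs i) (4 * rr rs i, 4 * rr rs i) (yf (rr rs i))
      (Vsf (rr rs i)) (Real.exp (-(rr rs i : ℝ))) :=
    cellIn_DD (Vsf := Vsf) (w := fun i => Real.exp (-(rr rs i : ℝ))) hrs2 hyb hi
      (Real.exp_pos _) (fun z => hwin i hi z)
  have he := Real.exp_pos (-(rr rs i : ℝ))
  constructor
  · intro s hs
    -- numbers
    have hr5 : (5 : ℝ) ≤ rr rs i := by exact_mod_cast (show 5 ≤ rr rs i by omega)
    have hb0 := bS_pos rs I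
    have hb1 : bS rs I ≤ Real.exp (-(rr rs i : ℝ)) := by
      refine (bS_le_exp hrs2 hi).trans (Real.exp_le_exp.2 ?_)
      have h1 : (rr rs i : ℝ) ≤ (rr rs i : ℝ) ^ 4 := by
        calc (rr rs i : ℝ) = (rr rs i : ℝ) ^ 1 := (pow_one _).symm
          _ ≤ (rr rs i : ℝ) ^ 4 := pow_le_pow_right₀ (by linarith) (by norm_num)
      linarith
    have hκp : κ ^ (rr rs i - R0) ≤ κ ^ (rr rs i - (R0 + 1)) :=
      pow_le_pow_of_le_one hκ0.le hκ1.le (by omega)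
    obtain ⟨a1, a2, a3, a4, a5⟩ := hnum (Real.exp (-(rr rs i : ℝ))) (bS rs I)
      (3 * Real.exp (-(rr rs i : ℝ))) (8 * (rr rs i : ℝ) ^ 20) (8 * (rr rs i : ℝ) + 8)
      (κ ^ (rr rs i - R0)) he.le le_rfl hb0.le hb1 (by positivity) le_rfl (by positivity) le_rfl
      (by positivity) le_rfl (by positivity) hκp
    have hw1 := hwn (Real.exp (-(rr rs i : ℝ))) (bS rs I) le_rfl hb1
    have hk1 : 8 * (rr rs i : ℝ) + 8 + 1 = 8 * (rr rs i : ℝ) + 9 := by ring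
    rw [hk1] at a2 a3 a5
    have hε2 : 3 * Real.exp (-(rr rs i : ℝ)) ≤ 1 / 2 := by
      have h1 := Real.add_one_le_exp (rr rs i : ℝ)
      rw [Real.exp_neg]
      have h2 : (Real.exp (rr rs i : ℝ))⁻¹ ≤ (6 : ℝ)⁻¹ := inv_anti₀ (by norm_num) (by linarith)
      linarith
    have htail := tail_e0S hrs2 (rs := rs) hi
    refine hmain (D := DD p ν) (y := ⟨yf (rr rs i), hy⟩) hcin hok hi ?_ hG he.le hmov hw1
      (δ := 32 * (2 * (rr rs i : ℝ) + 1) ^ (2 * ms + 2) * (Real.exp (-(rr rs i : ℝ)) + bS rs I) +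
        32 * (2 * (rr rs i : ℝ) + 1) ^ ms * κ ^ (rr rs i - R0)) ?_ ?_
      (ε := 3 * Real.exp (-(rr rs i : ℝ))) ?_ hε2 (T := 8 * (rr rs i : ℝ) ^ 20) (by positivity)
      (own_ge hrs2 hi) (q := (rr rs i : ℝ) ^ 64) a1 ?_ ?_ a4 ?_ hs.1.le hs.2.le
    · exact hN i hi
    · have : 0 ≤ 32 * (2 * (rr rs i : ℝ) + 1) ^ (2 * ms + 2) *
          (Real.exp (-(rr rs i : ℝ)) + bS rs I) := by positivity
      linarith
    · have : 0 ≤ 32 * (2 * (rr rs i : ℝ) + 1) ^ ms * κ ^ (rr rs i - R0) := by positivity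
      exact le_add_of_nonneg_right this
    · show bS rs I + (∑ j ∈ Finset.Ico (i + 1) (I + 1), e0S rs j) + 2 * e0S rs i ≤
        3 * Real.exp (-(rr rs i : ℝ))
      have h1 : e0S rs i = Real.exp (-(rr rs i : ℝ)) := rfl
      rw [← h1]
      linarith
    · rw [mul_assoc]; exact a2
    · have h1 : C * (8 * (rr rs i : ℝ) + 9) ^ 4 * ((rr rs i : ℝ) ^ 64) ^ 5 =
          C * ((8 * (rr rs i : ℝ) + 9) ^ 4 * ((rr rs i : ℝ) ^ 64) ^ 5) := by ring
      rw [h1]; exact a3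
    · rw [mul_assoc]; exact a5
  · intro l' x hx e hepos hex hel
    have hw1 := hwn (Real.exp (-(rr rs i : ℝ))) (Real.exp (-(rr rs i : ℝ))) le_rfl le_rfl
    have hlx : (DD p ν).ν (l' x) = nuS lam l := hmov _ (hok.cen_mov hi hx)
    rw [hth]
    refine loc_mass (D := DD p ν) (y := ⟨yf (rr rs i), hy⟩) hWk hcin hok (hN i hi) hG he.le
      he.le hw1 hx hepos hel hK0 ?_ (t := (κ⁻¹) ^ (rr rs i)) (by positivity) b1 b2 hκy.le
      (ay := (lam' + lam) / 2) ?_ ?_ hg0 ?_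
    · intro k hk
      have h1 : (DD p ν).ν k = nuS lam l := hmov k hk
      rw [h1]
      exact densLe_nuS hl (by linarith)
    · rw [hlx]; exact hdens
    · linarith
    · linarith

end P365T1.Z0.Loc
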