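import Vale.Agent.P365.ISL.World
import Vale.Agent.P365.H229.Asm

/-!
# P365-Z0, Z6: weak `L¹` bound of the entries of the Green matrix

Two sites with independent potentials of density at most `D`: every entry of the Green matrix
between them is at least `t` with probability at most `16 D / t`, whatever the rest.
-/

set_option linter.all false

namespace P365T1.Z0.Weak

open P365L P365O P365T1 P365T1.ISL Matrix Complex MeasureTheory
open scoped ComplexConjugate ENNReal

variable {ι : Type*} [Fintype ι] [DecidableEq ι] {A : Matrix ι ι ℝ}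

/-! ### one line -/

/-- a set which is small on all lines in the direction of one coordinate is small -/
theorem pi_le_of_line {ν : ι → Measure ℝ} [∀ k, IsProbabilityMeasure (ν k)] (x : ι)
    {S : Set (ι → ℝ)} (hS : MeasurableSet S) {c : ℝ≥0∞}
    (h : ∀ v, ν x {s | Function.update v x s ∈ S} ≤ c) : Measure.pi ν S ≤ c := by
  rw [← lintegral_indicator_one hS,
    lintegral_resample (ν := ν) (S.indicator 1) (measurable_one.indicator hS) x]
  calc ∫⁻ v, ∫⁻ t, S.indicator 1 (Function.update v x t) ∂ν x ∂Measure.pi ν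
      ≤ ∫⁻ v, c ∂Measure.pi ν := by
        refine lintegral_mono fun v => ?_
        have hm : MeasurableSet {s | Function.update v x s ∈ S} :=
          (measurable_update v) hS
        have e : (fun t => S.indicator (1 : (ι → ℝ) → ℝ≥0∞) (Function.update v x t)) =
            {s | Function.update v x s ∈ S}.indicator 1 := rfl
        simp only [e]
        rw [lintegral_indicator_one hm]
        exact h v
    _ = c := by simp

theorem dens_ball {D : ℝ} (hD : 0 ≤ D) {ν : Measure ℝ} (h : DensLe D ν) (c : ℂ) {r : ℝ}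
    (hr : 0 ≤ r) : ν {s : ℝ | ‖(s : ℂ) + c‖ ≤ r} ≤ ENNReal.ofReal (2 * D * r) := by
  have hsub : {s : ℝ | ‖(s : ℂ) + c‖ ≤ r} ⊆ Set.Icc (-c.re - r) (-c.re + r) := by
    intro s hs
    have h1 : |s + c.re| ≤ r := by
      have h2 := Complex.abs_re_le_norm ((s : ℂ) + c)
      rw [Complex.add_re, Complex.ofReal_re] at h2
      exact h2.trans hs
    rw [abs_le] at h1
    exact ⟨by linarith, by linarith⟩
  calc ν {s : ℝ | ‖(s : ℂ) + c‖ ≤ r} ≤ ν (Set.Icc (-c.re - r) (-c.re + r)) := measure_mono hsub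
    _ ≤ (ENNReal.ofReal D • (volume : Measure ℝ)) (Set.Icc (-c.re - r) (-c.re + r)) := h _
    _ = ENNReal.ofReal D * ENNReal.ofReal (2 * r) := by
        rw [Measure.smul_apply, Real.volume_Icc, smul_eq_mul]
        congr 2
        ring
    _ = ENNReal.ofReal (2 * D * r) := by
        rw [← ENNReal.ofReal_mul hD]
        congr 1
        ring

/-! ### algebra -/

/-- inverse of the diagonal entry of the inverse of the block of two sites -/
noncomputable def Mx (A : Matrix ι ι ℝ) (W : ι → ℂ) (x y : ι) : ℂ :=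
  Gr A W y y / (Gr A W x x * Gr A W y y - Gr A W x y ^ 2)

/-- the determinant of the block of two sites -/
noncomputable def dt (A : Matrix ι ι ℝ) (W : ι → ℂ) (x y : ι) : ℂ :=
  Gr A W x x * Gr A W y y - Gr A W x y ^ 2

theorem dt_update (hA : A.IsSymm) {W : ι → ℂ} (hW : ∀ x, (W x).im < 0) {x : ι} (y : ι) {δ : ℂ}
    (hδ : (W x + δ).im < 0) :
    1 + δ * Gr A W x x ≠ 0 ∧ dt A (Function.update W x (W x + δ)) x y =
      dt A W x y / (1 + δ * Gr A W x x) ∧
    Gr A (Function.update W x (W x + δ)) y y =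
      (Gr A W y y + δ * dt A W x y) / (1 + δ * Gr A W x x) := by
  obtain ⟨h1, h2⟩ := Gr_update hA hW x δ hδ
  have hq : δ / (1 + δ * Gr A W x x) * (1 + δ * Gr A W x x) = δ := div_mul_cancel₀ _ h1
  refine ⟨h1, ?_, ?_⟩
  · unfold dt
    rw [h2, h2, h2, Gr_symm hA y x, eq_div_iff h1]
    generalize δ / (1 + δ * Gr A W x x) = q at hq ⊢
    linear_combination (-(Gr A W x x * (Gr A W x x * Gr A W y y - Gr A W x y ^ 2))) * hq
  · unfold dt
    rw [h2, Gr_symm hA y x, eq_div_iff h1]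
    generalize δ / (1 + δ * Gr A W x x) = q at hq ⊢
    linear_combination (-(Gr A W x y ^ 2)) * hq

theorem Mx_update (hA : A.IsSymm) {W : ι → ℂ} (hW : ∀ x, (W x).im < 0) {x : ι} (y : ι) {δ : ℂ}
    (hδ : (W x + δ).im < 0) (h0 : dt A W x y ≠ 0) :
    Mx A (Function.update W x (W x + δ)) x y = Mx A W x y + δ := by
  obtain ⟨h1, h2, h3⟩ := dt_update hA hW y hδ
  have e : ∀ W, Mx A W x y = Gr A W y y / dt A W x y := fun W => rfl
  rw [e, e, h2, h3]
  field_simp

theorem dt_symm (hA : A.IsSymm) (W : ι → ℂ) (x y : ι) : dt A W x y = dt A W y x := by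
  unfold dt
  rw [Gr_symm hA y x, mul_comm]

/-- the dichotomy -/
theorem dichotomy {a b g : ℂ} {t : ℝ} (ht : 0 < t) (hg : t ≤ ‖g‖) :
    (t ≤ Real.sqrt 2 * ‖a‖ ∨ t ≤ Real.sqrt 2 * ‖b‖) ∨
    (a * b - g ^ 2 ≠ 0 ∧ (‖b / (a * b - g ^ 2)‖ ≤ Real.sqrt 2 / t ∨
      ‖a / (a * b - g ^ 2)‖ ≤ Real.sqrt 2 / t)) := by
  have hs2 : Real.sqrt 2 ^ 2 = 2 := Real.sq_sqrt (by norm_num)
  have hs0 : 0 < Real.sqrt 2 := by positivity
  have hg0 : 0 < ‖g‖ := ht.trans_le hg
  rcases le_or_gt (‖g‖ ^ 2) (2 * (‖a‖ * ‖b‖)) with h | h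
  · left
    by_contra hcon
    push Not at hcon
    obtain ⟨h1, h2⟩ := hcon
    have h3 : (Real.sqrt 2 * ‖a‖) * (Real.sqrt 2 * ‖b‖) < t * t :=
      mul_lt_mul'' h1 h2 (by positivity) (by positivity)
    have h4 : (Real.sqrt 2 * ‖a‖) * (Real.sqrt 2 * ‖b‖) = 2 * (‖a‖ * ‖b‖) := by
      rw [show (Real.sqrt 2 * ‖a‖) * (Real.sqrt 2 * ‖b‖) = Real.sqrt 2 ^ 2 * (‖a‖ * ‖b‖) by ring,
        hs2]
    have h5 : t * t ≤ ‖g‖ ^ 2 := by nlinarith
    linarith
  · right
    set d := a * b - g ^ 2 with hd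
    have hdl : ‖g‖ ^ 2 / 2 ≤ ‖d‖ := by
      have h1 : ‖g ^ 2‖ ≤ ‖a * b‖ + ‖d‖ := by
        have : g ^ 2 = a * b - d := by rw [hd]; ring
        rw [this]
        exact norm_sub_le _ _
      rw [norm_pow, norm_mul] at h1
      linarith
    have hd0 : 0 < ‖d‖ := lt_of_lt_of_le (by positivity) hdl
    refine ⟨norm_pos_iff.1 hd0, ?_⟩
    by_contra hcon
    push Not at hcon
    obtain ⟨h1, h2⟩ := hcon
    rw [norm_div] at h1 h2
    have h3 : (Real.sqrt 2 / t) * (Real.sqrt 2 / t) < (‖b‖ / ‖d‖) * (‖a‖ / ‖d‖) :=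
      mul_lt_mul'' h1 h2 (by positivity) (by positivity)
    have h4 : (Real.sqrt 2 / t) * (Real.sqrt 2 / t) = 2 / t ^ 2 := by
      rw [div_mul_div_comm, ← sq, hs2, ← sq]
    have h5 : (‖b‖ / ‖d‖) * (‖a‖ / ‖d‖) = (‖a‖ * ‖b‖) / ‖d‖ ^ 2 := by
      rw [div_mul_div_comm]
      ring
    rw [h4, h5, div_lt_div_iff₀ (by positivity) (by positivity)] at h3
    have h6 : (‖g‖ ^ 2 / 2) ^ 2 ≤ ‖d‖ ^ 2 := pow_le_pow_left₀ (by positivity) hdl 2
    have h7 : t ^ 2 ≤ ‖g‖ ^ 2 := pow_le_pow_left₀ ht.le hg 2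
    have h8 : ‖a‖ * ‖b‖ * t ^ 2 ≤ ‖g‖ ^ 2 / 2 * ‖g‖ ^ 2 := by
      have : 0 ≤ ‖a‖ * ‖b‖ := by positivity
      nlinarith [sq_nonneg t, sq_nonneg ‖g‖]
    nlinarith

/-! ### the bounds -/

section bounds

variable {E : ℝ} {e : ι → ℝ} {ν : ι → Measure ℝ} [∀ k, IsProbabilityMeasure (ν k)] {D : ℝ}

theorem WV_neg' (he : ∀ x, 0 < e x) (v : ι → ℝ) (x : ι) : (WV E e v x).im < 0 := by
  have h := wF_neg (E := E) he ∅ v x
  rwa [wF_empty] at h

theorem WV_line (v : ι → ℝ) (x : ι) (s : ℝ) :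
    WV E e (Function.update v x s) =
      Function.update (WV E e v) x (WV E e v x + ((s - v x : ℝ) : ℂ)) := by
  funext z
  by_cases h : z = x
  · subst h
    rw [Function.update_self, WV, WV, Function.update_self]
    push_cast
    ring
  · rw [Function.update_of_ne h, WV, WV, Function.update_of_ne h]

theorem WV_line_neg (he : ∀ x, 0 < e x) (v : ι → ℝ) (x : ι) (s : ℝ) :
    (WV E e v x + ((s - v x : ℝ) : ℂ)).im < 0 := by
  rw [Complex.add_im, Complex.ofReal_im, add_zero]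
  exact WV_neg' he v x

theorem measurable_GrW (x y : ι) : Measurable fun v : ι → ℝ => Gr A (WV E e v) x y := by
  refine measurable_Gr (fun v : ι → ℝ => WV E e v) (fun z => ?_) x y
  unfold WV
  have h1 : Measurable fun v : ι → ℝ => v z - E := by fun_prop
  exact (Complex.measurable_ofReal.comp h1).sub_const _

/-- diagonal entries -/
theorem weak_diag (hA : A.IsSymm) (he : ∀ x, 0 < e x) (hD : 0 ≤ D) {x : ι} (hx : DensLe D (ν x))
    {t : ℝ} (ht : 0 < t) :
    Measure.pi ν {v | t ≤ ‖Gr A (WV E e v) x x‖} ≤ ENNReal.ofReal (2 * D / t) := by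
  refine pi_le_of_line x (measurableSet_le measurable_const (measurable_GrW x x).norm)
    fun v => ?_
  have hW := WV_neg' (E := E) he v
  have key : {s | Function.update v x s ∈ {v | t ≤ ‖Gr A (WV E e v) x x‖}} ⊆
      {s : ℝ | ‖(s : ℂ) + ((Gr A (WV E e v) x x)⁻¹ - (v x : ℂ))‖ ≤ 1 / t} := by
    intro s hs
    have h1 : t ≤ ‖Gr A (WV E e (Function.update v x s)) x x‖ := hs
    rw [WV_line] at h1
    have h2 := Gr_zz_update hA hW (WV_line_neg he v x s)
    show ‖(s : ℂ) + ((Gr A (WV E e v) x x)⁻¹ - (v x : ℂ))‖ ≤ 1 / t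
    have h3 : (s : ℂ) + ((Gr A (WV E e v) x x)⁻¹ - (v x : ℂ)) =
        (Gr A (WV E e v) x x)⁻¹ + ((s - v x : ℝ) : ℂ) := by push_cast; ring
    rw [h3, ← h2, norm_inv, ← one_div]
    exact one_div_le_one_div_of_le ht h1
  refine (measure_mono key).trans ((dens_ball hD hx _ (by positivity)).trans (le_of_eq ?_))
  congr 1
  ring

/-- entries of the inverse of the block -/
theorem weak_Mx (hA : A.IsSymm) (he : ∀ x, 0 < e x) (hD : 0 ≤ D) {x : ι} (y : ι)
    (hx : DensLe D (ν x)) {r : ℝ} (hr : 0 ≤ r) :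
    Measure.pi ν {v | dt A (WV E e v) x y ≠ 0 ∧ ‖Mx A (WV E e v) x y‖ ≤ r} ≤
      ENNReal.ofReal (2 * D * r) := by
  have hmd : Measurable fun v : ι → ℝ => dt A (WV E e v) x y := by
    unfold dt
    exact ((measurable_GrW x x).mul (measurable_GrW y y)).sub ((measurable_GrW x y).pow_const 2)
  have hmM : Measurable fun v : ι → ℝ => Mx A (WV E e v) x y := by
    unfold Mx
    exact (measurable_GrW y y).div
      (((measurable_GrW x x).mul (measurable_GrW y y)).sub ((measurable_GrW x y).pow_const 2))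
  have hS : MeasurableSet {v | dt A (WV E e v) x y ≠ 0 ∧ ‖Mx A (WV E e v) x y‖ ≤ r} :=
    ((hmd (measurableSet_singleton 0)).compl).inter (measurableSet_le hmM.norm measurable_const)
  refine pi_le_of_line x hS fun v => ?_
  have hW := WV_neg' (E := E) he v
  have key : {s | Function.update v x s ∈
        {v | dt A (WV E e v) x y ≠ 0 ∧ ‖Mx A (WV E e v) x y‖ ≤ r}} ⊆
      {s : ℝ | ‖(s : ℂ) + (Mx A (WV E e v) x y - (v x : ℂ))‖ ≤ r} := by
    rintro s ⟨h1, h2⟩
    rw [WV_line] at h1 h2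
    obtain ⟨h3, h4, -⟩ := dt_update hA hW y (WV_line_neg he v x s)
    have h5 : dt A (WV E e v) x y ≠ 0 := by
      intro h0
      apply h1
      rw [h4, h0, zero_div]
    rw [Mx_update hA hW y (WV_line_neg he v x s) h5] at h2
    show ‖(s : ℂ) + (Mx A (WV E e v) x y - (v x : ℂ))‖ ≤ r
    have h6 : (s : ℂ) + (Mx A (WV E e v) x y - (v x : ℂ)) =
        Mx A (WV E e v) x y + ((s - v x : ℝ) : ℂ) := by push_cast; ring
    rwa [h6]
  exact (measure_mono key).trans (dens_ball hD hx _ hr)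

/-- off-diagonal entries (also true, and not needed, on the diagonal) -/
theorem weak_off (hA : A.IsSymm) (he : ∀ x, 0 < e x) (hD : 0 ≤ D) {x y : ι}
    (hx : DensLe D (ν x)) (hy : DensLe D (ν y)) {t : ℝ} (ht : 0 < t) :
    Measure.pi ν {v | t ≤ ‖Gr A (WV E e v) x y‖} ≤ ENNReal.ofReal (16 * D / t) := by
  have hs0 : 0 < Real.sqrt 2 := by positivity
  have hs2 : Real.sqrt 2 ≤ 2 := by
    rw [Real.sqrt_le_left (by norm_num)]
    norm_num
  have hts : 0 < t / Real.sqrt 2 := by positivity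
  have hcov : {v | t ≤ ‖Gr A (WV E e v) x y‖} ⊆
      (({v | t / Real.sqrt 2 ≤ ‖Gr A (WV E e v) x x‖} ∪
        {v | t / Real.sqrt 2 ≤ ‖Gr A (WV E e v) y y‖}) ∪
      ({v | dt A (WV E e v) x y ≠ 0 ∧ ‖Mx A (WV E e v) x y‖ ≤ Real.sqrt 2 / t} ∪
        {v | dt A (WV E e v) y x ≠ 0 ∧ ‖Mx A (WV E e v) y x‖ ≤ Real.sqrt 2 / t})) := by
    intro v hv
    rcases dichotomy (a := Gr A (WV E e v) x x) (b := Gr A (WV E e v) y y) ht hv with
      (h | h) | ⟨h0, h | h⟩
    · left; left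
      show t / Real.sqrt 2 ≤ _
      rw [div_le_iff₀ hs0, mul_comm]
      exact h
    · left; right
      show t / Real.sqrt 2 ≤ _
      rw [div_le_iff₀ hs0, mul_comm]
      exact h
    · right; left
      exact ⟨h0, h⟩
    · right; right
      refine ⟨by rw [dt_symm hA]; exact h0, ?_⟩
      unfold Mx
      have h1 : Gr A (WV E e v) y y * Gr A (WV E e v) x x - Gr A (WV E e v) y x ^ 2 =
          Gr A (WV E e v) x x * Gr A (WV E e v) y y - Gr A (WV E e v) x y ^ 2 := by
        rw [Gr_symm hA y x, mul_comm]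
      rw [h1]
      exact h
  have b1 := weak_diag (E := E) (ν := ν) hA he hD hx hts
  have b2 := weak_diag (E := E) (ν := ν) hA he hD hy hts
  have b3 := weak_Mx (E := E) (ν := ν) hA he hD y hx (r := Real.sqrt 2 / t) (by positivity)
  have b4 := weak_Mx (E := E) (ν := ν) hA he hD x hy (r := Real.sqrt 2 / t) (by positivity)
  have hc : 2 * D / (t / Real.sqrt 2) ≤ 4 * D / t := by
    rw [div_div_eq_mul_div, div_le_div_iff_of_pos_right ht]
    nlinarith
  have hc' : 2 * D * (Real.sqrt 2 / t) ≤ 4 * D / t := by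
    rw [mul_div_assoc', div_le_div_iff_of_pos_right ht]
    nlinarith
  have hq : 0 ≤ 4 * D / t := by positivity
  refine (measure_mono hcov).trans ((measure_union_le _ _).trans
    ((add_le_add (measure_union_le _ _) (measure_union_le _ _)).trans ?_))
  calc _ ≤ (ENNReal.ofReal (4 * D / t) + ENNReal.ofReal (4 * D / t)) +
        (ENNReal.ofReal (4 * D / t) + ENNReal.ofReal (4 * D / t)) :=
        add_le_add (add_le_add (b1.trans (ENNReal.ofReal_le_ofReal hc))
          (b2.trans (ENNReal.ofReal_le_ofReal hc)))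
          (add_le_add (b3.trans (ENNReal.ofReal_le_ofReal hc'))
            (b4.trans (ENNReal.ofReal_le_ofReal hc')))
    _ = ENNReal.ofReal (16 * D / t) := by
        rw [← ENNReal.ofReal_add hq hq, ← ENNReal.ofReal_add (by positivity) (by positivity)]
        congr 1
        ring

/-- all entries -/
theorem weak_all (hA : A.IsSymm) (he : ∀ x, 0 < e x) (hD : 0 ≤ D) (x y : ι)
    (hx : DensLe D (ν x)) (hy : DensLe D (ν y)) {t : ℝ} (ht : 0 < t) :
    Measure.pi ν {v | t ≤ ‖Gr A (WV E e v) x y‖} ≤ ENNReal.ofReal (16 * D / t) :=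
  weak_off hA he hD hx hy ht

end bounds

end P365T1.Z0.Weak
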