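import Vale.Agent.P365.Z0.LocDD
import Vale.Agent.P365.Z0.Weak2
import Vale.Agent.P365.Z0.Bad

/-!
# P365-T1.5, Z6: location of the pole at the matched centres of the concrete chain, without
hypothesis; the form `Off` of Z4
-/

set_option linter.all false

namespace P365T1.Z0.Loc

open P365L P365O P365T1 P365T1.Link Vale.Agent.P365.C937 Vale.Agent.P365.J376 P365SH P365T1.H417
open P365T1.ISL Matrix Complex MeasureTheory
open P365L.TL P365T1.Seq Set P365T1.Bump P365T1.HCnum Filter P365T1.Conc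
open scoped ENNReal

theorem weakStmt : WeakStmt := by
  intro ι _ _ A ν _ E e K z z' hA he hK h1 h2 t ht
  exact P365T1.Z0.Weak.weak_all hA he hK z z' h1 h2 ht

/-- **Z6** -/
theorem hc_loc {lam E l : ℝ} (hlam : 0 < lam) (hE : |E| < 4 + lam)
    (hl : 0 < l) (hl2 : 2 * l ≤ lam) :
    ∃ (lam' c c0 : ℝ) (yf : ℕ → ℤ × ℤ) (Vsf : ℕ → ℤ × ℤ → ℝ) (th : ℕ → ℝ) (R : ℕ),
      0 < lam' ∧ lam' < lam ∧ 0 < c ∧ 0 < c0 ∧
      2 ≤ R ∧ (∀ r, R ≤ r → yf r ∈ Xr r) ∧ (∀ r z, |Vsf r z| ≤ lam') ∧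
      (∀ r, R ≤ r → |E + th r| ≤ lam') ∧
      ∀ rs, R ≤ rs → ∀ (I : ℕ) (ρ : Measure ℝ) (p : (PP yf rs I).Lb → ℝ)
        (ν : (PP yf rs I).Lb → Measure ℝ), Lw ρ p ν →
        (∀ k, (DD p ν).mov k → ν k = nuS lam l) →
        (∀ (i : ℕ) (hi : i ≤ I) (z : ((Xr (rr rs i)).erase (yf (rr rs i)) : Finset (ℤ × ℤ))),
          ν ((PP yf rs I).win ⟨⟨i, Nat.lt_succ_of_le hi⟩, z⟩) =
            nuB (Vsf (rr rs i) z) (Real.exp (-(rr rs i : ℝ)))) →
        ∀ (N : ℕ) [NeZero N], (∀ i ≤ I, mS rs i ∣ N) →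
          ∀ i ≤ I,
            (∀ s ∈ Ioo (tS rs I (i + 1)) 1,
              (DD p ν).HC N E i s (1 / (rr rs i : ℝ) ^ 30)) ∧
            ∀ (l' : Tor N → (DD p ν).Λ) (x : Tor N), (DD p ν).cen i l' x →
              ∀ e : Tor N → ℝ, (∀ z, 0 < e z) → e x ≤ 1 / 2 →
              (∀ z ∈ LcT x (yf (rr rs i)) (rr rs i), e z ≤ Real.exp (-(rr rs i : ℝ))) →
              ∃ bad : Set (Tor N → ℝ), MeasurableSet bad ∧
                (∀ v u, Function.update v x u ∈ bad ↔ v ∈ bad) ∧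
                Measure.pi (fun z => (DD p ν).ν (l' z)) bad ≤
                  ENNReal.ofReal (Real.exp (-(c * rr rs i))) ∧
                P365Z.Off (AT N) E e (lam' + Real.exp (-(c * rr rs i)))
                  (e x + Real.exp (-(c * rr rs i))) x ⊆ bad ∧
                ∀ v, v ∉ bad →
                  ‖sg (AT N) (WV E e v) x - (th (rr rs i) : ℂ)‖ ≤ Real.exp (-(c * rr rs i)) ∧
                  c0 ≤ ∫ u, mm (AT N) (WV E e (Function.update v x u)) x
                    ∂((DD p ν).ν (l' x)) := by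
  obtain ⟨lam', c, c0, yf, Vsf, th, R, a1, a2, a3, a4, a5, a6, a7, a8, H⟩ :=
    hc_loc_dd weakStmt hlam hE hl hl2
  refine ⟨lam', c, c0, yf, Vsf, th, R, a1, a2, a3, a4, a5, a6, a7, a8, ?_⟩
  intro rs hrs I ρ p ν hL hmov hwin N _ hN i hi
  obtain ⟨h1, h2⟩ := H rs hrs I ρ p ν hL hmov hwin N hN i hi
  refine ⟨h1, ?_⟩
  intro l' x hx e he hex hel
  obtain ⟨bad, b1, b2, b3, b4⟩ := h2 l' x hx e he hex hel
  refine ⟨bad, b1, b2, b3, ?_, b4⟩
  intro v hv
  by_contra hcon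
  refine hv ?_
  obtain ⟨h5, -⟩ := b4 v hcon
  have hr : R ≤ rr rs i := hrs.trans (le_rr (by omega) i)
  have h6 := a8 _ hr
  have h7 : |(sg (AT N) (WV E e v) x).im| ≤ Real.exp (-(c * rr rs i)) := by
    have h := (Complex.abs_im_le_norm _).trans h5
    simpa using h
  have h8 : |(sg (AT N) (WV E e v) x).re - th (rr rs i)| ≤ Real.exp (-(c * rr rs i)) := by
    have h := (Complex.abs_re_le_norm _).trans h5
    simpa using h
  constructor
  · unfold P365Z.pc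
    have h9 : E + (sg (AT N) (WV E e v) x).re =
        (E + th (rr rs i)) + ((sg (AT N) (WV E e v) x).re - th (rr rs i)) := by ring
    rw [h9]
    exact (abs_add_le _ _).trans (add_le_add h6 h8)
  · unfold P365Z.pw
    have := le_abs_self (sg (AT N) (WV E e v) x).im
    linarith

end P365T1.Z0.Loc
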