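import Vale.Agent.P365.Z0.LogFin869
import Vale.Agent.P365.Z0.Iface

/-!
# P365, T1.5, block Z8: consumer forms for the traps `Tc D`.
-/

set_option linter.all false

namespace P365Z.H869

open MeasureTheory P365L P365O P365T1 P365L.TL P365T1.Lab125 P365Z0.H594 Set P365Z
open Vale.Agent.P365.J376 Vale.Agent.P365.Z0
open scoped ENNReal

theorem prob_mix {D : V3} {ρ : Measure ℝ} (h : D.Ok ρ) : IsProbabilityMeasure ρ := by
  haveI := h.prob
  refine ⟨?_⟩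
  rw [← h.mix, Measure.finset_sum_apply]
  simp only [Measure.smul_apply, measure_univ, smul_eq_mul, mul_one]
  rw [← ENNReal.ofReal_sum_of_nonneg fun k _ => h.p_nonneg k, h.p_sum, ENNReal.ofReal_one]

theorem mem_Tc {D : V3} {N : ℕ} [NeZero N] (l : Tor N → D.Λ) (x : Tor N) :
    x ∈ Tc D l ↔ D.cen D.I l x := by
  classical
  unfold Tc
  rw [Finset.mem_filter]
  exact ⟨fun h => h.2, fun h => ⟨Finset.mem_univ _, h⟩⟩

theorem m_pos_of_dvd {m N : ℕ} [NeZero N] (h : m ∣ N) : 0 < m := by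
  rcases Nat.eq_zero_or_pos m with h0 | h0
  · subst h0
    exact absurd (Nat.eq_zero_of_zero_dvd h) (NeZero.ne N)
  · exact h0

/-- 594's `LTge` (family `D.I`) -/
theorem LTge_Tc {D : V3} {ρ : Measure ℝ} {N : ℕ} [NeZero N] (h : D.Ok ρ)
    (E b lam : ℝ) (hb : 0 < b) (hlam : 0 < lam) (hm : D.m D.I ∣ N)
    (Dn : D.Λ → ℝ) (D0 : ℝ) (hDn0 : ∀ k, 0 < Dn k) (hD00 : 0 < D0)
    (hDn : ∀ k, DensLe (Dn k) (D.ν k)) (hD0 : DensLe D0 ρ)
    (hs : ∀ k, D.ν k (Icc (-lam) lam)ᶜ = 0) (hs0 : ρ (Icc (-lam) lam)ᶜ = 0) (C : ℝ)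
    (hC : ∀ x : Tor N, lc (D.m D.I) x = D.y D.I → ∑ z ∈ blkOf D D.I x,
      (2 * cL (2 * lam) D0 + 2 * cL (2 * lam) (Dn (D.pat D.I (lc (D.m D.I) z)))) ≤ C) :
    nT D.p (Tc D (N := N)) *
      (∫ v, Real.log (Sf (AT N) (WV E (fun _ => b) v) 0) ∂(Measure.pi fun _ : Tor N => ρ) - C) ≤
        Vale.Agent.P365.Z0.LT (AT N) D.p D.ν E (Tc D) (fun _ _ => b) := by
  haveI := prob_mix h
  have hm0 : 0 < D.m D.I := m_pos_of_dvd hm
  by_cases hy : D.y D.I ∈ blk (D.m D.I)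
  · refine LT_ge h (fun l x => mem_Tc l x) hm0 hm E hb hlam.le (fun a _ => hs _) hs0
      (fun a _ => hDn _) (fun a _ => hDn0 _) hD0 hD00 ?_
    have h1 := hC (st N (D.m D.I) (bi (D.m D.I) (0 : Tor N)) (D.y D.I))
      (lc_st' (bIn_bi hm (0 : Tor N)) hy)
    have h2 := sum_blkOf hm0 hm (st N (D.m D.I) (bi (D.m D.I) (0 : Tor N)) (D.y D.I)) fun a =>
      2 * cL (2 * lam) D0 + 2 * cL (2 * lam) (Dn (D.pat D.I a))
    rw [h2] at h1
    refine le_trans (le_of_eq (Finset.sum_congr rfl fun a _ => ?_)) h1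
    ring
  · -- no centres at all
    have h0 : ∀ l : Tor N → D.Λ, Tc D l = ∅ := by
      intro l
      rw [Finset.eq_empty_iff_forall_notMem]
      intro x hx
      have := ((mem_Tc l x).1 hx).2
      exact hy (this ▸ lc_mem_blk hm0 x)
    have e1 : nT D.p (Tc D (N := N)) = 0 := by
      unfold nT
      refine Finset.sum_eq_zero fun l _ => ?_
      rw [h0 l]
      simp
    have e2 : Vale.Agent.P365.Z0.LT (AT N) D.p D.ν E (Tc D) (fun _ _ => b) = 0 := by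
      unfold Vale.Agent.P365.Z0.LT AvG Ex
      refine Finset.sum_eq_zero fun l _ => ?_
      simp only [h0 l, Finset.sum_empty, integral_zero, mul_zero]
    rw [e1, e2, zero_mul]

/-- 594's `nTpos` -/
theorem nTpos_Tc {D : V3} {ρ : Measure ℝ} {N : ℕ} [NeZero N] (h : D.Ok ρ) (hm : D.m D.I ∣ N)
    (hp : ∀ a, 0 < D.p (D.pat D.I a)) (hy : (D.y D.I).1 < D.m D.I ∧ (D.y D.I).2 < D.m D.I) :
    0 < nT D.p (Tc D (N := N)) :=
  nT_pos h (fun l x => mem_Tc l x) (m_pos_of_dvd hm) hm (mem_blk'.2 hy) fun a _ => hp a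

end P365Z.H869
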