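import Vale.Agent.P365.J376.Bridge

/-!
# P365, T1.5, block Z8, part 1: the flux `Sf` as a quotient of quadratics in one potential, and the
logarithmic mean of a quadratic under a law of bounded density.
-/

set_option linter.all false

namespace P365Z0.H594

open P365L P365O P365T1 Vale.Agent.P365.J376 Matrix Complex MeasureTheory Filter Topology Set
open scoped ComplexConjugate ENNReal

/-! ### positive quadratics -/

/-- a positive real quadratic changes by a bounded factor away from its centre -/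
theorem quad_ratio {a b c : ℝ} (h : ∀ v : ℝ, 0 < a * v ^ 2 + b * v + c) :
    ∃ t : ℝ, ∀ u v : ℝ, v ≠ t →
      a * u ^ 2 + b * u + c ≤ (a * v ^ 2 + b * v + c) * (1 + |u - v| / |v - t|) ^ 2 := by
  have hc : 0 < c := by simpa using h 0
  by_cases ha : a = 0
  · subst ha
    have hb : b = 0 := by
      by_contra hb
      have := h (-c / b)
      rw [mul_div_cancel₀ _ hb] at this
      simp at this
    subst hb
    refine ⟨0, fun u v hv => ?_⟩
    have h1 : 1 ≤ (1 + |u - v| / |v - 0|) ^ 2 := by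
      have : 0 ≤ |u - v| / |v - 0| := by positivity
      nlinarith
    simp only [zero_mul, zero_add]
    nlinarith
  · have hd : discrim a b c < 0 := by
      refine discrim_lt_zero ha fun x => ?_
      have := h x
      nlinarith [this]
    have ha' : 0 < a := by
      rw [discrim] at hd
      by_contra hcon
      push Not at hcon
      nlinarith [sq_nonneg b, mul_nonneg (neg_nonneg.2 hcon) hc.le]
    refine ⟨-b / (2 * a), fun u v hv => ?_⟩
    set t := -b / (2 * a) with ht
    set κ := c / a - t ^ 2 with hκ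
    have hκ0 : 0 ≤ κ := by
      have h1 : κ = (4 * a * c - b ^ 2) / (4 * a ^ 2) := by
        rw [hκ, ht]
        field_simp
        ring
      rw [h1]
      rw [discrim] at hd
      exact div_nonneg (by linarith) (by positivity)
    have hP : ∀ x : ℝ, a * x ^ 2 + b * x + c = a * ((x - t) ^ 2 + κ) := by
      intro x
      rw [hκ, ht]
      field_simp
      ring
    rw [hP, hP]
    set r := |u - v| / |v - t| with hr
    have hvt : 0 < |v - t| := abs_pos.2 (sub_ne_zero.2 hv)
    have hr0 : 0 ≤ r := by positivity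
    have h1 : |u - t| ≤ (1 + r) * |v - t| := by
      have h2 : |u - t| ≤ |u - v| + |v - t| := abs_sub_le _ _ _
      have h3 : r * |v - t| = |u - v| := by
        rw [hr, div_mul_cancel₀ _ hvt.ne']
      linarith
    have h2 : (u - t) ^ 2 ≤ (1 + r) ^ 2 * (v - t) ^ 2 := by
      rw [← sq_abs (u - t), ← sq_abs (v - t), ← mul_pow]
      exact pow_le_pow_left₀ (abs_nonneg _) h1 2
    have h3 : κ ≤ (1 + r) ^ 2 * κ := by
      have : 1 ≤ (1 + r) ^ 2 := by nlinarith
      nlinarith
    have h4 : (u - t) ^ 2 + κ ≤ ((v - t) ^ 2 + κ) * (1 + r) ^ 2 := by linarith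
    calc a * ((u - t) ^ 2 + κ) ≤ a * (((v - t) ^ 2 + κ) * (1 + r) ^ 2) :=
          mul_le_mul_of_nonneg_left h4 ha'.le
      _ = a * ((v - t) ^ 2 + κ) * (1 + r) ^ 2 := by ring

section Alg

variable {ι : Type*} [Fintype ι] [DecidableEq ι] {A : Matrix ι ι ℝ} {W : ι → ℂ}

theorem Sf_eq_inv (hA : A.IsSymm) (hW : ∀ x, (W x).im < 0) (x : ι) :
    Sf A W x = -((Gr A W x x)⁻¹).im := by
  have h := sg_im hA hW x
  rw [sg, Complex.sub_im] at h
  linarith

/-- **the flux is a quotient of two positive quadratics in each real potential** -/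
theorem Sf_quad (hA : A.IsSymm) (hW : ∀ x, (W x).im < 0) (x z : ι) :
    ∃ a b c a' b' c' : ℝ, ∀ δ : ℝ, 0 < a * δ ^ 2 + b * δ + c ∧ 0 < a' * δ ^ 2 + b' * δ + c' ∧
      Sf A (Function.update W z (W z + δ)) x =
        (a * δ ^ 2 + b * δ + c) / (a' * δ ^ 2 + b' * δ + c') := by
  set g := Gr A W z z with hg
  set h := Gr A W x x with hh
  set Δ := h * g - Gr A W x z * Gr A W z x with hΔ
  refine ⟨g.re * Δ.im - g.im * Δ.re, g.re * h.im + Δ.im - g.im * h.re, h.im,
    Δ.re ^ 2 + Δ.im ^ 2, 2 * (h.re * Δ.re + h.im * Δ.im), h.re ^ 2 + h.im ^ 2, fun δ => ?_⟩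
  have him : (W z + (δ : ℂ)).im < 0 := by simpa using hW z
  obtain ⟨h1, h2⟩ := Gr_update hA hW z (δ : ℂ) him
  have hW' : ∀ y, (Function.update W z (W z + δ) y).im < 0 := update_neg hW him
  have h3 : Gr A (Function.update W z (W z + δ)) x x = (h + δ * Δ) / (1 + δ * g) := by
    rw [h2, eq_div_iff h1, sub_mul, mul_assoc _ (_ / _), div_mul_cancel₀ _ h1, hΔ]
    ring
  have h4 : h + δ * Δ ≠ 0 := by
    intro h0
    have := Gr_self_ne_zero hA hW' x
    rw [h3, h0, zero_div] at this
    exact this rfl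
  have hQ : (Δ.re ^ 2 + Δ.im ^ 2) * δ ^ 2 + 2 * (h.re * Δ.re + h.im * Δ.im) * δ +
      (h.re ^ 2 + h.im ^ 2) = Complex.normSq (h + δ * Δ) := by
    rw [Complex.normSq_apply]
    simp
    ring
  have hQ0 : 0 < Complex.normSq (h + δ * Δ) := Complex.normSq_pos.2 h4
  have hP : (g.re * Δ.im - g.im * Δ.re) * δ ^ 2 + (g.re * h.im + Δ.im - g.im * h.re) * δ +
      h.im = Sf A (Function.update W z (W z + δ)) x * Complex.normSq (h + δ * Δ) := by
    rw [Sf_eq_inv hA hW', h3, inv_div, Complex.div_im]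
    have hq := hQ0.ne'
    set q := Complex.normSq (h + δ * Δ)
    have h5 : -((1 + (δ : ℂ) * g).im * (h + δ * Δ).re / q - (1 + (δ : ℂ) * g).re * (h + δ * Δ).im / q) * q =
        (1 + (δ : ℂ) * g).re * (h + δ * Δ).im - (1 + (δ : ℂ) * g).im * (h + δ * Δ).re := by
      field_simp
      ring
    rw [h5]
    simp
    ring
  rw [hQ, hP]
  exact ⟨mul_pos (Sf_pos hA hW' x) hQ0, hQ0, by rw [mul_div_cancel_right₀ _ hQ0.ne']⟩

/-- change of the flux under a change of one real potential -/
theorem Sf_ratio (hA : A.IsSymm) (hW : ∀ x, (W x).im < 0) (x z : ι) :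
    ∃ t t' : ℝ, ∀ u v : ℝ, v ≠ t → u ≠ t' →
      Sf A (rez W z u) x ≤
        Sf A (rez W z v) x * (1 + |u - v| / |v - t|) ^ 2 * (1 + |u - v| / |u - t'|) ^ 2 := by
  obtain ⟨a, b, c, a', b', c', h⟩ := Sf_quad hA hW x z
  obtain ⟨t, ht⟩ := quad_ratio fun v => (h v).1
  obtain ⟨t', ht'⟩ := quad_ratio fun v => (h v).2.1
  refine ⟨(W z).re + t, (W z).re + t', fun u v hv hu => ?_⟩
  have hrez : ∀ s : ℝ, rez W z s = Function.update W z (W z + ((s - (W z).re : ℝ) : ℂ)) := by
    intro s
    unfold rez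
    congr 1
    apply Complex.ext <;> simp
  have e1 : ∀ s : ℝ, Sf A (rez W z s) x = (a * (s - (W z).re) ^ 2 + b * (s - (W z).re) + c) /
      (a' * (s - (W z).re) ^ 2 + b' * (s - (W z).re) + c') := fun s => by
    rw [hrez, (h _).2.2]
  have h1 := ht (u - (W z).re) (v - (W z).re) fun hc => hv (by linarith)
  have h2 := ht' (v - (W z).re) (u - (W z).re) fun hc => hu (by linarith)
  have e2 : u - (W z).re - (v - (W z).re) = u - v := by ring
  have e3 : v - (W z).re - (u - (W z).re) = v - u := by ring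
  have e4 : v - (W z).re - t = v - ((W z).re + t) := by ring
  have e5 : u - (W z).re - t' = u - ((W z).re + t') := by ring
  rw [e2, e4] at h1
  rw [e3, e5, abs_sub_comm v u] at h2
  have hPv := (h (v - (W z).re)).1
  have hQu := (h (u - (W z).re)).2.1
  have hQv := (h (v - (W z).re)).2.1
  rw [e1 u, e1 v]
  set Pu := a * (u - (W z).re) ^ 2 + b * (u - (W z).re) + c
  set Pv := a * (v - (W z).re) ^ 2 + b * (v - (W z).re) + c
  set Qu := a' * (u - (W z).re) ^ 2 + b' * (u - (W z).re) + c'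
  set Qv := a' * (v - (W z).re) ^ 2 + b' * (v - (W z).re) + c'
  set α := (1 + |u - v| / |v - ((W z).re + t)|) ^ 2
  set β := (1 + |u - v| / |u - ((W z).re + t')|) ^ 2
  have hβ : 0 ≤ β := sq_nonneg _
  have hα : 0 ≤ α := sq_nonneg _
  rw [div_mul_eq_mul_div, div_mul_eq_mul_div, div_le_div_iff₀ hQu hQv]
  calc Pu * Qv ≤ (Pv * α) * (Qu * β) := mul_le_mul h1 h2 hQv.le (mul_nonneg hPv.le hα)
    _ = Pv * α * β * Qu := by ring

/-- uniform upper bound of the flux -/
theorem Sf_le (hA : A.IsSymm) (hW : ∀ x, (W x).im < 0) {b : ℝ} (hb : 0 < b)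
    (hbW : ∀ a, b ≤ -(W a).im) (x : ι) :
    Sf A W x ≤ 2 * (-(W x).im) + (∑ a, |A x a|) ^ 2 / b := by
  have h0 := Gr_self_ne_zero hA hW x
  have hS := Sf_pos hA hW x
  -- row equation
  have hrow := Kmat_mulVec_Gr hA hW x x
  rw [if_pos rfl] at hrow
  have h1 : (∑ a, (A x a : ℂ) * gw A W x a) + W x = (Gr A W x x)⁻¹ := by
    have h2 : (Kmat A W).mulVec (fun z => Gr A W z x) x =
        (∑ a, (A x a : ℂ) * Gr A W a x) + W x * Gr A W x x := by
      simp only [Matrix.mulVec, dotProduct, Kmat, Matrix.add_apply, Matrix.map_apply, add_mul,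
        Finset.sum_add_distrib]
      congr 1
      rw [Finset.sum_eq_single x]
      · simp
      · intro y _ hy
        rw [Matrix.diagonal_apply_ne _ (Ne.symm hy), zero_mul]
      · intro hx
        exact absurd (Finset.mem_univ x) hx
    rw [h2] at hrow
    rw [eq_comm, inv_eq_iff_eq_inv]
    rw [← div_eq_one_iff_eq (inv_ne_zero ?_), div_inv_eq_mul]
    · rw [mul_add, Finset.mul_sum, mul_comm _ (W x)]
      rw [← hrow]
      congr 1
      refine Finset.sum_congr rfl fun a _ => ?_
      rw [Gr_eq_gw hA hW x a]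
      ring
    · intro hcon
      apply one_ne_zero (α := ℂ)
      rw [← hrow]
      have : (∑ a, (A x a : ℂ) * Gr A W a x) + W x * Gr A W x x =
          ((∑ a, (A x a : ℂ) * gw A W x a) + W x) * Gr A W x x := by
        rw [add_mul, Finset.sum_mul]
        congr 1
        refine Finset.sum_congr rfl fun a _ => ?_
        rw [Gr_eq_gw hA hW x a]
        ring
      rw [this, hcon, zero_mul]
  have h2 : Sf A W x = -(W x).im - ∑ a, A x a * (gw A W x a).im := by
    rw [Sf_eq_inv hA hW, ← h1, Complex.add_im, Complex.im_sum]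
    have : ∀ a, ((A x a : ℂ) * gw A W x a).im = A x a * (gw A W x a).im := by
      intro a
      simp
    simp only [this]
    ring
  have h3 : ∀ a, ‖gw A W x a‖ ^ 2 ≤ Sf A W x / b := by
    intro a
    rw [le_div_iff₀ hb]
    have h4 : (-(W a).im) * ‖gw A W x a‖ ^ 2 ≤ Sf A W x :=
      Finset.single_le_sum (f := fun a => (-(W a).im) * ‖gw A W x a‖ ^ 2)
        (fun a _ => mul_nonneg (by linarith [hW a]) (sq_nonneg _)) (Finset.mem_univ a)
    nlinarith [hbW a, sq_nonneg ‖gw A W x a‖]
  have h4 : ∀ a, ‖gw A W x a‖ ≤ Real.sqrt (Sf A W x / b) := fun a =>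
    Real.le_sqrt_of_sq_le (h3 a)
  have h5 : -∑ a, A x a * (gw A W x a).im ≤ (∑ a, |A x a|) * Real.sqrt (Sf A W x / b) := by
    rw [← Finset.sum_neg_distrib, Finset.sum_mul]
    refine Finset.sum_le_sum fun a _ => ?_
    calc -(A x a * (gw A W x a).im) ≤ |A x a * (gw A W x a).im| := neg_le_abs _
      _ = |A x a| * |(gw A W x a).im| := abs_mul _ _
      _ ≤ |A x a| * Real.sqrt (Sf A W x / b) :=
        mul_le_mul_of_nonneg_left ((Complex.abs_im_le_norm _).trans (h4 a)) (abs_nonneg _)
  set S := Sf A W x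
  set K := ∑ a, |A x a|
  set q := Real.sqrt (S / b) with hq
  have hq2 : q ^ 2 = S / b := Real.sq_sqrt (by positivity)
  have h6 : K * q ≤ S / 2 + K ^ 2 / (2 * b) := by
    have h7 : S / 2 + K ^ 2 / (2 * b) - K * q = (b * q - K) ^ 2 / (2 * b) := by
      have : S = b * q ^ 2 := by
        rw [hq2]
        field_simp
      rw [this]
      field_simp
      ring
    have h8 : 0 ≤ (b * q - K) ^ 2 / (2 * b) := by positivity
    linarith
  have h7 : K ^ 2 / (2 * b) = K ^ 2 / b / 2 := by
    field_simp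
  rw [h7] at h6
  linarith

end Alg

end P365Z0.H594
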