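import Vale.Agent.P365.Z0.LogMean594

/-!
# P365, T1.5, block Z8, part 2: logarithmic integrals under a law of bounded density; change of the
law of one site and of a block of sites.
-/

set_option linter.all false

namespace P365Z0.H594

open P365L P365O P365T1 Vale.Agent.P365.J376 Matrix Complex MeasureTheory Filter Topology Set
open scoped ComplexConjugate ENNReal

/-- the constant of the logarithmic mean -/
noncomputable def cL (L D : ℝ) : ℝ := 2 * Real.log (1 + 5 * Real.sqrt (L * D))

theorem cL_nonneg (L D : ℝ) : 0 ≤ cL L D :=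
  mul_nonneg (by norm_num) (Real.log_nonneg (by linarith [Real.sqrt_nonneg (L * D)]))

/-! ### one variable -/

theorem lint_half (a : ℝ) (ha : 0 < a) :
    ∫⁻ y, (Icc (0 : ℝ) a).indicator (fun y => ENNReal.ofReal (y ^ (-(1 / 2) : ℝ))) y =
      ENNReal.ofReal (2 * Real.sqrt a) := by
  rw [lintegral_indicator measurableSet_Icc]
  have h1 : IntervalIntegrable (fun y : ℝ => y ^ (-(1 / 2) : ℝ)) volume 0 a :=
    intervalIntegral.intervalIntegrable_rpow' (by norm_num)
  have h2 : IntegrableOn (fun y : ℝ => y ^ (-(1 / 2) : ℝ)) (Icc 0 a) := by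
    rw [integrableOn_Icc_iff_integrableOn_Ioc]
    exact (intervalIntegrable_iff_integrableOn_Ioc_of_le ha.le).1 h1
  rw [← ofReal_integral_eq_lintegral_ofReal h2]
  · congr 1
    rw [integral_Icc_eq_integral_Ioc, ← intervalIntegral.integral_of_le ha.le,
      integral_rpow (Or.inl (by norm_num))]
    rw [Real.zero_rpow (by norm_num), Real.sqrt_eq_rpow]
    norm_num
    ring
  · filter_upwards [ae_restrict_mem measurableSet_Icc] with y hy
    exact Real.rpow_nonneg hy.1 _

theorem lint_abs (a : ℝ) (ha : 0 < a) :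
    ∫⁻ y, (Icc (-a) a).indicator (fun y => ENNReal.ofReal (|y| ^ (-(1 / 2) : ℝ))) y ≤
      ENNReal.ofReal (4 * Real.sqrt a) := by
  set h : ℝ → ℝ≥0∞ := (Icc (0 : ℝ) a).indicator (fun y => ENNReal.ofReal (y ^ (-(1 / 2) : ℝ)))
    with hh
  have hm : Measurable h := by
    refine Measurable.indicator ?_ measurableSet_Icc
    fun_prop
  have h1 : ∀ y : ℝ, (Icc (-a) a).indicator
      (fun y => ENNReal.ofReal (|y| ^ (-(1 / 2) : ℝ))) y ≤ h y + h (-y) := by
    intro y
    by_cases hy : y ∈ Icc (-a) a
    · rw [Set.indicator_of_mem hy]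
      rcases le_total 0 y with h0 | h0
      · refine le_trans ?_ le_self_add
        rw [hh, Set.indicator_of_mem (show y ∈ Icc (0 : ℝ) a from ⟨h0, hy.2⟩), abs_of_nonneg h0]
      · refine le_trans ?_ le_add_self
        rw [hh, Set.indicator_of_mem (show -y ∈ Icc (0 : ℝ) a from ⟨by linarith, by linarith [hy.1]⟩),
          abs_of_nonpos h0]
    · rw [Set.indicator_of_notMem hy]
      exact bot_le
  calc ∫⁻ y, (Icc (-a) a).indicator (fun y => ENNReal.ofReal (|y| ^ (-(1 / 2) : ℝ))) y
      ≤ ∫⁻ y, (h y + h (-y)) := lintegral_mono h1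
    _ = (∫⁻ y, h y) + ∫⁻ y, h (-y) := lintegral_add_left hm _
    _ = (∫⁻ y, h y) + ∫⁻ y, h y := by rw [lintegral_neg_eq_self h]
    _ = ENNReal.ofReal (2 * Real.sqrt a) + ENNReal.ofReal (2 * Real.sqrt a) := by
        rw [hh, lint_half a ha]
    _ = ENNReal.ofReal (4 * Real.sqrt a) := by
        rw [← ENNReal.ofReal_add (by positivity) (by positivity)]
        congr 1
        ring

/-- **half moment** under a law of density at most `D` -/
theorem half_moment (μ : Measure ℝ) [IsProbabilityMeasure μ] {D : ℝ} (hD0 : 0 < D)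
    (hD : DensLe D μ) (t : ℝ) :
    ∫⁻ v, ENNReal.ofReal (|v - t| ^ (-(1 / 2) : ℝ)) ∂μ ≤ ENNReal.ofReal (5 * Real.sqrt D) := by
  set a := 1 / D with ha
  have ha0 : 0 < a := by positivity
  set g : ℝ → ℝ≥0∞ := (Icc (-a) a).indicator (fun y => ENNReal.ofReal (|y| ^ (-(1 / 2) : ℝ)))
    with hg
  have hm : Measurable g := by
    refine Measurable.indicator ?_ measurableSet_Icc
    fun_prop
  have h1 : ∀ v : ℝ, ENNReal.ofReal (|v - t| ^ (-(1 / 2) : ℝ)) ≤
      ENNReal.ofReal (Real.sqrt D) + g (v - t) := by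
    intro v
    by_cases hy : v - t ∈ Icc (-a) a
    · refine le_trans ?_ le_add_self
      rw [hg, Set.indicator_of_mem hy]
    · refine le_trans ?_ le_self_add
      refine ENNReal.ofReal_le_ofReal ?_
      have h2 : a < |v - t| := by
        by_contra hcon
        push Not at hcon
        exact hy ⟨by linarith [(abs_le.1 hcon).1], (abs_le.1 hcon).2⟩
      calc |v - t| ^ (-(1 / 2) : ℝ) ≤ a ^ (-(1 / 2) : ℝ) :=
            Real.rpow_le_rpow_of_nonpos ha0 h2.le (by norm_num)
        _ = Real.sqrt D := by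
            rw [ha, one_div, Real.inv_rpow hD0.le, Real.rpow_neg hD0.le, inv_inv,
              Real.sqrt_eq_rpow]
  calc ∫⁻ v, ENNReal.ofReal (|v - t| ^ (-(1 / 2) : ℝ)) ∂μ
      ≤ ∫⁻ v, (ENNReal.ofReal (Real.sqrt D) + g (v - t)) ∂μ := lintegral_mono h1
    _ = ENNReal.ofReal (Real.sqrt D) + ∫⁻ v, g (v - t) ∂μ := by
        rw [lintegral_add_left measurable_const, lintegral_const, measure_univ, mul_one]
    _ ≤ ENNReal.ofReal (Real.sqrt D) + ∫⁻ v, g (v - t) ∂(ENNReal.ofReal D • volume) := by
        gcongr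
        exact hD
    _ = ENNReal.ofReal (Real.sqrt D) + ENNReal.ofReal D * ∫⁻ v, g v := by
        rw [lintegral_smul_measure, lintegral_sub_right_eq_self g t, smul_eq_mul]
    _ ≤ ENNReal.ofReal (Real.sqrt D) + ENNReal.ofReal D * ENNReal.ofReal (4 * Real.sqrt a) := by
        gcongr
        exact lint_abs a ha0
    _ = ENNReal.ofReal (5 * Real.sqrt D) := by
        rw [← ENNReal.ofReal_mul hD0.le, ← ENNReal.ofReal_add (by positivity) (by positivity)]
        congr 1
        have h3 : D * Real.sqrt a = Real.sqrt D := by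
          have h4 : Real.sqrt a = (Real.sqrt D)⁻¹ := by
            rw [ha, one_div, Real.sqrt_inv]
          rw [h4]
          have h5 := Real.mul_self_sqrt hD0.le
          have h6 : 0 < Real.sqrt D := Real.sqrt_pos.2 hD0
          field_simp
          nlinarith
        calc Real.sqrt D + D * (4 * Real.sqrt a) = Real.sqrt D + 4 * (D * Real.sqrt a) := by ring
          _ = 5 * Real.sqrt D := by rw [h3]; ring

theorem meas_half (t : ℝ) : Measurable fun v : ℝ => |v - t| ^ (-(1 / 2) : ℝ) :=
  ((continuous_abs.comp (continuous_id.sub continuous_const)).measurable).pow_const _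

theorem integrable_half (μ : Measure ℝ) [IsProbabilityMeasure μ] {D : ℝ} (hD0 : 0 < D)
    (hD : DensLe D μ) (t : ℝ) : Integrable (fun v => |v - t| ^ (-(1 / 2) : ℝ)) μ := by
  refine ⟨(meas_half t).aestronglyMeasurable, ?_⟩
  rw [hasFiniteIntegral_iff_ofReal (Filter.Eventually.of_forall fun v =>
    Real.rpow_nonneg (abs_nonneg _) _)]
  exact (half_moment μ hD0 hD t).trans_lt ENNReal.ofReal_lt_top

theorem integral_half_le (μ : Measure ℝ) [IsProbabilityMeasure μ] {D : ℝ} (hD0 : 0 < D)
    (hD : DensLe D μ) (t : ℝ) : ∫ v, |v - t| ^ (-(1 / 2) : ℝ) ∂μ ≤ 5 * Real.sqrt D := by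
  rw [integral_eq_lintegral_of_nonneg_ae (Filter.Eventually.of_forall fun v =>
    Real.rpow_nonneg (abs_nonneg _) _) (meas_half t).aestronglyMeasurable]
  exact ENNReal.toReal_le_of_le_ofReal (by positivity) (half_moment μ hD0 hD t)

/-- pointwise bound of the logarithm by the half power -/
theorem log_le_half {L K y : ℝ} (hL : 0 ≤ L) (hK : 0 < K) :
    Real.log (1 + L / |y|) ≤
      2 * Real.log K - 2 + 2 * (1 + Real.sqrt L * |y| ^ (-(1 / 2) : ℝ)) / K := by
  set s := Real.sqrt L * |y| ^ (-(1 / 2) : ℝ) with hs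
  have hs0 : 0 ≤ s := by positivity
  have h1 : 1 + L / |y| ≤ (1 + s) ^ 2 := by
    have h2 : L / |y| ≤ s ^ 2 := by
      rcases (abs_nonneg y).eq_or_lt with h0 | h0
      · rw [← h0, div_zero]
        positivity
      · rw [hs, mul_pow, Real.sq_sqrt hL, ← Real.rpow_natCast (|y| ^ (-(1 / 2) : ℝ)),
          ← Real.rpow_mul h0.le]
        norm_num
        rw [Real.rpow_neg_one, div_eq_mul_inv]
    nlinarith
  have h2 : 0 ≤ L / |y| := by positivity
  calc Real.log (1 + L / |y|) ≤ Real.log ((1 + s) ^ 2) := Real.log_le_log (by linarith) h1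
    _ = 2 * Real.log (1 + s) := by
        rw [Real.log_pow]
        norm_num
    _ = 2 * (Real.log K + Real.log ((1 + s) / K)) := by
        rw [← Real.log_mul hK.ne' (by positivity)]
        congr 2
        field_simp
    _ ≤ 2 * (Real.log K + ((1 + s) / K - 1)) := by
        have := Real.log_le_sub_one_of_pos (show 0 < (1 + s) / K by positivity)
        linarith
    _ = 2 * Real.log K - 2 + 2 * (1 + s) / K := by ring

theorem log_nonneg' {L y : ℝ} (hL : 0 ≤ L) : 0 ≤ Real.log (1 + L / |y|) :=
  Real.log_nonneg (by linarith [show 0 ≤ L / |y| by positivity])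

theorem measurable_log (L t : ℝ) : Measurable fun v : ℝ => Real.log (1 + L / |v - t|) := by
  refine Real.measurable_log.comp (measurable_const.add (measurable_const.div ?_))
  exact (continuous_abs.comp (continuous_id.sub continuous_const)).measurable

theorem integrable_log (μ : Measure ℝ) [IsProbabilityMeasure μ] {D : ℝ} (hD0 : 0 < D)
    (hD : DensLe D μ) {L : ℝ} (hL : 0 ≤ L) (t : ℝ) :
    Integrable (fun v => Real.log (1 + L / |v - t|)) μ := by
  have h1 : Integrable (fun v => 2 * Real.log 1 - 2 +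
      2 * (1 + Real.sqrt L * |v - t| ^ (-(1 / 2) : ℝ)) / 1) μ := by
    refine (integrable_const _).add ?_
    refine Integrable.div_const (Integrable.const_mul ?_ 2) 1
    exact (integrable_const _).add ((integrable_half μ hD0 hD t).const_mul _)
  refine h1.mono' (measurable_log L t).aestronglyMeasurable
    (Filter.Eventually.of_forall fun v => ?_)
  rw [Real.norm_eq_abs, abs_of_nonneg (log_nonneg' hL)]
  exact log_le_half hL one_pos

/-- **the logarithmic integral** -/
theorem integral_log_le (μ : Measure ℝ) [IsProbabilityMeasure μ] {D : ℝ} (hD0 : 0 < D)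
    (hD : DensLe D μ) {L : ℝ} (hL : 0 ≤ L) (t : ℝ) :
    ∫ v, Real.log (1 + L / |v - t|) ∂μ ≤ cL L D := by
  set K := 1 + 5 * Real.sqrt (L * D) with hK
  have hK0 : 0 < K := by positivity
  have h1 : Integrable (fun v => 2 * Real.log K - 2 +
      2 * (1 + Real.sqrt L * |v - t| ^ (-(1 / 2) : ℝ)) / K) μ := by
    refine (integrable_const _).add ?_
    refine Integrable.div_const (Integrable.const_mul ?_ 2) K
    exact (integrable_const _).add ((integrable_half μ hD0 hD t).const_mul _)
  calc ∫ v, Real.log (1 + L / |v - t|) ∂μ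
      ≤ ∫ v, (2 * Real.log K - 2 +
          2 * (1 + Real.sqrt L * |v - t| ^ (-(1 / 2) : ℝ)) / K) ∂μ :=
        integral_mono (integrable_log μ hD0 hD hL t) h1 fun v => log_le_half hL hK0
    _ = 2 * Real.log K - 2 + 2 * (1 + Real.sqrt L * ∫ v, |v - t| ^ (-(1 / 2) : ℝ) ∂μ) / K := by
        have e1 : ∀ v : ℝ, 2 * Real.log K - 2 +
            2 * (1 + Real.sqrt L * |v - t| ^ (-(1 / 2) : ℝ)) / K =
            (2 * Real.log K - 2 + 2 / K) + (2 * Real.sqrt L / K) * |v - t| ^ (-(1 / 2) : ℝ) := by
          intro v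
          ring
        simp_rw [e1]
        rw [integral_add (integrable_const _) ((integrable_half μ hD0 hD t).const_mul _),
          integral_const_mul, integral_const]
        have e2 : μ.real univ = 1 := by simp
        rw [e2, smul_eq_mul, one_mul]
        ring
    _ ≤ 2 * Real.log K - 2 + 2 * (1 + Real.sqrt L * (5 * Real.sqrt D)) / K := by
        gcongr
        exact integral_half_le μ hD0 hD t
    _ = cL L D := by
        have h2 : 1 + Real.sqrt L * (5 * Real.sqrt D) = K := by
          rw [hK, Real.sqrt_mul hL]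
          ring
        rw [h2, mul_div_assoc, div_self hK0.ne', cL]
        ring

theorem DensLe.null {D : ℝ} {μ : Measure ℝ} (hD : DensLe D μ) (t : ℝ) : μ {t} = 0 := by
  refine le_antisymm ((hD {t}).trans ?_) bot_le
  simp

theorem DensLe.ae_ne {D : ℝ} {μ : Measure ℝ} (hD : DensLe D μ) (t : ℝ) : ∀ᵐ v ∂μ, v ≠ t := by
  rw [ae_iff]
  simpa using DensLe.null hD t

/-- **change of the law of one variable** -/
theorem one_law (μ μ' : Measure ℝ) [IsProbabilityMeasure μ] [IsProbabilityMeasure μ']
    {D D' lam : ℝ} (hD0 : 0 < D) (hD0' : 0 < D') (hD : DensLe D μ) (hD' : DensLe D' μ')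
    (hlam : 0 ≤ lam) (hs : μ (Icc (-lam) lam)ᶜ = 0) (hs' : μ' (Icc (-lam) lam)ᶜ = 0)
    (F : ℝ → ℝ) (hF : Measurable F) {M : ℝ} (hM : ∀ v, |F v| ≤ M) (t t' : ℝ)
    (h : ∀ u v : ℝ, v ≠ t → u ≠ t' → F u ≤
      F v + 2 * Real.log (1 + |u - v| / |v - t|) + 2 * Real.log (1 + |u - v| / |u - t'|)) :
    ∫ u, F u ∂μ' ≤ ∫ v, F v ∂μ + (2 * cL (2 * lam) D + 2 * cL (2 * lam) D') := by
  have hFi : Integrable F μ := Integrable.of_bound hF.aestronglyMeasurable M
    (Filter.Eventually.of_forall hM)
  have hFi' : Integrable F μ' := Integrable.of_bound hF.aestronglyMeasurable M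
    (Filter.Eventually.of_forall hM)
  have hL : (0 : ℝ) ≤ 2 * lam := by linarith
  have hmem : ∀ᵐ v ∂μ, v ∈ Icc (-lam) lam := by
    rw [ae_iff]
    exact hs
  have hmem' : ∀ᵐ v ∂μ', v ∈ Icc (-lam) lam := by
    rw [ae_iff]
    exact hs'
  have hkey : ∀ u v : ℝ, u ∈ Icc (-lam) lam → v ∈ Icc (-lam) lam → v ≠ t → u ≠ t' →
      F u ≤ F v + 2 * Real.log (1 + 2 * lam / |v - t|) +
        2 * Real.log (1 + 2 * lam / |u - t'|) := by
    intro u v hu hv hvt hut
    have h1 : |u - v| ≤ 2 * lam := abs_le.2 ⟨by linarith [hu.1, hv.2], by linarith [hu.2, hv.1]⟩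
    have h2 : 0 < |v - t| := abs_pos.2 (sub_ne_zero.2 hvt)
    have h3 : 0 < |u - t'| := abs_pos.2 (sub_ne_zero.2 hut)
    have h4 : Real.log (1 + |u - v| / |v - t|) ≤ Real.log (1 + 2 * lam / |v - t|) :=
      Real.log_le_log (by positivity) (by gcongr)
    have h5 : Real.log (1 + |u - v| / |u - t'|) ≤ Real.log (1 + 2 * lam / |u - t'|) :=
      Real.log_le_log (by positivity) (by gcongr)
    linarith [h u v hvt hut]
  have hi' := integrable_log μ' hD0' hD' hL t'
  have hi := integrable_log μ hD0 hD hL t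
  have h1 : ∀ᵐ v ∂μ, ∫ u, F u ∂μ' ≤
      F v + 2 * Real.log (1 + 2 * lam / |v - t|) + 2 * cL (2 * lam) D' := by
    filter_upwards [hmem, DensLe.ae_ne hD t] with v hv hvt
    calc ∫ u, F u ∂μ' ≤ ∫ u, ((F v + 2 * Real.log (1 + 2 * lam / |v - t|)) +
          2 * Real.log (1 + 2 * lam / |u - t'|)) ∂μ' := by
          refine integral_mono_ae hFi' ((integrable_const _).add (hi'.const_mul 2)) ?_
          filter_upwards [hmem', DensLe.ae_ne hD' t'] with u hu hut
          exact hkey u v hu hv hvt hut
      _ = (F v + 2 * Real.log (1 + 2 * lam / |v - t|)) +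
          2 * ∫ u, Real.log (1 + 2 * lam / |u - t'|) ∂μ' := by
          rw [integral_add (integrable_const _) (hi'.const_mul 2), integral_const_mul]
          simp
      _ ≤ _ := by
          have := integral_log_le μ' hD0' hD' hL t'
          linarith
  calc ∫ u, F u ∂μ' = ∫ v, (∫ u, F u ∂μ') ∂μ := by simp
    _ ≤ ∫ v, ((F v + 2 * Real.log (1 + 2 * lam / |v - t|)) + 2 * cL (2 * lam) D') ∂μ :=
        integral_mono_ae (integrable_const _)
          ((hFi.add (hi.const_mul 2)).add (integrable_const _)) h1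
    _ = ∫ v, F v ∂μ + 2 * ∫ v, Real.log (1 + 2 * lam / |v - t|) ∂μ + 2 * cL (2 * lam) D' := by
        rw [integral_add (f := fun v => F v + 2 * Real.log (1 + 2 * lam / |v - t|))
            (g := fun _ => 2 * cL (2 * lam) D') (hFi.add (hi.const_mul 2)) (integrable_const _),
          integral_add (f := F) (g := fun v => 2 * Real.log (1 + 2 * lam / |v - t|)) hFi
            (hi.const_mul 2), integral_const_mul]
        simp
    _ ≤ _ := by
        have := integral_log_le μ hD0 hD hL t
        linarith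

/-! ### product laws -/

section Pi

variable {ι : Type*} [Fintype ι] [DecidableEq ι]

theorem measurePreserving_resample2 (μ μ' : ι → Measure ℝ) [∀ i, IsProbabilityMeasure (μ i)]
    [∀ i, IsProbabilityMeasure (μ' i)] (x : ι) (h : ∀ i, i ≠ x → μ i = μ' i) :
    MeasurePreserving (fun p : (ι → ℝ) × ℝ => Function.update p.1 x p.2)
      ((Measure.pi μ).prod (μ' x)) (Measure.pi μ') := by
  have hm : Measurable fun p : (ι → ℝ) × ℝ => Function.update p.1 x p.2 := by
    refine measurable_pi_lambda _ fun i => ?_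
    by_cases hi : i = x
    · subst hi
      simp only [Function.update_self]
      exact measurable_snd
    · simp only [Function.update_of_ne hi]
      exact (measurable_pi_apply i).comp measurable_fst
  refine ⟨hm, ?_⟩
  symm
  refine Measure.pi_eq fun s hs => ?_
  rw [Measure.map_apply hm (MeasurableSet.univ_pi hs)]
  have h1 : (fun p : (ι → ℝ) × ℝ => Function.update p.1 x p.2) ⁻¹' Set.univ.pi s =
      (Set.univ.pi (Function.update s x Set.univ)) ×ˢ (s x) := by
    ext ⟨c, t⟩
    simp only [Set.mem_preimage, Set.mem_univ_pi, Set.mem_prod]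
    constructor
    · intro h
      refine ⟨fun i => ?_, ?_⟩
      · by_cases hi : i = x
        · subst hi
          rw [Function.update_self]
          exact Set.mem_univ _
        · have := h i
          rw [Function.update_of_ne hi] at this
          rwa [Function.update_of_ne hi]
      · have := h x
        rwa [Function.update_self] at this
    · rintro ⟨h, ht⟩ i
      by_cases hi : i = x
      · subst hi
        rwa [Function.update_self]
      · have := h i
        rw [Function.update_of_ne hi] at this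
        rwa [Function.update_of_ne hi]
  rw [h1, Measure.prod_prod, Measure.pi_pi, ← Finset.mul_prod_erase _ _ (Finset.mem_univ x),
    ← Finset.mul_prod_erase Finset.univ (fun i => μ' i (s i)) (Finset.mem_univ x),
    Function.update_self, measure_univ, one_mul, mul_comm]
  congr 1
  refine Finset.prod_congr rfl fun i hi => ?_
  rw [Function.update_of_ne (Finset.ne_of_mem_erase hi), h i (Finset.ne_of_mem_erase hi)]

/-- **change of the law of one site** -/
theorem one_site (μ μ' : ι → Measure ℝ) [∀ i, IsProbabilityMeasure (μ i)]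
    [∀ i, IsProbabilityMeasure (μ' i)] (x : ι) (h : ∀ i, i ≠ x → μ i = μ' i)
    (G : (ι → ℝ) → ℝ) (hG : Measurable G) {M : ℝ} (hM : ∀ v, |G v| ≤ M) {K : ℝ}
    (hK : ∀ c : ι → ℝ, ∫ s, G (Function.update c x s) ∂(μ' x) ≤
      ∫ s, G (Function.update c x s) ∂(μ x) + K) :
    ∫ v, G v ∂(Measure.pi μ') ≤ ∫ v, G v ∂(Measure.pi μ) + K := by
  have key : ∀ (ρ : ι → Measure ℝ) [∀ i, IsProbabilityMeasure (ρ i)],
      (∀ i, i ≠ x → μ i = ρ i) →
      (∫ v, G v ∂(Measure.pi ρ) =
        ∫ c, ∫ s, G (Function.update c x s) ∂(ρ x) ∂(Measure.pi μ)) ∧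
      Integrable (fun c => ∫ s, G (Function.update c x s) ∂(ρ x)) (Measure.pi μ) := by
    intro ρ _ hρ
    have hmp := measurePreserving_resample2 μ ρ x hρ
    have hi : Integrable (fun p : (ι → ℝ) × ℝ => G (Function.update p.1 x p.2))
        ((Measure.pi μ).prod (ρ x)) :=
      Integrable.of_bound (hG.comp hmp.measurable).aestronglyMeasurable M
        (Filter.Eventually.of_forall fun p => hM _)
    refine ⟨?_, hi.integral_prod_left⟩
    rw [← integral_prod _ hi]
    conv_lhs => rw [← hmp.map_eq]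
    exact integral_map hmp.aemeasurable hG.aestronglyMeasurable
  obtain ⟨h1, h2⟩ := key μ fun _ _ => rfl
  obtain ⟨h3, h4⟩ := key μ' h
  rw [h1, h3]
  calc ∫ c, ∫ s, G (Function.update c x s) ∂(μ' x) ∂(Measure.pi μ)
      ≤ ∫ c, (∫ s, G (Function.update c x s) ∂(μ x) + K) ∂(Measure.pi μ) :=
        integral_mono h4 (h2.add (integrable_const _)) hK
    _ = _ := by
        rw [integral_add h2 (integrable_const _)]
        simp

/-- **change of the laws of a block of sites** -/
theorem block_sites (μ μ' : ι → Measure ℝ) [∀ i, IsProbabilityMeasure (μ i)]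
    [∀ i, IsProbabilityMeasure (μ' i)] (B : Finset ι) (h : ∀ i, i ∉ B → μ i = μ' i)
    (G : (ι → ℝ) → ℝ) (hG : Measurable G) {M : ℝ} (hM : ∀ v, |G v| ≤ M) (K : ι → ℝ)
    (hK : ∀ x ∈ B, ∀ c : ι → ℝ, ∫ s, G (Function.update c x s) ∂(μ' x) ≤
      ∫ s, G (Function.update c x s) ∂(μ x) + K x) :
    ∫ v, G v ∂(Measure.pi μ') ≤ ∫ v, G v ∂(Measure.pi μ) + ∑ x ∈ B, K x := by
  have key : ∀ S : Finset ι, S ⊆ B →
      ∫ v, G v ∂(Measure.pi fun i => if i ∈ S then μ' i else μ i) ≤
        ∫ v, G v ∂(Measure.pi μ) + ∑ x ∈ S, K x := by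
    intro S
    induction S using Finset.induction_on with
    | empty =>
      intro _
      simp
    | insert x S hx ih =>
      intro hS
      have hxB : x ∈ B := hS (Finset.mem_insert_self _ _)
      have ih' := ih fun i hi => hS (Finset.mem_insert_of_mem hi)
      haveI : ∀ i, IsProbabilityMeasure (if i ∈ S then μ' i else μ i) := fun i => by
        split_ifs <;> infer_instance
      haveI : ∀ i, IsProbabilityMeasure (if i ∈ insert x S then μ' i else μ i) := fun i => by
        split_ifs <;> infer_instance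
      have h1 := one_site (fun i => if i ∈ S then μ' i else μ i)
        (fun i => if i ∈ insert x S then μ' i else μ i) x
        (fun i hi => by simp [Finset.mem_insert, hi]) G hG hM (K := K x)
        (fun c => by simpa [hx] using hK x hxB c)
      rw [Finset.sum_insert hx]
      linarith
  have h1 := key B subset_rfl
  have h2 : (fun i => if i ∈ B then μ' i else μ i) = μ' := by
    funext i
    by_cases hi : i ∈ B
    · simp [hi]
    · simp [hi, h i hi]
  rwa [h2] at h1

end Pi

end P365Z0.H594
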