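import Vale.Agent.P365.J376.V3Main
import Vale.Agent.P365.T1.LawInst795

/-!
# P365, Z0, block Z1: the loss along a stage.

`Ls` is the nonnegative part of the derivative of the energy in one absorption; it is kept in the
flow inequality of the chain (`J376`), so that the loss is integrable along a stage.
-/

set_option linter.all false

namespace P365Z.Loss327

open P365L P365O P365T1 P365L.TL Matrix Complex MeasureTheory Filter Topology Set
open Vale.Agent.P365.J376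
open scoped ComplexConjugate ENNReal

section site

variable {ι : Type*} [Fintype ι] [DecidableEq ι] {A : Matrix ι ι ℝ} {W : ι → ℂ}

/-- loss of one site -/
noncomputable def Ls (A : Matrix ι ι ℝ) (W : ι → ℂ) (f : ι → ℝ) (z : ι) : ℝ :=
  4 * Bf A W f z ^ 2 * Sf A W z * ‖Gr A W z z‖ ^ 4

theorem Ls_nonneg (hA : A.IsSymm) (hW : ∀ x, (W x).im < 0) (f : ι → ℝ) (z : ι) :
    0 ≤ Ls A W f z :=
  mul_nonneg (mul_nonneg (mul_nonneg (by norm_num) (sq_nonneg _)) (Sf_pos hA hW z).le)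
    (pow_nonneg (norm_nonneg _) 4)

/-- `Ls = 4 w m μ²`, `w = (Im G)² / |G|²` -/
theorem Ls_mul (hA : A.IsSymm) (hW : ∀ x, (W x).im < 0) (f : ι → ℝ) (z : ι) :
    Ls A W f z * ‖Gr A W z z‖ ^ 2 =
      4 * mm A W z ^ 2 * (mm A W z * muf A W f z ^ 2) := by
  have h1 := mm_muf_eq hA hW f z
  have h2 := mm_eq_Sf hA hW z
  have h3 : mm A W z ^ 2 * (mm A W z * muf A W f z ^ 2) =
      mm A W z * (mm A W z * muf A W f z) ^ 2 := by ring
  rw [mul_assoc 4, h3, h1]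
  nth_rewrite 1 [h2]
  unfold Ls
  ring

theorem dEn_eq3 (hA : A.IsSymm) (hW : ∀ x, (W x).im < 0) (f : ι → ℝ) (z : ι) :
    dEn A W f z = Ls A W f z + (I * Cz A W f z * Gr A W z z ^ 2).re :=
  dEn_eq2 hA hW f z

theorem abs_Ls_sub_dEn_le (hA : A.IsSymm) (hW : ∀ x, (W x).im < 0) (f : ι → ℝ) (z : ι) :
    |Ls A W f z - dEn A W f z| ≤ 10 * Mf A W f z := by
  rw [dEn_eq3 hA hW, Mf_eq hA hW]
  have h2 := Complex.abs_re_le_norm (I * Cz A W f z * Gr A W z z ^ 2)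
  rw [norm_mul, norm_mul, norm_I, one_mul, norm_pow] at h2
  have h3 := norm_Cz_le hA hW f z
  have h5 : ‖Cz A W f z‖ * ‖Gr A W z z‖ ^ 2 ≤ 10 * Nf A W f z * ‖Gr A W z z‖ ^ 2 := by gcongr
  have h6 : Ls A W f z - (Ls A W f z + (I * Cz A W f z * Gr A W z z ^ 2).re) =
      -(I * Cz A W f z * Gr A W z z ^ 2).re := by ring
  rw [h6, abs_neg]
  linarith

theorem Sf_rez (hA : A.IsSymm) (hW : ∀ x, (W x).im < 0) (z : ι) (u : ℝ) :
    Sf A (rez W z u) z = Sf A W z := by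
  have hv : ((u : ℂ) + ((W z).im : ℂ) * I).im < 0 := by rw [rez_im]; exact hW z
  unfold Sf
  refine Finset.sum_congr rfl fun a _ => ?_
  have h4 : gw A (rez W z u) z a = gw A W z a := gw_upd hA hW hv a
  rw [h4]
  by_cases ha : a = z
  · subst ha
    rw [rez, Function.update_self, rez_im]
  · rw [rez, Function.update_of_ne ha]

theorem Ls_rez (hA : A.IsSymm) (hW : ∀ x, (W x).im < 0) (f : ι → ℝ) (z : ι) (u : ℝ) :
    Ls A (rez W z u) f z =
      4 * Bf A W f z ^ 2 * Sf A W z * ‖((u : ℂ) - sz A W z)⁻¹‖ ^ 4 := by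
  have hv : ((u : ℂ) + ((W z).im : ℂ) * I).im < 0 := by rw [rez_im]; exact hW z
  have h1 : Bf A (rez W z u) f z = Bf A W f z := Bf_upd hA hW hv f
  rw [Ls, h1, Sf_rez hA hW, Gr_rez hA hW]

/-- the law error: `Ls - dEn` at the real part `u` -/
theorem Ls_sub_dEn_rez (hA : A.IsSymm) (hW : ∀ x, (W x).im < 0) (f : ι → ℝ) (z : ι) (u : ℝ) :
    Ls A (rez W z u) f z - dEn A (rez W z u) f z =
      -(I * Cz A W f z * (1 / ((u : ℂ) - sz A W z) ^ 2)).re := by
  rw [dEn_rez hA hW, Ls_rez hA hW]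
  ring

/-- law error, arbitrary law -/
theorem integral_Ls_sub_le {ν : Measure ℝ} [IsProbabilityMeasure ν] (hA : A.IsSymm)
    (hW : ∀ x, (W x).im < 0) (f : ι → ℝ) (z : ι) :
    ∫ u, (Ls A (rez W z u) f z - dEn A (rez W z u) f z) ∂ν ≤
      10 * Nf A W f z * ‖∫ u, 1 / ((u : ℂ) - sz A W z) ^ 2 ∂ν‖ := by
  simp only [Ls_sub_dEn_rez hA hW]
  have hi2 : Integrable (fun u : ℝ => I * Cz A W f z * (1 / ((u : ℂ) - sz A W z) ^ 2)) ν :=
    (integrable_inv2 hA hW z).const_mul _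
  rw [integral_neg]
  have h2 : (∫ u, (I * Cz A W f z * (1 / ((u : ℂ) - sz A W z) ^ 2)).re ∂ν) =
      (I * Cz A W f z * ∫ u, 1 / ((u : ℂ) - sz A W z) ^ 2 ∂ν).re := by
    rw [← integral_const_mul]
    exact integral_re hi2
  have h3 := Complex.abs_re_le_norm (I * Cz A W f z * ∫ u, 1 / ((u : ℂ) - sz A W z) ^ 2 ∂ν)
  rw [norm_mul, norm_mul, norm_I, one_mul] at h3
  have h4 := norm_Cz_le hA hW f z
  have h5 : ‖Cz A W f z‖ * ‖∫ u, 1 / ((u : ℂ) - sz A W z) ^ 2 ∂ν‖ ≤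
      10 * Nf A W f z * ‖∫ u, 1 / ((u : ℂ) - sz A W z) ^ 2 ∂ν‖ := by gcongr
  have h6 := neg_abs_le (I * Cz A W f z * ∫ u, 1 / ((u : ℂ) - sz A W z) ^ 2 ∂ν).re
  rw [h2]
  linarith

/-- law error, any law with a quadratically decaying second Cauchy transform -/
theorem costL_of_kernel {ν : Measure ℝ} [IsProbabilityMeasure ν] {C : ℝ} (hC : 0 ≤ C)
    (hk : ∀ z : ℂ, z.im ≠ 0 → ‖∫ v, 1 / ((v : ℂ) - z) ^ 2 ∂ν‖ ≤ C / (1 + ‖z‖ ^ 2))
    (hA : A.IsSymm) (hW : ∀ x, (W x).im < 0) (f : ι → ℝ) (z : ι) (E : ℝ) :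
    ∫ v, (Ls A (rez W z (v - E)) f z - dEn A (rez W z (v - E)) f z) ∂ν ≤
      20 * C * (1 + E ^ 2) * (Nf A W f z / (1 + ‖sg A W z‖ ^ 2)) := by
  have hm : AEMeasurable (fun v : ℝ => v - E) ν := (measurable_id.sub_const E).aemeasurable
  haveI : IsProbabilityMeasure (ν.map fun v => v - E) := Measure.isProbabilityMeasure_map hm
  have hcont : Continuous fun u => Ls A (rez W z u) f z - dEn A (rez W z u) f z := by
    simp only [Ls_sub_dEn_rez hA hW]
    refine (Complex.continuous_re.comp (continuous_const.mul ?_)).neg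
    simp only [one_div, ← inv_pow]
    exact (continuous_inv_sub hA hW z).pow 2
  have h1 := integral_Ls_sub_le (ν := ν.map fun v => v - E) hA hW f z
  rw [integral_map hm hcont.aestronglyMeasurable,
    integral_map hm (integrable_inv2 hA hW z).aestronglyMeasurable] at h1
  refine h1.trans ?_
  have hz : (sz A W z + E).im ≠ 0 := by
    rw [Complex.add_im, Complex.ofReal_im, add_zero]
    exact (sz_im_pos hA hW z).ne'
  have h2 := hk (sz A W z + E) hz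
  have h3 : ∀ v : ℝ, 1 / (((v - E : ℝ) : ℂ) - sz A W z) ^ 2 =
      1 / ((v : ℂ) - (sz A W z + E)) ^ 2 := by
    intro v
    congr 2
    push_cast
    ring
  simp only [h3]
  have h4 := norm_sg_le_norm_sz hA hW z
  have h5 : ‖sz A W z‖ ^ 2 ≤ 2 * ‖sz A W z + E‖ ^ 2 + 2 * E ^ 2 := by
    have h6 : ‖sz A W z‖ ≤ ‖sz A W z + E‖ + |E| := by
      calc ‖sz A W z‖ = ‖(sz A W z + E) - E‖ := by rw [add_sub_cancel_right]
        _ ≤ ‖sz A W z + E‖ + ‖(E : ℂ)‖ := norm_sub_le _ _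
        _ = _ := by rw [Complex.norm_real, Real.norm_eq_abs]
    have h7 := norm_nonneg (sz A W z)
    have h8 := norm_nonneg (sz A W z + E)
    have h9 := sq_abs E
    nlinarith [sq_nonneg (‖sz A W z + E‖ - |E|), abs_nonneg E]
  have h6 : 1 + ‖sg A W z‖ ^ 2 ≤ 2 * (1 + E ^ 2) * (1 + ‖sz A W z + E‖ ^ 2) := by
    nlinarith [sq_nonneg E, sq_nonneg ‖sz A W z + E‖,
      mul_nonneg (sq_nonneg E) (sq_nonneg ‖sz A W z + E‖)]
  have h7 : C / (1 + ‖sz A W z + E‖ ^ 2) ≤ 2 * (1 + E ^ 2) * C / (1 + ‖sg A W z‖ ^ 2) := by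
    rw [div_le_div_iff₀ (by positivity) (by positivity)]
    nlinarith
  have h8 := Nf_nonneg hW (A := A) f z
  calc 10 * Nf A W f z * ‖∫ v, 1 / ((v : ℂ) - (sz A W z + E)) ^ 2 ∂ν‖
      ≤ 10 * Nf A W f z * (2 * (1 + E ^ 2) * C / (1 + ‖sg A W z‖ ^ 2)) :=
        mul_le_mul_of_nonneg_left (h2.trans h7) (by positivity)
    _ = _ := by ring

end site

/-- cost constant `C` at energy `E` with the loss kept -/
def CostLL (E C : ℝ) (ν : Measure ℝ) : Prop :=
  ∀ (ι : Type) [Fintype ι] [DecidableEq ι] (A : Matrix ι ι ℝ) (W : ι → ℂ) (f : ι → ℝ) (z : ι),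
    A.IsSymm → (∀ x, (W x).im < 0) →
      ∫ v, (Ls A (rez W z (v - E)) f z - dEn A (rez W z (v - E)) f z) ∂ν ≤ C * Yf A W f z

/-- the smooth law, same constant as in `cost_nuS` -/
theorem costL_nuS {lam l : ℝ} (hl : 0 < l) (h : l < lam) (E : ℝ) :
    CostLL E (20 * CS lam l * (1 + E ^ 2)) (nuS lam l) := by
  intro ι _ _ A W f z hA hW
  haveI := isProbabilityMeasure_nuS hl h
  exact costL_of_kernel (C := CS lam l) (by unfold CS; positivity)
    (fun z hz => norm_cauchy2_nuS hl h hz) hA hW f z E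

theorem costL_nuS_le {lam : ℝ} (hlam : 0 < lam) (E : ℝ) :
    CostLL E (Conc.CaS lam E) (nuS lam (lam * Conc.tau0 / 2)) :=
  costL_nuS (Conc.l0_pos hlam) (Conc.l0_lt hlam) E

end P365Z.Loss327
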