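import Vale.Agent.P365.Z0.Main0
import Vale.Agent.P365.Z0.S351.FarT
import Vale.Agent.P365.Z0.Z12_640
import Vale.Agent.P365.Z0.IntegZ7
import Vale.Agent.P365.Z0.Z8Fin594

/-!
# P365 T1.5, Z13: the exact law, everything together

`P365Z.logTor`: for every `lam > 0` the means of `log w_0` on the tori of the exact uniform law
are at most `-(1 - δ) log (1/b)` along `b -> 0`, for almost every energy and every `δ > 0`.
-/

set_option linter.all false

namespace Vale.Agent.P365.Z0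

open P365L hiding Wp Wp_im
open P365O P365T1 P365L.TL Matrix Complex MeasureTheory Filter Topology Set
open Vale.Agent.P365.J376 Vale.Agent.P365.Z0.H640
open P365Z (pc pw Off mm_line pw_pos measurableSet_Off TW Lz)
open P365Z.Loss327
open P365T1.Conc P365T1.Seq
open scoped ComplexConjugate ENNReal

/-- `z7` without the (unused) hypothesis `Z1`, all other blocks inserted -/
theorem logT {lam : ℝ} (hlam : 0 < lam) : P365Z.LogT lam := by
  have hF := P365Z.farT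
  have h12 := D640.z12 lam hlam
  have hHB := P365Z.hbconc hlam
  intro E hE
  obtain ⟨lam', yf, Vsf, R₀, Dt, c0, a, a', dl, C0, K, hl0, hl1, hDt, hc0, ha, haa, hdl, hC0,
    hK, hy, hV, hW⟩ := h12 E hE
  obtain ⟨R1, hR1⟩ := hHB E hE lam' hl1 yf Vsf R₀ hy hV
  obtain ⟨R2, hR2, hloss⟩ := loss_DD hlam E
  refine ⟨lam', yf, Vsf, max R₀ (max R1 R2), hl1, fun r hr => hy r ((le_max_left _ _).trans hr),
    hV, ?_⟩
  intro rs hrs δ hδ
  have h0 : R₀ ≤ rs := (le_max_left _ _).trans hrs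
  have h1 : R1 ≤ rs := (le_max_left _ _).trans ((le_max_right _ _).trans hrs)
  have h2 : R2 ≤ rs := (le_max_right _ _).trans ((le_max_right _ _).trans hrs)
  have h22 : 2 ≤ rs := hR2.trans h2
  obtain ⟨C, hC, hL⟩ := hloss rs h2
  have hδ0 : 0 < min δ 1 := lt_min hδ one_pos
  obtain ⟨κ, dF, hκ, hdF, hch⟩ := choose_kd hDt (show 0 < max C0 C from lt_max_of_lt_left hC0)
    (show 0 < c0 * min 1 (a' - a) from mul_pos hc0 (lt_min one_pos (by linarith))) hδ0
  obtain ⟨ηF, hηF, hηF1, hFar⟩ := hF Dt c0 a a' dl (max C0 C) κ dF hDt hc0 ha haa hdl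
    (lt_max_of_lt_left hC0) hκ hdF
  obtain ⟨η, hη, hηηF, hη16, hsum⟩ := hch ηF hηF
  obtain ⟨I1, hI1⟩ := hW rs h0 η hη
  obtain ⟨I2, hI2⟩ := num_last h22 hK (show 0 < min δ 1 / 8 by positivity)
    (show 0 < min δ 1 / 8 by positivity) (show min δ 1 / 8 ≤ 1 by
      have := min_le_right δ 1
      linarith)
    (show 0 ≤ 2 * (2 * C / ηF) by positivity)
  refine ⟨max I1 I2, fun I hI hA => ?_⟩
  obtain ⟨N1, hN1⟩ := hI1 I ((le_max_left _ _).trans hI) hA
  obtain ⟨N2, hN2⟩ := hR1 rs h1 I hA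
  refine ⟨max N1 N2, fun N hN hdvd hz => ?_⟩
  obtain ⟨HC, q, Dn, hq, hTW⟩ := hN1 N ((le_max_left _ _).trans hN) hdvd hz
  have HB := hN2 N ((le_max_right _ _).trans hN) hdvd hz
  have hy' : ∀ r, rs ≤ r → yf r ∈ P365SH.Xr r := fun r hr => hy r (h0.trans hr)
  obtain ⟨hPhi, hLoss, -⟩ := hL yf Vsf I hy' hA N HC HB
  obtain ⟨n1, n2, n3, n4, n5, n6⟩ := hI2 I ((le_max_right _ _).trans hI)
  exact z7_fix (DD_ok h22 hy' (lw_DD hA)) hDt hc0 haa hdl hC0 hη (hηηF.trans hηF1) hκ hK hC hηF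
    hηηF hδ0 (min_le_right _ _) (min_le_left _ _) hη16 hsum n1 n2 n3 n4 n5 n6
    (fun s hs => hPhi (I + 1) le_rfl s hs) (hLoss I le_rfl) hTW
    (fun Λ _ p ν E e T ε q Dn h3 h4 h5 => hFar N Λ p ν E e T ε q Dn h3 h4 h5)

end Vale.Agent.P365.Z0

namespace P365Z

/-- **Z13** -/
theorem logTor {lam : ℝ} (hlam : 0 < lam) : P365L.Z0.LogTor (P365L.TL.nuL lam) lam :=
  logTor_of_logT (fun _ h => Vale.Agent.P365.Z0.logT h) P365Z0.H594.Z8_holds lam hlam

end P365Z
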