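import Vale.Agent.P365.Z0.Z8_594
import Vale.Agent.P365.Z0.Pairs

/-!
# P365, T1.5, block Z8: the expected number of traps is positive.
-/

set_option linter.all false

namespace P365Z0.H594

open P365L P365L.TL P365O P365T1 P365Z Vale.Agent.P365.J376 Vale.Agent.P365.Z0 MeasureTheory

theorem Tc_eq_Tr {D : V3} {N : ℕ} [NeZero N] : (Tc D (N := N)) = Tr D D.I := by
  funext l
  ext x
  rw [mem_Tr]
  simp [Tc]

theorem nTpos_holds : nTpos := by
  intro D ρ N _ h hm hp hy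
  have hm0 : 0 < D.m D.I := lt_of_le_of_lt (Nat.zero_le _) hy.1
  have hmem : D.y D.I ∈ blk (D.m D.I) := mem_blk'.2 hy
  rw [Tc_eq_Tr, nT_eq h.p_sum hm0 hm hmem]
  have h1 : 0 < qb D D.I := Finset.prod_pos fun a _ => hp a
  have h2 : (0 : ℝ) < (N : ℝ) := by exact_mod_cast Nat.pos_of_ne_zero (NeZero.ne N)
  have h3 : (0 : ℝ) < (D.m D.I : ℝ) := by exact_mod_cast hm0
  positivity

end P365Z0.H594
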