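import Vale.Agent.P365.T1.Seq795

/-!
# P365 T1.5, Z7b: numerics of the last stage (closed formulas of `Seq795`)

`r = rr rs I` is the radius of the last family, `b = bS rs I = 2^(-2 r^20)`, `e0 = exp (-r)`,
`a = r^5`, `s₁ = b exp (K r³)`.
-/

set_option linter.all false

namespace Vale.Agent.P365.Z0.Num550

open Real P365T1.Seq

/-- `log (1/b)` is at least `r^20` -/
theorem log_inv_bS (rs I : ℕ) :
    Real.log (1 / bS rs I) = 2 * (rr rs I : ℝ) ^ 20 * Real.log 2 := by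
  have h1 : (1 : ℝ) / bS rs I = 2 ^ nS rs I := by
    unfold bS
    rw [one_div, ← inv_pow]
    norm_num
  rw [h1, Real.log_pow]
  unfold nS
  rw [rr_succ]
  push_cast
  ring

theorem pow_le_log (rs I : ℕ) : (rr rs I : ℝ) ^ 20 ≤ Real.log (1 / bS rs I) := by
  rw [log_inv_bS]
  have h1 : (0.5 : ℝ) ≤ Real.log 2 := by linarith [Real.log_two_gt_d9]
  have h2 : (0 : ℝ) ≤ (rr rs I : ℝ) ^ 20 := by positivity
  nlinarith

theorem log_nonneg (rs I : ℕ) : 0 ≤ Real.log (1 / bS rs I) :=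
  (by positivity : (0 : ℝ) ≤ (rr rs I : ℝ) ^ 20).trans (pow_le_log rs I)

theorem bS_eq_exp (rs I : ℕ) : bS rs I = Real.exp (-Real.log (1 / bS rs I)) := by
  rw [Real.exp_neg, Real.exp_log (one_div_pos.2 (bS_pos rs I)), one_div, inv_inv]

/-- everything polynomial of degree at most five is small against `log (1/b)` -/
theorem poly_small (K : ℝ) {δ : ℝ} (hδ : 0 < δ) : ∃ R₀ : ℕ, 1 ≤ R₀ ∧ ∀ rs I : ℕ,
    R₀ ≤ rr rs I → K * (rr rs I : ℝ) ^ 5 + K ≤ δ * Real.log (1 / bS rs I) := by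
  obtain ⟨n, hn⟩ := exists_nat_ge (2 * |K| / δ)
  refine ⟨n + 1, by omega, fun rs I h => ?_⟩
  set r : ℝ := (rr rs I : ℝ) with hr
  have h1 : (n : ℝ) + 1 ≤ r := by
    rw [hr]
    exact_mod_cast h
  have hn0 : (0 : ℝ) ≤ n := Nat.cast_nonneg n
  have hr1 : 1 ≤ r := by linarith
  have h2 : 2 * |K| ≤ δ * r := by
    have h3 : 2 * |K| / δ ≤ r := hn.trans (by linarith)
    rw [div_le_iff₀ hδ] at h3
    linarith
  have h5 : 1 ≤ r ^ 5 := one_le_pow₀ hr1
  have h15 : r ≤ r ^ 15 := le_self_pow₀ hr1 (by norm_num)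
  calc K * r ^ 5 + K ≤ |K| * r ^ 5 + |K| * r ^ 5 := by
        have h6 : K ≤ |K| := le_abs_self K
        have h7 : 0 ≤ |K| := abs_nonneg K
        have h8 : K * r ^ 5 ≤ |K| * r ^ 5 := mul_le_mul_of_nonneg_right h6 (by positivity)
        have h9 : |K| * 1 ≤ |K| * r ^ 5 := mul_le_mul_of_nonneg_left h5 h7
        linarith
    _ = 2 * |K| * r ^ 5 := by ring
    _ ≤ δ * r * r ^ 5 := mul_le_mul_of_nonneg_right h2 (by positivity)
    _ ≤ δ * r ^ 15 * r ^ 5 := by gcongr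
    _ = δ * r ^ 20 := by ring
    _ ≤ δ * Real.log (1 / bS rs I) := mul_le_mul_of_nonneg_left (pow_le_log rs I) hδ.le

/-- a general form: a sum of the shape `A + B r + C r³ + D r⁵` -/
theorem poly_small' (A B C D : ℝ) {δ : ℝ} (hδ : 0 < δ) : ∃ R₀ : ℕ, 1 ≤ R₀ ∧ ∀ rs I : ℕ,
    R₀ ≤ rr rs I →
      A + B * (rr rs I : ℝ) + C * (rr rs I : ℝ) ^ 3 + D * (rr rs I : ℝ) ^ 5 ≤
        δ * Real.log (1 / bS rs I) := by
  obtain ⟨R₀, h0, h⟩ := poly_small (|A| + |B| + |C| + |D|) hδ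
  refine ⟨R₀, h0, fun rs I hI => le_trans ?_ (h rs I hI)⟩
  set r : ℝ := (rr rs I : ℝ) with hr
  have hr1 : 1 ≤ r := by
    rw [hr]
    exact_mod_cast h0.trans hI
  have e1 : r ≤ r ^ 5 := le_self_pow₀ hr1 (by norm_num)
  have e2 : r ^ 3 ≤ r ^ 5 := pow_le_pow_right₀ hr1 (by norm_num)
  have e3 : 1 ≤ r ^ 5 := one_le_pow₀ hr1
  have a1 := mul_le_mul_of_nonneg_left e1 (abs_nonneg B)
  have a2 := mul_le_mul_of_nonneg_left e2 (abs_nonneg C)
  have a3 := mul_le_mul_of_nonneg_right (le_abs_self B) (by linarith : (0 : ℝ) ≤ r)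
  have a4 := mul_le_mul_of_nonneg_right (le_abs_self C) (by positivity : (0 : ℝ) ≤ r ^ 3)
  have a5 := mul_le_mul_of_nonneg_right (le_abs_self D) (by positivity : (0 : ℝ) ≤ r ^ 5)
  have a6 := mul_le_mul_of_nonneg_left e3 (abs_nonneg A)
  have a7 := le_abs_self A
  have a8 := abs_nonneg B
  have a9 := abs_nonneg C
  have a10 := abs_nonneg D
  have a11 := abs_nonneg A
  rw [add_mul, add_mul, add_mul]
  linarith

/-- `C exp (-r)` is small -/
theorem exp_small (C : ℝ) {δ : ℝ} (hδ : 0 < δ) : ∃ R₀ : ℕ, 1 ≤ R₀ ∧ ∀ r : ℝ, (R₀ : ℝ) ≤ r →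
    C * Real.exp (-r) ≤ δ := by
  obtain ⟨n, hn⟩ := exists_nat_ge (|C| / δ)
  refine ⟨n + 1, by omega, fun r hr => ?_⟩
  push_cast at hr
  have h1 : |C| / δ ≤ r := by linarith
  have h2 : r ≤ Real.exp r := by linarith [Real.add_one_le_exp r]
  have h3 : |C| ≤ δ * Real.exp r := by
    rw [div_le_iff₀ hδ] at h1
    nlinarith
  calc C * Real.exp (-r) ≤ |C| * Real.exp (-r) :=
        mul_le_mul_of_nonneg_right (le_abs_self C) (Real.exp_pos _).le
    _ ≤ δ * Real.exp r * Real.exp (-r) := mul_le_mul_of_nonneg_right h3 (Real.exp_pos _).le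
    _ = δ := by
        rw [mul_assoc, ← Real.exp_add, add_neg_cancel, Real.exp_zero, mul_one]

/-- the first time of the last stage which is used -/
noncomputable def s1 (K : ℝ) (rs I : ℕ) : ℝ := bS rs I * Real.exp (K * (rr rs I : ℝ) ^ 3)

theorem s1_pos (K : ℝ) (rs I : ℕ) : 0 < s1 K rs I := mul_pos (bS_pos rs I) (Real.exp_pos _)

theorem tS_le_s1 {K : ℝ} (hK : 0 ≤ K) (rs I : ℕ) : tS rs I (I + 1) ≤ s1 K rs I := by
  rw [tS_last, s1]
  have h1 := bS_pos rs I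
  have h2 : 1 ≤ Real.exp (K * (rr rs I : ℝ) ^ 3) := Real.one_le_exp (by positivity)
  nlinarith

/-- `log (1/s₁) = log (1/b) - K r³` -/
theorem log_inv_s1 (K : ℝ) (rs I : ℕ) :
    Real.log (1 / s1 K rs I) = Real.log (1 / bS rs I) - K * (rr rs I : ℝ) ^ 3 := by
  have h1 := (bS_pos rs I).ne'
  have h2 := (Real.exp_pos (K * (rr rs I : ℝ) ^ 3)).ne'
  unfold s1
  rw [one_div, one_div, Real.log_inv, Real.log_inv, Real.log_mul h1 h2, Real.log_exp]
  ring

/-- **numerics of the last stage** -/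
structure Last (K Cq C em Δ D₀ δ : ℝ) (rs I : ℕ) : Prop where
  r_pos : 1 ≤ rr rs I
  t_le : tS rs I (I + 1) ≤ s1 K rs I
  s1_le : s1 K rs I ≤ 1
  /-- length of the part which is used -/
  len : (1 - δ) * Real.log (1 / bS rs I) ≤ Real.log (1 / s1 K rs I)
  /-- END -/
  fin : Real.log (1 + s1 K rs I * 33 / bS rs I) ≤ δ * Real.log (1 / bS rs I)
  /-- START -/
  start : Real.log (em + Δ ^ 2 * (Real.pi * (D₀ * Real.exp (rr rs I : ℝ)))) ≤
    δ * Real.log (1 / bS rs I)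
  /-- constants and polynomials -/
  const : C + C * (rr rs I : ℝ) ^ 5 ≤ δ * Real.log (1 / bS rs I)
  /-- `C e₀ ≤ δ` -/
  e0 : C * e0S rs I ≤ δ
  /-- background -/
  bg : ∀ s, s1 K rs I ≤ s → bS rs I / (s * e0S rs I) ≤ δ
  /-- share of the sites which are no traps -/
  share : ∀ s, s1 K rs I ≤ s → ∀ Q, 0 ≤ Q → Q ≤ Real.exp (Cq * (rr rs I : ℝ) ^ 3) →
    C * (bS rs I + 2 * (s * e0S rs I * Real.exp (-(aS rs I)))) * Q / (s * e0S rs I) ≤ δ
  /-- the same with a polynomial factor in the exponent, background only -/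
  share' : ∀ s, s1 K rs I ≤ s → C * bS rs I * Real.exp (Cq * (rr rs I : ℝ) ^ 3) / (s * e0S rs I) ≤ δ

theorem exists_last {K Cq : ℝ} (hCq : 0 ≤ Cq) (hK : Cq + 2 ≤ K) {C em Δ D₀ δ : ℝ} (hC : 0 ≤ C)
    (hem : 0 < em) (hD₀ : 0 ≤ D₀) (hδ : 0 < δ) :
    ∃ R₀ : ℕ, 1 ≤ R₀ ∧ ∀ rs I : ℕ, R₀ ≤ rr rs I → Last K Cq C em Δ D₀ δ rs I := by
  have hpi := Real.pi_pos
  have hK0 : 0 ≤ K := by linarith
  obtain ⟨R1, a1, b1⟩ := poly_small' 0 0 K 0 hδ
  obtain ⟨R2, a2, b2⟩ := poly_small' (Real.log 34) 0 K 0 hδ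
  obtain ⟨R3, a3, b3⟩ := poly_small' (Real.log (em + Δ ^ 2 * (Real.pi * D₀))) 1 0 0 hδ
  obtain ⟨R4, a4, b4⟩ := poly_small' C 0 0 C hδ
  obtain ⟨R5, a5, b5⟩ := exp_small C hδ
  obtain ⟨R6, a6, b6⟩ := exp_small 1 hδ
  obtain ⟨R7, a7, b7⟩ := exp_small (2 * C) (half_pos hδ)
  obtain ⟨R9, a9, b9⟩ := poly_small' 0 0 K 0 one_pos
  obtain ⟨R8, hR8⟩ := exists_nat_ge (Cq + 1)
  refine ⟨R1 + R2 + R3 + R4 + R5 + R6 + R7 + R8 + R9, by omega, fun rs I h => ?_⟩
  set r : ℝ := (rr rs I : ℝ) with hr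
  have hcast : ∀ n : ℕ, n ≤ rr rs I → (n : ℝ) ≤ r := fun n hn => by
    rw [hr]
    exact_mod_cast hn
  have hr1 : 1 ≤ r := by
    have := hcast 1 (by omega)
    exact_mod_cast this
  have hr0 : 0 ≤ r := by linarith
  have hb := bS_pos rs I
  have he0 : e0S rs I = Real.exp (-r) := rfl
  have he0p := e0S_pos rs I
  have ha : aS rs I = r ^ 5 := rfl
  set L := Real.log (1 / bS rs I) with hL
  have c1 : K * r ^ 3 ≤ δ * L := by
    have := b1 rs I (by omega)
    rw [← hr, ← hL] at this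
    linarith
  have c2 : Real.log 34 + K * r ^ 3 ≤ δ * L := by
    have := b2 rs I (by omega)
    rw [← hr, ← hL] at this
    linarith
  have c3 : Real.log (em + Δ ^ 2 * (Real.pi * D₀)) + r ≤ δ * L := by
    have := b3 rs I (by omega)
    rw [← hr, ← hL] at this
    linarith
  have c4 : C + C * r ^ 5 ≤ δ * L := by
    have := b4 rs I (by omega)
    rw [← hr, ← hL] at this
    linarith
  have c9 : K * r ^ 3 ≤ L := by
    have := b9 rs I (by omega)
    rw [← hr, ← hL] at this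
    linarith
  have hr3 : r ≤ r ^ 3 := le_self_pow₀ hr1 (by norm_num)
  -- the background against the traps
  have hbg : ∀ s, s1 K rs I ≤ s → bS rs I / (s * e0S rs I) ≤ Real.exp (r - K * r ^ 3) := by
    intro s hs
    have hs0 : 0 < s := (s1_pos K rs I).trans_le hs
    have h1 : bS rs I / (s * e0S rs I) ≤ bS rs I / (s1 K rs I * e0S rs I) :=
      div_le_div_of_nonneg_left hb.le (mul_pos (s1_pos K rs I) he0p)
        (mul_le_mul_of_nonneg_right hs he0p.le)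
    refine h1.trans (le_of_eq ?_)
    rw [s1, he0, ← hr]
    rw [show r - K * r ^ 3 = -(K * r ^ 3 + -r) by ring, Real.exp_neg (K * r ^ 3 + -r),
      Real.exp_add]
    field_simp
  have hexp : ∀ c : ℝ, 0 ≤ c → c ≤ Cq → Real.exp (r - K * r ^ 3) * Real.exp (c * r ^ 3) ≤
      Real.exp (-r) := by
    intro c hc0 hc
    rw [← Real.exp_add]
    refine Real.exp_le_exp.2 ?_
    have h1 : (c - K) * r ^ 3 ≤ -2 * r ^ 3 :=
      mul_le_mul_of_nonneg_right (by linarith) (by positivity)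
    nlinarith
  have hr6 : (R6 : ℝ) ≤ r := hcast _ (by omega)
  have hr7 : (R7 : ℝ) ≤ r := hcast _ (by omega)
  refine ⟨by omega, tS_le_s1 hK0 rs I, ?_, ?_, ?_, ?_, c4, ?_, ?_, ?_, ?_⟩
  · -- s1 ≤ 1
    rw [s1, bS_eq_exp rs I, ← Real.exp_add, ← hr, ← hL]
    exact Real.exp_le_one_iff.2 (by linarith)
  · rw [log_inv_s1, ← hr, ← hL]
    linarith
  · -- END
    have e1 : 1 + s1 K rs I * 33 / bS rs I = 1 + 33 * Real.exp (K * r ^ 3) := by
      rw [s1, ← hr]
      field_simp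
    rw [e1]
    have h1 : 1 ≤ Real.exp (K * r ^ 3) := Real.one_le_exp (by positivity)
    calc Real.log (1 + 33 * Real.exp (K * r ^ 3)) ≤ Real.log (34 * Real.exp (K * r ^ 3)) :=
          Real.log_le_log (by positivity) (by linarith)
      _ = Real.log 34 + K * r ^ 3 := by
          rw [Real.log_mul (by norm_num) (Real.exp_pos _).ne', Real.log_exp]
      _ ≤ _ := c2
  · -- START
    have h1 : 1 ≤ Real.exp r := Real.one_le_exp hr0
    have h2 : 0 < em + Δ ^ 2 * (Real.pi * D₀) := by positivity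
    rw [← hr]
    calc Real.log (em + Δ ^ 2 * (Real.pi * (D₀ * Real.exp r)))
        ≤ Real.log ((em + Δ ^ 2 * (Real.pi * D₀)) * Real.exp r) := by
          refine Real.log_le_log (by positivity) ?_
          have h3 : em * 1 ≤ em * Real.exp r := mul_le_mul_of_nonneg_left h1 hem.le
          nlinarith
      _ = Real.log (em + Δ ^ 2 * (Real.pi * D₀)) + r := by
          rw [Real.log_mul h2.ne' (Real.exp_pos _).ne', Real.log_exp]
      _ ≤ _ := c3
  · -- e0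
    rw [he0]
    exact b5 r (hcast _ (by omega))
  · intro s hs
    refine (hbg s hs).trans ?_
    have h1 := hexp 0 le_rfl hCq
    rw [zero_mul, Real.exp_zero, mul_one] at h1
    have h2 := b6 r hr6
    linarith
  · intro s hs Q hQ0 hQ
    have hs0 : 0 < s := (s1_pos K rs I).trans_le hs
    have hse : 0 < s * e0S rs I := mul_pos hs0 he0p
    rw [← hr] at hQ
    have e1 : C * (bS rs I + 2 * (s * e0S rs I * Real.exp (-(aS rs I)))) * Q / (s * e0S rs I) =
        C * ((bS rs I / (s * e0S rs I)) * Q) + 2 * C * (Real.exp (-(aS rs I)) * Q) := by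
      field_simp
    rw [e1, ha]
    have h1 : (bS rs I / (s * e0S rs I)) * Q ≤ Real.exp (-r) :=
      (mul_le_mul (hbg s hs) hQ hQ0 (Real.exp_pos _).le).trans (hexp Cq hCq le_rfl)
    have h2 : Real.exp (-(r ^ 5)) * Q ≤ Real.exp (-r) := by
      refine (mul_le_mul_of_nonneg_left hQ (Real.exp_pos _).le).trans ?_
      rw [← Real.exp_add]
      refine Real.exp_le_exp.2 ?_
      have h3 : Cq + 1 ≤ r := hR8.trans (hcast _ (by omega))
      have h4 : Cq + 1 ≤ r ^ 2 := h3.trans (le_self_pow₀ hr1 (by norm_num))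
      have h5 : (Cq + 1) * r ^ 3 ≤ r ^ 2 * r ^ 3 := mul_le_mul_of_nonneg_right h4 (by positivity)
      nlinarith
    have h6 := b7 r hr7
    have h7 : C * ((bS rs I / (s * e0S rs I)) * Q) ≤ C * Real.exp (-r) :=
      mul_le_mul_of_nonneg_left h1 hC
    have h8 : 2 * C * (Real.exp (-(r ^ 5)) * Q) ≤ 2 * C * Real.exp (-r) :=
      mul_le_mul_of_nonneg_left h2 (by linarith)
    have h9 : 0 ≤ C * Real.exp (-r) := mul_nonneg hC (Real.exp_pos _).le
    linarith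
  · intro s hs
    have hs0 : 0 < s := (s1_pos K rs I).trans_le hs
    have hse : 0 < s * e0S rs I := mul_pos hs0 he0p
    have e1 : C * bS rs I * Real.exp (Cq * (rr rs I : ℝ) ^ 3) / (s * e0S rs I) =
        C * ((bS rs I / (s * e0S rs I)) * Real.exp (Cq * r ^ 3)) := by
      rw [← hr]
      field_simp
    rw [e1]
    have h1 : (bS rs I / (s * e0S rs I)) * Real.exp (Cq * r ^ 3) ≤ Real.exp (-r) :=
      (mul_le_mul_of_nonneg_right (hbg s hs) (Real.exp_pos _).le).trans (hexp Cq hCq le_rfl)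
    have h6 := b7 r hr7
    have h7 := mul_le_mul_of_nonneg_left h1 hC
    have h9 : 0 ≤ C * Real.exp (-r) := mul_nonneg hC (Real.exp_pos _).le
    linarith

/-- for fixed `rs ≥ 2` the radius of the last family becomes large -/
theorem exists_I {rs : ℕ} (hrs : 2 ≤ rs) (R₀ : ℕ) : ∃ I₀ : ℕ, ∀ I, I₀ ≤ I → R₀ ≤ rr rs I :=
  ⟨R₀, fun I h => h.trans (lt_rr hrs I).le⟩

end Vale.Agent.P365.Z0.Num550
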