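import Vale.Agent.P365.Stat.One
import Vale.Agent.P365.T1.Defs
import Vale.Agent.P365.T1.MAff

/-!
# P365-Z0 (block Z3b): resampling of one site, general product law

Potential `Wc U g e c` = `U + g c - i e` (`g = 1`, `U = -E`: `WV E e c`), `c` with the product law
`Measure.pi ν`, Green matrix `Gc A U g e c`.

* `Iop A U g e ν y Ψ c = ∫ t, (m_y Ψ)(update c y t) dν_y(t)`.
* `one_site`: `∫ m_y dν_y ≤ π D / g_y` if the density of `ν y` is at most `D`.
* `site_le`, `resample`: `E[m_y Iop y Ψ] ≤ (π D / g_y) E[m_y Ψ]`.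
* `GoodW X d0 c y`: `|Re p - V_y| ≤ X Im p`, `d0 ≤ |G_yy|` (`p` = pole of `G_yy` in `V_y`).
* `LocGe c0 δ0 (ν y) (c y)`: density at least `c0` on `[c y - δ0, c y + δ0]`.
* `Iop_ge`, `Iop_ge_win`: `Iop ≥ (c0 / g_y) ∫_window Ψ(kicked) dx / (1 + x²)`.
-/

set_option linter.all false

namespace P365L.Z0

open MeasureTheory ProbabilityTheory Complex Set P365L P365L.Poi P365L.Stat P365T1
open scoped ComplexConjugate Real ENNReal

variable {ι : Type*} [Fintype ι] [DecidableEq ι]
variable {A : Matrix ι ι ℝ} {U g e : ι → ℝ}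

/-- the potential of the chain -/
theorem Wc_eq_WV (E : ℝ) (e c : ι → ℝ) :
    Wc (fun _ => -E) (fun _ => 1) e c = WV E e c := by
  funext x
  unfold Wc WV
  push_cast
  ring

theorem Gc_eq_WV (E : ℝ) (e c : ι → ℝ) :
    Gc A (fun _ => -E) (fun _ => 1) e c = Gr A (WV E e c) := by
  rw [Gc, Wc_eq_WV]

/-! ### laws -/

/-- density at least `c0` on `[v - δ0, v + δ0]` -/
def LocGe (c0 δ0 : ℝ) (μ : Measure ℝ) (v : ℝ) : Prop :=
  ENNReal.ofReal c0 • (volume : Measure ℝ).restrict (Icc (v - δ0) (v + δ0)) ≤ μ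

theorem LocGe.mono {c0 c1 δ0 δ1 : ℝ} {μ : Measure ℝ} {v : ℝ} (h : LocGe c0 δ0 μ v)
    (hc : c1 ≤ c0) (hd : δ1 ≤ δ0) : LocGe c1 δ1 μ v := by
  refine le_trans ?_ h
  refine Measure.le_iff.2 fun s hs => ?_
  rw [Measure.smul_apply, Measure.smul_apply]
  exact mul_le_mul' (ENNReal.ofReal_le_ofReal hc)
    (Measure.restrict_mono (Icc_subset_Icc (by linarith) (by linarith)) le_rfl s)

/-- density at least `c0` on `[-a, a]` gives the local form at the points of the smaller interval -/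
theorem locGe_of_densGe {c0 a δ0 : ℝ} {μ : Measure ℝ} {v : ℝ} (h : DensGe c0 a μ)
    (hv : |v| + δ0 ≤ a) : LocGe c0 δ0 μ v := by
  have h1 := abs_le.1 (show |v| ≤ a - δ0 by linarith)
  refine le_trans ?_ h
  refine Measure.le_iff.2 fun s hs => ?_
  rw [Measure.smul_apply, Measure.smul_apply]
  exact mul_le_mul' le_rfl
    (Measure.restrict_mono (Icc_subset_Icc (by linarith) (by linarith)) le_rfl s)

/-- integrals under a law of density at most `D` -/
theorem dens_le_vol {D : ℝ} (hD : 0 ≤ D) {μ : Measure ℝ} (hμ : DensLe D μ) {f : ℝ → ℝ}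
    (hf : ∀ t, 0 ≤ f t) (hi : Integrable f) : ∫ t, f t ∂μ ≤ D * ∫ t, f t := by
  have h1 : Integrable f (ENNReal.ofReal D • (volume : Measure ℝ)) :=
    hi.smul_measure ENNReal.ofReal_ne_top
  have h2 := integral_mono_measure hμ (Filter.Eventually.of_forall hf) h1
  rw [integral_smul_measure, ENNReal.toReal_ofReal hD, smul_eq_mul] at h2
  exact h2

/-- the diagonal entry along the line -/
theorem im_line (hA : A.IsSymm) (he : ∀ x, 0 < e x) (c : ι → ℝ) {z : ι} (hg : 0 < g z) :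
    ∃ p : ℂ, 0 < p.im ∧ p.im = (Gc A U g e c z z).im / (g z * ‖Gc A U g e c z z‖ ^ 2) ∧
      ∀ t : ℝ, (Gc A U g e (Function.update c z t) z z).im =
        (Gc A U g e c z z).im / (g z ^ 2 * ‖Gc A U g e c z z‖ ^ 2) * (‖(t : ℂ) - p‖ ^ 2)⁻¹ := by
  set w := Gc A U g e c z z with hw
  have hm : 0 < w.im := im_pos hA he c z
  have hw0 : w ≠ 0 := diag_ne_zero hA he c z
  have hgc : (g z : ℂ) ≠ 0 := Complex.ofReal_ne_zero.2 hg.ne'
  set p : ℂ := (c z : ℂ) - ((g z : ℂ) * w)⁻¹ with hp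
  have hns : 0 < ‖w‖ ^ 2 := pow_pos (norm_pos_iff.2 hw0) 2
  have hpim : p.im = w.im / (g z * ‖w‖ ^ 2) := by
    have h2 : normSq w = ‖w‖ ^ 2 := (Complex.sq_norm w).symm
    rw [hp]
    simp only [mul_inv, sub_im, ofReal_im, mul_im, inv_re, ofReal_re, normSq_ofReal, inv_im, h2]
    field_simp
    ring
  refine ⟨p, by rw [hpim]; positivity, hpim, fun t => ?_⟩
  rw [im_update hA he c z t]
  have h1 : 1 + ((g z * (t - c z) : ℝ) : ℂ) * w = (g z : ℂ) * w * ((t : ℂ) - p) := by
    rw [hp]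
    push_cast
    field_simp
    ring
  rw [h1, norm_mul, norm_mul, Complex.norm_real, Real.norm_eq_abs, abs_of_pos hg, mul_pow,
    mul_pow, div_mul_eq_div_div, div_eq_mul_inv (w.im / (g z ^ 2 * ‖w‖ ^ 2))]

theorem integrable_im_vol (hA : A.IsSymm) (he : ∀ x, 0 < e x) (c : ι → ℝ) {z : ι}
    (hg : 0 < g z) : Integrable fun t => (Gc A U g e (Function.update c z t) z z).im := by
  obtain ⟨p, hp, -, h⟩ := im_line (U := U) hA he c hg
  simp only [h]
  exact (cau_integrable_sq hp).const_mul _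

/-- spectral averaging, Lebesgue measure -/
theorem vol_site (hA : A.IsSymm) (he : ∀ x, 0 < e x) (c : ι → ℝ) {z : ι} (hg : 0 < g z) :
    ∫ t, (Gc A U g e (Function.update c z t) z z).im = π / g z := by
  obtain ⟨p, hp, hpim, h⟩ := im_line (U := U) hA he c hg
  have hm : 0 < (Gc A U g e c z z).im := im_pos hA he c z
  have hns : 0 < ‖Gc A U g e c z z‖ := norm_pos_iff.2 (diag_ne_zero hA he c z)
  simp only [h]
  rw [integral_const_mul, cau_integral_sq hp, hpim]
  field_simp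

variable {ν : ι → Measure ℝ}

/-- one-site spectral averaging: the average of `Im G_zz` is at most `π D / g_z` -/
theorem one_site (hA : A.IsSymm) (he : ∀ x, 0 < e x) (c : ι → ℝ) {z : ι} (hg : 0 < g z) {D : ℝ}
    (hD : 0 ≤ D) (hν : DensLe D (ν z)) :
    ∫ t, (Gc A U g e (Function.update c z t) z z).im ∂(ν z) ≤ π * D / g z := by
  refine (dens_le_vol hD hν (fun t => (im_pos hA he _ z).le)
    (integrable_im_vol hA he c hg)).trans (le_of_eq ?_)
  rw [vol_site hA he c hg]
  ring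

/-- Bochner version of resampling one coordinate -/
theorem integral_resample_pi (ν : ι → Measure ℝ) [∀ i, IsProbabilityMeasure (ν i)] (x : ι)
    (f : (ι → ℝ) → ℝ) (hf : Integrable f (Measure.pi ν)) :
    ∫ c, f c ∂(Measure.pi ν) = ∫ c, ∫ t, f (Function.update c x t) ∂(ν x) ∂(Measure.pi ν) := by
  have hmp := P365T1.MAff.measurePreserving_resample ν x
  have hf' : Integrable (fun p : (ι → ℝ) × ℝ => f (Function.update p.1 x p.2))
      ((Measure.pi ν).prod (ν x)) := by
    have h := hmp.integrable_comp_of_integrable hf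
    exact h
  rw [← integral_prod _ hf']
  conv_lhs => rw [← hmp.map_eq]
  refine integral_map hmp.aemeasurable ?_
  rw [hmp.map_eq]
  exact hf.aestronglyMeasurable

/-- weighted one-site averaging: if `Ψ` is dominated along the `z`-line by `Ψ'` then
`E[Im G_zz Ψ] ≤ (π D / g_z) E Ψ'` -/
theorem site_le [∀ i, IsProbabilityMeasure (ν i)] (hA : A.IsSymm) (he : ∀ x, 0 < e x) {z : ι}
    (hg : 0 < g z) {D : ℝ} (hD : 0 ≤ D) (hν : DensLe D (ν z))
    {Ψ Ψ' : (ι → ℝ) → ℝ} (hΨm : Measurable Ψ) (hΨ0 : ∀ c, 0 ≤ Ψ c) {M : ℝ}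
    (hΨM : ∀ c, Ψ c ≤ M) (hΨi : Integrable Ψ' (Measure.pi ν))
    (hle : ∀ c t, Ψ (Function.update c z t) ≤ Ψ' c) :
    ∫ c, (Gc A U g e c z z).im * Ψ c ∂(Measure.pi ν) ≤
      π * D / g z * ∫ c, Ψ' c ∂(Measure.pi ν) := by
  obtain ⟨C, hC0, hC⟩ := bounded_im (U := U) (g := g) hA he
  have hmeas : Measurable fun c => (Gc A U g e c z z).im :=
    Complex.measurable_im.comp (measurable_Gc z z)
  have hint : Integrable (fun c => (Gc A U g e c z z).im * Ψ c) (Measure.pi ν) := by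
    refine Integrable.of_bound (hmeas.mul hΨm).aestronglyMeasurable (C * M)
      (Filter.Eventually.of_forall fun c => ?_)
    rw [Real.norm_eq_abs, abs_mul, abs_of_pos (im_pos hA he c z), abs_of_nonneg (hΨ0 c)]
    exact mul_le_mul (hC c z) (hΨM c) (hΨ0 c) hC0.le
  rw [integral_resample_pi ν z _ hint, ← integral_const_mul]
  refine integral_mono_of_nonneg (Filter.Eventually.of_forall fun c => ?_) (hΨi.const_mul _)
    (Filter.Eventually.of_forall fun c => ?_)
  · exact integral_nonneg fun t => mul_nonneg (im_pos hA he _ z).le (hΨ0 _)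
  · have hnn : ∀ t, 0 ≤ (Gc A U g e (Function.update c z t) z z).im := fun t =>
      (im_pos hA he _ z).le
    have h1 : Integrable (fun t => (Gc A U g e (Function.update c z t) z z).im) (ν z) := by
      refine Integrable.of_bound (hmeas.comp (measurable_upd_line c z)).aestronglyMeasurable C
        (Filter.Eventually.of_forall fun t => ?_)
      rw [Real.norm_eq_abs, abs_of_nonneg (hnn t)]
      exact hC _ z
    have hΨ'0 : 0 ≤ Ψ' c := (hΨ0 _).trans (hle c 0)
    calc ∫ t, (Gc A U g e (Function.update c z t) z z).im * Ψ (Function.update c z t) ∂(ν z)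
        ≤ ∫ t, (Gc A U g e (Function.update c z t) z z).im * Ψ' c ∂(ν z) := by
          refine integral_mono_of_nonneg (Filter.Eventually.of_forall fun t =>
            mul_nonneg (hnn t) (hΨ0 _)) (h1.mul_const _) (Filter.Eventually.of_forall fun t => ?_)
          exact mul_le_mul_of_nonneg_left (hle c t) (hnn t)
      _ = (∫ t, (Gc A U g e (Function.update c z t) z z).im ∂(ν z)) * Ψ' c :=
          integral_mul_const _ _
      _ ≤ π * D / g z * Ψ' c :=
          mul_le_mul_of_nonneg_right (one_site hA he c hg hD hν) hΨ'0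

/-! ### the resampling operator -/

/-- resampling of the site `y` with the weight `m_y`, general law -/
noncomputable def Iop (A : Matrix ι ι ℝ) (U g e : ι → ℝ) (ν : ι → Measure ℝ) (y : ι)
    (Ψ : (ι → ℝ) → ℝ) (c : ι → ℝ) : ℝ :=
  ∫ t, (Gc A U g e (Function.update c y t) y y).im * Ψ (Function.update c y t) ∂(ν y)

theorem Iop_update (y : ι) (Ψ : (ι → ℝ) → ℝ) (c : ι → ℝ) (t : ℝ) :
    Iop A U g e ν y Ψ (Function.update c y t) = Iop A U g e ν y Ψ c := by
  unfold Iop
  simp only [Function.update_idem]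

theorem measurable_Iop [∀ i, IsProbabilityMeasure (ν i)] (y : ι) {Ψ : (ι → ℝ) → ℝ}
    (hm : Measurable Ψ) : Measurable fun c => Iop A U g e ν y Ψ c := by
  have h1 : Measurable fun p : (ι → ℝ) × ℝ =>
      (Gc A U g e (Function.update p.1 y p.2) y y).im * Ψ (Function.update p.1 y p.2) :=
    ((measurable_im_Gc y).comp (measurable_upd y)).mul (hm.comp (measurable_upd y))
  exact (h1.stronglyMeasurable.integral_prod_right').measurable

theorem Iop_nonneg (hA : A.IsSymm) (he : ∀ x, 0 < e x) (y : ι) {Ψ : (ι → ℝ) → ℝ}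
    (h0 : ∀ c, 0 ≤ Ψ c) (c : ι → ℝ) : 0 ≤ Iop A U g e ν y Ψ c :=
  integral_nonneg fun t => mul_nonneg (im_pos hA he _ y).le (h0 _)

theorem integrable_line [∀ i, IsProbabilityMeasure (ν i)] (hA : A.IsSymm) (he : ∀ x, 0 < e x)
    (y : ι) {Ψ : (ι → ℝ) → ℝ} (hm : Measurable Ψ) (h0 : ∀ c, 0 ≤ Ψ c) {M : ℝ}
    (hM : ∀ c, Ψ c ≤ M) (c : ι → ℝ) :
    Integrable (fun t => (Gc A U g e (Function.update c y t) y y).im *
      Ψ (Function.update c y t)) (ν y) := by
  obtain ⟨C, hC0, hC⟩ := bounded_im (U := U) (g := g) hA he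
  refine Integrable.of_bound (((measurable_im_Gc y).comp (measurable_upd_line c y)).mul
    (hm.comp (measurable_upd_line c y))).aestronglyMeasurable (C * M)
    (Filter.Eventually.of_forall fun t => ?_)
  rw [Real.norm_eq_abs, abs_of_nonneg (mul_nonneg (im_pos hA he _ y).le (h0 _))]
  exact mul_le_mul (hC _ _) (hM _) (h0 _) hC0.le

theorem integrable_im_mul [∀ i, IsProbabilityMeasure (ν i)] (hA : A.IsSymm)
    (he : ∀ x, 0 < e x) (y : ι) {Ψ : (ι → ℝ) → ℝ} (hm : Measurable Ψ) (h0 : ∀ c, 0 ≤ Ψ c)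
    {M : ℝ} (hM : ∀ c, Ψ c ≤ M) :
    Integrable (fun c => (Gc A U g e c y y).im * Ψ c) (Measure.pi ν) := by
  obtain ⟨C, hC0, hC⟩ := bounded_im (U := U) (g := g) hA he
  refine Integrable.of_bound ((measurable_im_Gc y).mul hm).aestronglyMeasurable (C * M)
    (Filter.Eventually.of_forall fun t => ?_)
  rw [Real.norm_eq_abs, abs_of_nonneg (mul_nonneg (im_pos hA he _ y).le (h0 _))]
  exact mul_le_mul (hC _ _) (hM _) (h0 _) hC0.le

theorem Iop_le [∀ i, IsProbabilityMeasure (ν i)] (hA : A.IsSymm) (he : ∀ x, 0 < e x) {y : ι}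
    (hg : 0 < g y) {D : ℝ} (hD : 0 ≤ D) (hν : DensLe D (ν y)) {Ψ : (ι → ℝ) → ℝ}
    (hm : Measurable Ψ) (h0 : ∀ c, 0 ≤ Ψ c) {M : ℝ} (hM : ∀ c, Ψ c ≤ M) (c : ι → ℝ) :
    Iop A U g e ν y Ψ c ≤ π * D / g y * M := by
  obtain ⟨C, hC0, hC⟩ := bounded_im (U := U) (g := g) hA he
  have hi : Integrable (fun t => (Gc A U g e (Function.update c y t) y y).im) (ν y) := by
    refine Integrable.of_bound ((measurable_im_Gc y).comp
      (measurable_upd_line c y)).aestronglyMeasurable C (Filter.Eventually.of_forall fun t => ?_)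
    rw [Real.norm_eq_abs, abs_of_nonneg (im_pos hA he _ y).le]
    exact hC _ _
  have hM0 : 0 ≤ M := (h0 c).trans (hM c)
  calc Iop A U g e ν y Ψ c
      ≤ ∫ t, (Gc A U g e (Function.update c y t) y y).im * M ∂(ν y) := by
        refine integral_mono (integrable_line hA he y hm h0 hM c) (hi.mul_const _) fun t => ?_
        exact mul_le_mul_of_nonneg_left (hM _) (im_pos hA he _ y).le
    _ = (∫ t, (Gc A U g e (Function.update c y t) y y).im ∂(ν y)) * M := integral_mul_const _ _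
    _ ≤ π * D / g y * M := mul_le_mul_of_nonneg_right (one_site hA he c hg hD hν) hM0

theorem integrable_Iop [∀ i, IsProbabilityMeasure (ν i)] (hA : A.IsSymm) (he : ∀ x, 0 < e x)
    {y : ι} (hg : 0 < g y) {D : ℝ} (hD : 0 ≤ D) (hν : DensLe D (ν y)) {Ψ : (ι → ℝ) → ℝ}
    (hm : Measurable Ψ) (h0 : ∀ c, 0 ≤ Ψ c) {M : ℝ} (hM : ∀ c, Ψ c ≤ M) :
    Integrable (fun c => Iop A U g e ν y Ψ c) (Measure.pi ν) := by
  refine Integrable.of_bound (measurable_Iop y hm).aestronglyMeasurable (π * D / g y * M)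
    (Filter.Eventually.of_forall fun c => ?_)
  rw [Real.norm_eq_abs, abs_of_nonneg (Iop_nonneg hA he y h0 c)]
  exact Iop_le hA he hg hD hν hm h0 hM c

/-- (R): `E[m_y I_y Ψ] ≤ (π D / g_y) E[m_y Ψ]` -/
theorem resample [∀ i, IsProbabilityMeasure (ν i)] (hA : A.IsSymm) (he : ∀ x, 0 < e x) {y : ι}
    (hg : 0 < g y) {D : ℝ} (hD : 0 ≤ D) (hν : DensLe D (ν y)) {Ψ : (ι → ℝ) → ℝ}
    (hm : Measurable Ψ) (h0 : ∀ c, 0 ≤ Ψ c) {M : ℝ} (hM : ∀ c, Ψ c ≤ M) :
    ∫ c, (Gc A U g e c y y).im * Iop A U g e ν y Ψ c ∂(Measure.pi ν) ≤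
      π * D / g y * ∫ c, (Gc A U g e c y y).im * Ψ c ∂(Measure.pi ν) := by
  have h1 := site_le (U := U) hA he hg hD hν (Ψ := fun c => Iop A U g e ν y Ψ c)
    (Ψ' := fun c => Iop A U g e ν y Ψ c) (measurable_Iop y hm) (Iop_nonneg hA he y h0)
    (Iop_le hA he hg hD hν hm h0 hM) (integrable_Iop hA he hg hD hν hm h0 hM)
    (fun c t => by rw [Iop_update])
  refine h1.trans (le_of_eq ?_)
  congr 1
  rw [integral_resample_pi ν y _ (integrable_im_mul hA he y hm h0 hM)]
  rfl

/-! ### lower bound for the resampling operator -/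

/-- good site: the potential is at distance at most `X Im p` of the pole, `|G_ww| ≥ d0` -/
def GoodW (A : Matrix ι ι ℝ) (U g e : ι → ℝ) (X d0 : ℝ) (c : ι → ℝ) (w : ι) : Prop :=
  |(pc A U g e c w).re| ≤ X * (pc A U g e c w).im ∧ d0 ≤ ‖Gc A U g e c w w‖

/-- the parameter of the present value of `c y` -/
noncomputable def x0 (A : Matrix ι ι ℝ) (U g e : ι → ℝ) (c : ι → ℝ) (y : ι) : ℝ :=
  -(pc A U g e c y).re / (pc A U g e c y).im

theorem tx_x0 (hA : A.IsSymm) (he : ∀ x, 0 < e x) (c : ι → ℝ) (y : ι) :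
    tx A U g e c y (x0 A U g e c y) = c y := tx_zero hA he c y

theorem abs_x0_le (hA : A.IsSymm) (he : ∀ x, 0 < e x) {X d0 : ℝ} {c : ι → ℝ} {y : ι}
    (h : GoodW A U g e X d0 c y) : |x0 A U g e c y| ≤ X := by
  have hp := pc_im_pos (U := U) (g := g) hA he c y
  rw [x0, abs_div, abs_neg, abs_of_pos hp, div_le_iff₀ hp]
  exact h.1

theorem tx_sub (hA : A.IsSymm) (he : ∀ x, 0 < e x) (c : ι → ℝ) (y : ι) (x : ℝ) :
    tx A U g e c y x - c y = (x - x0 A U g e c y) * (pc A U g e c y).im / g y := by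
  have hp := (pc_im_pos (U := U) (g := g) hA he c y).ne'
  rw [tx, x0]
  field_simp
  ring

/-- `w_y = (Im G_yy)² / |G_yy|²` is not small at a good site -/
theorem sin_ge (hA : A.IsSymm) (he : ∀ x, 0 < e x) {X d0 : ℝ} {c : ι → ℝ} {y : ι}
    (h : GoodW A U g e X d0 c y) :
    ‖Gc A U g e c y y‖ ^ 2 ≤ (1 + X ^ 2) * (Gc A U g e c y y).im ^ 2 := by
  have hG : 0 < ‖Gc A U g e c y y‖ := norm_pos_iff.2 (diag_ne_zero hA he c y)
  have h1 := norm_pc (A := A) (U := U) (g := g) (e := e) c y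
  have h2 := pc_im (A := A) (U := U) (g := g) (e := e) c y
  have hp := pc_im_pos (U := U) (g := g) hA he c y
  have h3 : ‖pc A U g e c y‖ ^ 2 = (pc A U g e c y).re ^ 2 + (pc A U g e c y).im ^ 2 := by
    rw [← Complex.normSq_eq_norm_sq, Complex.normSq_apply]; ring
  have h4 : (pc A U g e c y).re ^ 2 ≤ X ^ 2 * (pc A U g e c y).im ^ 2 := by
    rw [← mul_pow, ← sq_abs]
    exact pow_le_pow_left₀ (abs_nonneg _) h.1 2
  have h5 : 1 / ‖Gc A U g e c y y‖ ^ 2 ≤
      (1 + X ^ 2) * ((Gc A U g e c y y).im / ‖Gc A U g e c y y‖ ^ 2) ^ 2 := by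
    rw [← h2]
    have h6 : 1 / ‖Gc A U g e c y y‖ ^ 2 = ‖pc A U g e c y‖ ^ 2 := by
      rw [h1, div_pow, one_pow]
    rw [h6, h3]
    linarith
  rw [div_pow, mul_div_assoc', div_le_div_iff₀ (by positivity) (by positivity)] at h5
  have h7 : 0 < ‖Gc A U g e c y y‖ ^ 2 := by positivity
  refine le_of_mul_le_mul_right ?_ h7
  nlinarith [h5]

/-- lower bound for the resampling operator, general window -/
theorem Iop_ge [∀ i, IsProbabilityMeasure (ν i)] (hA : A.IsSymm) (he : ∀ x, 0 < e x) {y : ι}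
    (hg : 0 < g y) {c0 δ0 : ℝ} (hc0 : 0 ≤ c0) {c : ι → ℝ} (hloc : LocGe c0 δ0 (ν y) (c y))
    {a b : ℝ} (hab : a ≤ b) (hwin : ∀ x ∈ Icc a b, |tx A U g e c y x - c y| ≤ δ0)
    {Ψ : (ι → ℝ) → ℝ} (hm : Measurable Ψ) (h0 : ∀ c, 0 ≤ Ψ c) {M : ℝ} (hM : ∀ c, Ψ c ≤ M) :
    c0 / g y * ∫ x in a..b, Ψ (Function.update c y (tx A U g e c y x)) / (1 + x ^ 2) ≤
      Iop A U g e ν y Ψ c := by
  set p := pc A U g e c y with hp
  have hpim : 0 < p.im := pc_im_pos hA he c y
  set d : ℝ := p.im / g y with hd'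
  have hdpos : 0 < d := div_pos hpim hg
  have htx : ∀ x, tx A U g e c y x = (c y + p.re / g y) + d * x := by
    intro x
    rw [tx, hd', ← hp]
    field_simp
    ring
  set F : ℝ → ℝ := fun t => (Gc A U g e (Function.update c y t) y y).im *
      Ψ (Function.update c y t) with hF
  have hF0 : ∀ t, 0 ≤ F t := fun t => mul_nonneg (im_pos hA he _ y).le (h0 _)
  have hFi : Integrable F (ν y) := integrable_line hA he y hm h0 hM c
  have hFm : Measurable F := ((measurable_im_Gc y).comp (measurable_upd_line c y)).mul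
    (hm.comp (measurable_upd_line c y))
  have hab' : tx A U g e c y a ≤ tx A U g e c y b := by
    rw [htx, htx]; nlinarith
  have hsub : Icc (tx A U g e c y a) (tx A U g e c y b) ⊆ Icc (c y - δ0) (c y + δ0) := by
    refine Icc_subset_Icc ?_ ?_
    · have := (abs_le.1 (hwin a (left_mem_Icc.2 hab))).1
      linarith
    · have := (abs_le.1 (hwin b (right_mem_Icc.2 hab))).2
      linarith
  -- restrict the law
  have h1 : c0 * ∫ t in (tx A U g e c y a)..(tx A U g e c y b), F t ≤ ∫ t, F t ∂(ν y) := by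
    have hle : ENNReal.ofReal c0 • (volume : Measure ℝ).restrict
        (Icc (tx A U g e c y a) (tx A U g e c y b)) ≤ ν y := by
      refine le_trans ?_ hloc
      refine Measure.le_iff.2 fun s hs => ?_
      rw [Measure.smul_apply, Measure.smul_apply]
      exact mul_le_mul' le_rfl (Measure.restrict_mono hsub le_rfl s)
    have h2 := integral_mono_measure hle (Filter.Eventually.of_forall hF0) hFi
    rw [integral_smul_measure, ENNReal.toReal_ofReal hc0, smul_eq_mul] at h2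
    rw [intervalIntegral.integral_of_le hab', ← integral_Icc_eq_integral_Ioc]
    exact h2
  have h2 : ∫ t in (tx A U g e c y a)..(tx A U g e c y b), F t =
      ∫ x in a..b, d * F (tx A U g e c y x) := by
    have h3 := intervalIntegral.integral_comp_add_mul (a := a) (b := b)
      F hdpos.ne' (c y + p.re / g y)
    rw [intervalIntegral.integral_const_mul]
    simp only [htx]
    rw [h3, smul_eq_mul, ← mul_assoc, mul_inv_cancel₀ hdpos.ne', one_mul]
  have hx : ∀ x, d * F (tx A U g e c y x) =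
      1 / g y * (Ψ (Function.update c y (tx A U g e c y x)) / (1 + x ^ 2)) := by
    intro x
    have hm' : (Gc A U g e (Function.update c y (tx A U g e c y x)) y y).im =
        1 / (p.im * (1 + x ^ 2)) := by
      rw [im_update hA he c y, g_mul_tx hg.ne', ← hp]
      have hG := diag_ne_zero (U := U) (g := g) hA he c y
      have e1 : 1 + ((p.re + x * p.im : ℝ) : ℂ) * Gc A U g e c y y =
          (p.im : ℂ) * ((x : ℂ) - I) * Gc A U g e c y y := by
        have hs : ((p.re + x * p.im : ℝ) : ℂ) = p + (p.im : ℂ) * ((x : ℂ) - I) := by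
          apply Complex.ext
          · simp; ring
          · simp
        have hpG : p * Gc A U g e c y y = -1 := by
          rw [hp, pc]; field_simp
        rw [hs]
        linear_combination hpG
      rw [e1, norm_mul, norm_mul, mul_pow, mul_pow, Complex.norm_real, Real.norm_eq_abs, sq_abs]
      have e2 : ‖(x : ℂ) - I‖ ^ 2 = 1 + x ^ 2 := by
        rw [← Complex.normSq_eq_norm_sq, Complex.normSq_apply]; simp; ring
      have e3 : (Gc A U g e c y y).im = p.im * ‖Gc A U g e c y y‖ ^ 2 := by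
        have hn : 0 < ‖Gc A U g e c y y‖ := norm_pos_iff.2 hG
        rw [hp, pc_im]
        field_simp
      have hn : 0 < ‖Gc A U g e c y y‖ := norm_pos_iff.2 hG
      rw [e2, e3]
      have := one_add_sq_pos x
      field_simp
    simp only [hF]
    rw [hm', hd']
    have hxx := one_add_sq_pos x
    field_simp
  have h3 : ∫ x in a..b, d * F (tx A U g e c y x) =
      1 / g y * ∫ x in a..b, Ψ (Function.update c y (tx A U g e c y x)) / (1 + x ^ 2) := by
    rw [← intervalIntegral.integral_const_mul]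
    exact intervalIntegral.integral_congr fun x _ => hx x
  calc c0 / g y * ∫ x in a..b, Ψ (Function.update c y (tx A U g e c y x)) / (1 + x ^ 2)
      = c0 * (1 / g y * ∫ x in a..b,
          Ψ (Function.update c y (tx A U g e c y x)) / (1 + x ^ 2)) := by ring
    _ = c0 * ∫ t in (tx A U g e c y a)..(tx A U g e c y b), F t := by rw [h2, h3]
    _ ≤ ∫ t, F t ∂(ν y) := h1
    _ = Iop A U g e ν y Ψ c := rfl

/-- lower bound at a good site: the window `[x0 - l, x0 + l]`, `l ≤ δ0 d0 g_y` -/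
theorem Iop_ge_win [∀ i, IsProbabilityMeasure (ν i)] (hA : A.IsSymm) (he : ∀ x, 0 < e x) {y : ι}
    (hg : 0 < g y) {X d0 c0 δ0 l : ℝ} (hd : 0 < d0) (hc0 : 0 ≤ c0) {c : ι → ℝ}
    (hgood : GoodW A U g e X d0 c y) (hloc : LocGe c0 δ0 (ν y) (c y)) (hl : 0 ≤ l)
    (hl' : l ≤ δ0 * d0 * g y)
    {Ψ : (ι → ℝ) → ℝ} (hm : Measurable Ψ) (h0 : ∀ c, 0 ≤ Ψ c) {M : ℝ} (hM : ∀ c, Ψ c ≤ M) :
    c0 / g y * ∫ x in (x0 A U g e c y - l)..(x0 A U g e c y + l),
        Ψ (Function.update c y (tx A U g e c y x)) / (1 + x ^ 2) ≤ Iop A U g e ν y Ψ c := by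
  refine Iop_ge hA he hg hc0 hloc (by linarith) (fun x hx => ?_) hm h0 hM
  have hp := pc_im_pos (U := U) (g := g) hA he c y
  have hG : 0 < ‖Gc A U g e c y y‖ := norm_pos_iff.2 (diag_ne_zero hA he c y)
  have h1 : (pc A U g e c y).im * d0 ≤ 1 := by
    have h2 : (pc A U g e c y).im ≤ ‖pc A U g e c y‖ :=
      (le_abs_self _).trans (Complex.abs_im_le_norm _)
    have h3 : ‖pc A U g e c y‖ * d0 ≤ 1 := by
      rw [norm_pc, one_div, inv_mul_le_iff₀ hG, mul_one]
      exact hgood.2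
    exact (mul_le_mul_of_nonneg_right h2 hd.le).trans h3
  have h4 : |x - x0 A U g e c y| ≤ l := abs_le.2 ⟨by linarith [hx.1], by linarith [hx.2]⟩
  rw [tx_sub hA he, abs_div, abs_mul, abs_of_pos hp, abs_of_pos hg, div_le_iff₀ hg]
  refine le_of_mul_le_mul_right ?_ hd
  calc |x - x0 A U g e c y| * (pc A U g e c y).im * d0
      = |x - x0 A U g e c y| * ((pc A U g e c y).im * d0) := by ring
    _ ≤ l * 1 := mul_le_mul h4 h1 (by positivity) hl
    _ ≤ δ0 * g y * d0 := by linarith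

end P365L.Z0
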