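import Vale.Agent.P365.Z0.K257

/-!
# P365 T1.5 (Z3a): `three_amp` and `rat_pt`, kick lemmas on the window `|x| ≤ K` with separation `h`.
-/

set_option linter.all false

namespace P365Z0.H990

open Matrix Complex P365L P365L.Stat P365Z0
open scoped ComplexConjugate

/-- the window coordinate of the kick `t` -/
noncomputable def xx (g : ℂ) (t : ℝ) : ℝ := (t + (g⁻¹).re) / bet g

theorem ss_xx {g : ℂ} (hg : 0 < g.im) (t : ℝ) :
    ss g t = (bet g : ℂ) * ((xx g t : ℂ) - I) := by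
  have hb := bet_pos hg
  apply Complex.ext
  · rw [ss_re]
    simp [xx]
    field_simp
  · rw [ss_im]
    simp

theorem th_form {g : ℂ} (hg : 0 < g.im) (t : ℝ) (F Y : ℂ) :
    F - th g t * Y = (F - g⁻¹ * Y) +
      (g⁻¹ ^ 2 * Y / bet g) * ((xx g t : ℂ) + I) / ((1 + xx g t ^ 2 : ℝ) : ℂ) := by
  have hb : (bet g : ℂ) ≠ 0 := by exact_mod_cast (bet_pos hg).ne'
  have h1 : ((1 + xx g t ^ 2 : ℝ) : ℂ) ≠ 0 := by
    exact_mod_cast (by positivity : (0 : ℝ) < 1 + xx g t ^ 2).ne'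
  have h2 := ss_ne hg t
  have h3 : ((1 + xx g t ^ 2 : ℝ) : ℂ) = ((xx g t : ℂ) - I) * ((xx g t : ℂ) + I) := by
    push_cast
    ring_nf
    rw [Complex.I_sq]; ring
  have h4 : ((xx g t : ℂ) - I) ≠ 0 := by
    intro h
    apply h1
    rw [h3, h, zero_mul]
  have h5 : ((xx g t : ℂ) + I) ≠ 0 := by
    intro h
    apply h1
    rw [h3, h, mul_zero]
  rw [th_eq hg, ss_xx hg, h3]
  generalize g⁻¹ = G
  generalize (bet g : ℂ) = b at *
  field_simp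
  ring

theorem norm_nu {g : ℂ} (hg : 0 < g.im) (Y : ℂ) : ‖g⁻¹ ^ 2 * Y / bet g‖ = ‖Y‖ / g.im := by
  have hne : g ≠ 0 := by rintro rfl; simp at hg
  have hgn : 0 < ‖g‖ := norm_pos_iff.2 hne
  have hb := bet_pos hg
  rw [im_eq_bet hg, norm_div, norm_mul, norm_pow, norm_inv, Complex.norm_real, Real.norm_eq_abs,
    abs_of_pos hb]
  field_simp

theorem xx_le {g : ℂ} (hg : 0 < g.im) {K t : ℝ} (h : |t + (g⁻¹).re| ≤ K * bet g) :
    |xx g t| ≤ K := by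
  have hb := bet_pos hg
  rw [xx, abs_div, abs_of_pos hb, div_le_iff₀ hb]
  exact h

theorem xx_sep {g : ℂ} (hg : 0 < g.im) {h t1 t2 : ℝ} (hs : h * bet g ≤ |t1 - t2|) :
    h ≤ |xx g t1 - xx g t2| := by
  have hb := bet_pos hg
  have : xx g t1 - xx g t2 = (t1 - t2) / bet g := by rw [xx, xx]; field_simp; ring
  rw [this, abs_div, abs_of_pos hb, le_div_iff₀ hb]
  exact hs

theorem xx_surj {g : ℂ} (hg : 0 < g.im) (x : ℝ) : xx g (bet g * x - (g⁻¹).re) = x := by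
  have hb := bet_pos hg
  rw [xx]
  field_simp
  ring

theorem im_form (P ν : ℂ) (x : ℝ) :
    (P + ν * ((x : ℂ) + I) / ((1 + x ^ 2 : ℝ) : ℂ)).im =
      P.im + (ν.im * x + ν.re) / (1 + x ^ 2) := by
  rw [Complex.add_im, Complex.div_ofReal_im]
  congr 2
  simp [Complex.mul_im]
  ring

theorem re_form (P ν : ℂ) (x : ℝ) :
    (P + ν * ((x : ℂ) + I) / ((1 + x ^ 2 : ℝ) : ℂ)).re =
      P.re + (ν.re * x - ν.im) / (1 + x ^ 2) := by
  rw [Complex.add_re, Complex.div_ofReal_re]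
  congr 2
  simp [Complex.mul_re]

/-- real quadratic polynomials at three separated points -/
theorem quad3 {K h a b c x1 x2 x3 S : ℝ} (hK : 1 ≤ K) (hh : 0 < h)
    (h1 : |x1| ≤ K) (h2 : |x2| ≤ K) (h3 : |x3| ≤ K)
    (h12 : h ≤ |x1 - x2|) (h13 : h ≤ |x1 - x3|) (h23 : h ≤ |x2 - x3|)
    (b1 : |a * x1 ^ 2 + b * x1 + c| ≤ S) (b2 : |a * x2 ^ 2 + b * x2 + c| ≤ S)
    (b3 : |a * x3 ^ 2 + b * x3 + c| ≤ S) :
    |a| ≤ 3 * S / h ^ 2 ∧ |b| ≤ 6 * K * S / h ^ 2 ∧ |c| ≤ 3 * K ^ 2 * S / h ^ 2 := by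
  have hS : 0 ≤ S := (abs_nonneg _).trans b1
  set p1 := a * x1 ^ 2 + b * x1 + c with hp1
  set p2 := a * x2 ^ 2 + b * x2 + c with hp2
  set p3 := a * x3 ^ 2 + b * x3 + c with hp3
  have n12 : x1 - x2 ≠ 0 := abs_pos.1 (hh.trans_le h12)
  have n13 : x1 - x3 ≠ 0 := abs_pos.1 (hh.trans_le h13)
  have n23 : x2 - x3 ≠ 0 := abs_pos.1 (hh.trans_le h23)
  have m21 : x2 - x1 ≠ 0 := fun e => n12 (by linarith)
  have m31 : x3 - x1 ≠ 0 := fun e => n13 (by linarith)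
  have m32 : x3 - x2 ≠ 0 := fun e => n23 (by linarith)
  have d : ∀ p y z : ℝ, |p| ≤ S → h ≤ |y| → h ≤ |z| → |p / (y * z)| ≤ S / h ^ 2 := by
    intro p y z hp hy hz
    rw [abs_div, abs_mul]
    have : h ^ 2 ≤ |y| * |z| := by rw [sq]; exact mul_le_mul hy hz hh.le (abs_nonneg _)
    exact div_le_div₀ hS hp (by positivity) this
  have e1 := d p1 (x1 - x2) (x1 - x3) b1 h12 h13
  have e2 := d p2 (x2 - x1) (x2 - x3) b2 (by rwa [abs_sub_comm]) h23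
  have e3 := d p3 (x3 - x1) (x3 - x2) b3 (by rwa [abs_sub_comm]) (by rwa [abs_sub_comm])
  set q1 := p1 / ((x1 - x2) * (x1 - x3)) with hq1
  set q2 := p2 / ((x2 - x1) * (x2 - x3)) with hq2
  set q3 := p3 / ((x3 - x1) * (x3 - x2)) with hq3
  have ha : a = q1 + q2 + q3 := by
    rw [hq1, hq2, hq3, hp1, hp2, hp3]
    field_simp
    ring
  have hb : b = -(q1 * (x2 + x3) + q2 * (x1 + x3) + q3 * (x1 + x2)) := by
    rw [hq1, hq2, hq3, hp1, hp2, hp3]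
    field_simp
    ring
  have hc : c = q1 * (x2 * x3) + q2 * (x1 * x3) + q3 * (x1 * x2) := by
    rw [hq1, hq2, hq3, hp1, hp2, hp3]
    field_simp
    ring
  set T := S / h ^ 2 with hT
  have hT0 : 0 ≤ T := by positivity
  refine ⟨?_, ?_, ?_⟩
  · have : |a| ≤ T + T + T := by
      rw [ha]
      exact (abs_add_three _ _ _).trans (add_le_add (add_le_add e1 e2) e3)
    calc |a| ≤ T + T + T := this
      _ = 3 * S / h ^ 2 := by rw [hT]; ring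
  · have f : ∀ q y z : ℝ, |q| ≤ T → |y| ≤ K → |z| ≤ K → |q * (y + z)| ≤ T * (2 * K) := by
      intro q y z hq hy hz
      rw [abs_mul]
      refine mul_le_mul hq ?_ (abs_nonneg _) hT0
      exact (abs_add_le _ _).trans (by linarith)
    have : |b| ≤ T * (2 * K) + T * (2 * K) + T * (2 * K) := by
      rw [hb, abs_neg]
      exact (abs_add_three _ _ _).trans (add_le_add (add_le_add (f _ _ _ e1 h2 h3)
        (f _ _ _ e2 h1 h3)) (f _ _ _ e3 h1 h2))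
    calc |b| ≤ _ := this
      _ = 6 * K * S / h ^ 2 := by rw [hT]; ring
  · have f : ∀ q y z : ℝ, |q| ≤ T → |y| ≤ K → |z| ≤ K → |q * (y * z)| ≤ T * K ^ 2 := by
      intro q y z hq hy hz
      rw [abs_mul, abs_mul, sq]
      exact mul_le_mul hq (mul_le_mul hy hz (abs_nonneg _) (by linarith)) (by positivity) hT0
    have : |c| ≤ T * K ^ 2 + T * K ^ 2 + T * K ^ 2 := by
      rw [hc]
      exact (abs_add_three _ _ _).trans (add_le_add (add_le_add (f _ _ _ e1 h2 h3)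
        (f _ _ _ e2 h1 h3)) (f _ _ _ e3 h1 h2))
    calc |c| ≤ _ := this
      _ = 3 * K ^ 2 * S / h ^ 2 := by rw [hT]; ring

theorem three_amp {g : ℂ} (hg : 0 < g.im) {K h : ℝ} (hK : 1 ≤ K) (hh : 0 < h) (hh1 : h ≤ 1)
    {c0 : ℝ} {q : ℂ} {t1 t2 t3 M : ℝ} (h1 : |t1 + (g⁻¹).re| ≤ K * bet g)
    (h2 : |t2 + (g⁻¹).re| ≤ K * bet g) (h3 : |t3 + (g⁻¹).re| ≤ K * bet g)
    (h12 : h * bet g ≤ |t1 - t2|) (h13 : h * bet g ≤ |t1 - t3|) (h23 : h * bet g ≤ |t2 - t3|)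
    (b1 : |c0 - 2 * (th g t1 * q).re| ≤ M) (b2 : |c0 - 2 * (th g t2 * q).re| ≤ M)
    (b3 : |c0 - 2 * (th g t3 * q).re| ≤ M) :
    ‖q‖ / g.im ≤ ck K h * M := by
  have hM : 0 ≤ M := (abs_nonneg _).trans b1
  set ν := g⁻¹ ^ 2 * q / bet g with hν
  set A := c0 - 2 * (g⁻¹ * q).re with hA
  have key : ∀ t : ℝ, |t + (g⁻¹).re| ≤ K * bet g → |c0 - 2 * (th g t * q).re| ≤ M →
      |A * xx g t ^ 2 + 2 * ν.re * xx g t + (A - 2 * ν.im)| ≤ 2 * K ^ 2 * M := by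
    intro t ht hb
    have e := th_form hg t 0 q
    rw [zero_sub, zero_sub] at e
    have e2 : (th g t * q).re = (g⁻¹ * q).re - (ν.re * xx g t - ν.im) / (1 + xx g t ^ 2) := by
      have h5 : (-(th g t * q)).re = (-(g⁻¹ * q)).re +
          (ν.re * xx g t - ν.im) / (1 + xx g t ^ 2) := by
        rw [e, re_form]
      rw [Complex.neg_re, Complex.neg_re] at h5
      linarith
    have hx := xx_le hg ht
    have hx2 : xx g t ^ 2 ≤ K ^ 2 := by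
      rw [← sq_abs]
      exact pow_le_pow_left₀ (abs_nonneg _) hx 2
    have hp : 0 < 1 + xx g t ^ 2 := by positivity
    have e3 : A * xx g t ^ 2 + 2 * ν.re * xx g t + (A - 2 * ν.im) =
        (1 + xx g t ^ 2) * (c0 - 2 * (th g t * q).re) := by
      rw [e2, hA]
      field_simp
      ring
    rw [e3, abs_mul, abs_of_pos hp]
    have : 1 + xx g t ^ 2 ≤ 2 * K ^ 2 := by nlinarith
    exact mul_le_mul this hb (abs_nonneg _) (by positivity)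
  obtain ⟨ha, hb, hc⟩ := quad3 hK hh (xx_le hg h1) (xx_le hg h2) (xx_le hg h3)
    (xx_sep hg h12) (xx_sep hg h13) (xx_sep hg h23) (key t1 h1 b1) (key t2 h2 b2) (key t3 h3 b3)
  have hh2 : 0 < h ^ 2 := by positivity
  have hK2 : 1 ≤ K ^ 2 := by nlinarith
  have hKM : 0 ≤ K ^ 4 * M / h ^ 2 := by positivity
  have r1 : |ν.re| ≤ 6 * (K ^ 4 * M / h ^ 2) := by
    have : |2 * ν.re| = 2 * |ν.re| := by rw [abs_mul]; norm_num
    rw [this] at hb
    have h6 : 6 * K * (2 * K ^ 2 * M) / h ^ 2 ≤ 12 * (K ^ 4 * M / h ^ 2) := by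
      rw [mul_div_assoc', div_le_div_iff_of_pos_right hh2]
      have : K ^ 3 * M ≤ K ^ 4 * M := by
        apply mul_le_mul_of_nonneg_right _ hM
        exact pow_le_pow_right₀ hK (by norm_num)
      nlinarith
    linarith
  have r2 : |ν.im| ≤ 6 * (K ^ 4 * M / h ^ 2) := by
    have h5 : 2 * ν.im = A - (A - 2 * ν.im) := by ring
    have h6 : |2 * ν.im| ≤ |A| + |A - 2 * ν.im| := by
      conv_lhs => rw [h5]
      exact abs_sub _ _
    have h7 : |2 * ν.im| = 2 * |ν.im| := by rw [abs_mul]; norm_num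
    have h8 : 3 * (2 * K ^ 2 * M) / h ^ 2 ≤ 6 * (K ^ 4 * M / h ^ 2) := by
      rw [mul_div_assoc', div_le_div_iff_of_pos_right hh2]
      have : K ^ 2 * M ≤ K ^ 4 * M := by
        apply mul_le_mul_of_nonneg_right _ hM
        exact pow_le_pow_right₀ hK (by norm_num)
      nlinarith
    have h9 : 3 * K ^ 2 * (2 * K ^ 2 * M) / h ^ 2 = 6 * (K ^ 4 * M / h ^ 2) := by ring
    linarith
  rw [← norm_nu hg q, ck]
  calc ‖ν‖ ≤ |ν.re| + |ν.im| := Complex.norm_le_abs_re_add_abs_im _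
    _ ≤ 12 * (K ^ 4 * M / h ^ 2) := by linarith
    _ ≤ 100 * (K ^ 4 * M / h ^ 2) := by linarith
    _ = 100 * K ^ 4 / h ^ 2 * M := by ring

theorem lead_nonneg {a b c : ℝ} (hnn : ∀ x : ℝ, 0 ≤ a * x ^ 2 + b * x + c) : 0 ≤ a := by
  by_contra hneg
  have hneg' : a < 0 := not_le.1 hneg
  have h5 := hnn ((|b| + |c| + 1) / (-a) + 1)
  set y := (|b| + |c| + 1) / (-a) + 1 with hy
  have hy0 : 0 ≤ (|b| + |c| + 1) / (-a) := by
    apply div_nonneg (by positivity)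
    linarith
  have hy1 : 1 ≤ y := by rw [hy]; linarith
  have hne : -a ≠ 0 := by linarith
  have hya : (-a) * y = |b| + |c| + 1 + (-a) := by
    rw [hy, mul_add, mul_div_cancel₀ _ hne, mul_one]
  have hb1 : b * y ≤ |b| * y := mul_le_mul_of_nonneg_right (le_abs_self b) (by linarith)
  have hc1 : c ≤ |c| * y := by
    calc c ≤ |c| := le_abs_self c
      _ ≤ |c| * y := le_mul_of_one_le_right (abs_nonneg _) hy1
  have h6 : a * y ^ 2 = -((|b| + |c| + 1 + (-a)) * y) := by rw [← hya]; ring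
  have h7 : a * y ^ 2 + b * y + c ≤ -((1 + (-a)) * y) := by
    rw [h6]
    linarith
  have h8 : 0 < (1 + (-a)) * y := mul_pos (by linarith) (by linarith)
  linarith

theorem K24 {K M : ℝ} (hK : 1 ≤ K) (hM : 0 ≤ M) : K ^ 2 * M ≤ K ^ 4 * M :=
  mul_le_mul_of_nonneg_right (pow_le_pow_right₀ hK (by norm_num)) hM

theorem quad2a {K h a b c x1 x2 M : ℝ} 
    (hnn : ∀ x : ℝ, 0 ≤ a * x ^ 2 + b * x + c) (ha0 : 0 ≤ a) (hh : 0 < h) (hs : h ≤ |x1 - x2|)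
    (u1 : a * x1 ^ 2 + b * x1 + c ≤ 2 * K ^ 2 * M) (u2 : a * x2 ^ 2 + b * x2 + c ≤ 2 * K ^ 2 * M) :
    a * h ^ 2 ≤ 8 * K ^ 2 * M := by
  have h6 := hnn ((x1 + x2) / 2)
  have h5 : a * (x1 - x2) ^ 2 ≤ 8 * K ^ 2 * M := by nlinarith
  have h7 : h ^ 2 ≤ (x1 - x2) ^ 2 := by
    rw [← sq_abs (x1 - x2)]
    exact pow_le_pow_left₀ hh.le hs 2
  exact (mul_le_mul_of_nonneg_left h7 ha0).trans h5

theorem quad2 {K h a b c x1 x2 M : ℝ} (hK : 1 ≤ K) (hh : 0 < h) (hh1 : h ≤ 1) (hM : 0 ≤ M)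
    (hnn : ∀ x : ℝ, 0 ≤ a * x ^ 2 + b * x + c) (hx1 : |x1| ≤ K) (hs : h ≤ |x1 - x2|)
    (u1 : a * x1 ^ 2 + b * x1 + c ≤ 2 * K ^ 2 * M) (u2 : a * x2 ^ 2 + b * x2 + c ≤ 2 * K ^ 2 * M) :
    a + c ≤ 28 * (K ^ 4 * M / h ^ 2) := by
  have ha0 := lead_nonneg hnn
  have hh2 : 0 < h ^ 2 := by positivity
  have h10 := quad2a hnn ha0 hh hs u1 u2
  have h24 := K24 hK hM
  have hK2 : 0 ≤ K ^ 2 * M := by positivity
  have haM : a ≤ 8 * (K ^ 4 * M / h ^ 2) := by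
    rw [mul_div_assoc', le_div_iff₀ hh2]
    linarith
  have h5 := hnn (2 * x1)
  have h6 : c ≤ 2 * (2 * K ^ 2 * M) + 2 * (a * x1 ^ 2) := by
    have e : a * (2 * x1) ^ 2 + b * (2 * x1) + c =
      2 * (a * x1 ^ 2 + b * x1 + c) + 2 * (a * x1 ^ 2) - c := by ring
    rw [e] at h5
    linarith
  have h7 : x1 ^ 2 ≤ K ^ 2 := by
    rw [← sq_abs]
    exact pow_le_pow_left₀ (abs_nonneg _) hx1 2
  have h11 : a * K ^ 2 ≤ 8 * (K ^ 4 * M / h ^ 2) := by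
    rw [mul_div_assoc', le_div_iff₀ hh2]
    have := mul_le_mul_of_nonneg_left h10 (sq_nonneg K)
    calc a * K ^ 2 * h ^ 2 = K ^ 2 * (a * h ^ 2) := by ring
      _ ≤ K ^ 2 * (8 * K ^ 2 * M) := this
      _ = 8 * (K ^ 4 * M) := by ring
  have h8 : a * x1 ^ 2 ≤ a * K ^ 2 := mul_le_mul_of_nonneg_left h7 ha0
  have h12 : K ^ 2 * M ≤ K ^ 4 * M / h ^ 2 := by
    rw [le_div_iff₀ hh2]
    have h1 : h ^ 2 ≤ 1 := pow_le_one₀ hh.le hh1
    calc K ^ 2 * M * h ^ 2 ≤ K ^ 2 * M * 1 := mul_le_mul_of_nonneg_left h1 hK2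
      _ ≤ K ^ 4 * M := by linarith
  linarith

theorem disc_le {a b c : ℝ} (hnn : ∀ x : ℝ, 0 ≤ a * x ^ 2 + b * x + c) : b ^ 2 ≤ 4 * a * c := by
  have := discrim_le_zero (a := a) (b := b) (c := c) (fun x => by
    have h := hnn x
    rw [sq] at h
    exact h)
  rw [discrim] at this
  linarith

theorem quad_le {a b c : ℝ} (hnn : ∀ x : ℝ, 0 ≤ a * x ^ 2 + b * x + c) (y : ℝ) :
    a * y ^ 2 + b * y + c ≤ (1 + y ^ 2) * (a + c) := by
  have ha0 := lead_nonneg hnn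
  have hc0 : 0 ≤ c := by simpa using hnn 0
  have hdisc := disc_le hnn
  have h7 : b * y ≤ a + c * y ^ 2 := by
    have h8 : (b * y) ^ 2 ≤ (a + c * y ^ 2) ^ 2 := by
      have h9 : (b * y) ^ 2 ≤ 4 * a * c * y ^ 2 := by
        rw [mul_pow]
        exact mul_le_mul_of_nonneg_right hdisc (sq_nonneg y)
      have e : (a + c * y ^ 2) ^ 2 = 4 * a * c * y ^ 2 + (a - c * y ^ 2) ^ 2 := by ring
      rw [e]
      linarith [sq_nonneg (a - c * y ^ 2)]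
    have h10 : 0 ≤ a + c * y ^ 2 := by positivity
    exact (le_abs_self _).trans (abs_le_of_sq_le_sq h8 h10)
  linarith

theorem eta_le (x : ℝ) : ‖((x : ℂ) + I) / ((1 + x ^ 2 : ℝ) : ℂ)‖ ≤ 1 := by
  have hp : (0:ℝ) < 1 + x ^ 2 := by positivity
  rw [norm_div, Complex.norm_real, Real.norm_eq_abs, abs_of_pos hp, div_le_one hp]
  apply le_of_sq_le_sq _ hp.le
  rw [← Complex.normSq_eq_norm_sq, Complex.normSq_apply]
  simp
  nlinarith [sq_nonneg x]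

theorem nu_le {P ν : ℂ} (hnn : ∀ x : ℝ, 0 ≤ P.im * x ^ 2 + ν.im * x + (P.im + ν.re)) :
    ‖ν‖ ≤ P.im + (P.im + ν.re) := by
  have ha0 := lead_nonneg hnn
  have hc0 : 0 ≤ P.im + ν.re := by simpa using hnn 0
  have hdisc := disc_le hnn
  apply le_of_sq_le_sq _ (by linarith)
  rw [← Complex.normSq_eq_norm_sq, Complex.normSq_apply]
  have e : (P.im + (P.im + ν.re)) ^ 2 = 4 * P.im * (P.im + ν.re) + ν.re * ν.re := by ring
  rw [e]
  nlinarith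

/-- **ratio stability**: `F(t) = F - θ(t) Y` stays in the closed upper half plane for all real `t`;
if `F = F(0)` satisfies `‖F‖ ≤ X Im F`, then at two separated points of the window `Im F(t_i)` is
not small at both -/
theorem rat_pt {g : ℂ} (hg : 0 < g.im) {K h : ℝ} (hK : 1 ≤ K) (hh : 0 < h) (hh1 : h ≤ 1)
    {F Y : ℂ} (hpos : ∀ t : ℝ, 0 ≤ (F - th g t * Y).im) {X : ℝ} (hX : 1 ≤ X)
    (h0 : ‖F‖ ≤ X * F.im) {t1 t2 M : ℝ} (h1 : |t1 + (g⁻¹).re| ≤ K * bet g)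
    (h2 : |t2 + (g⁻¹).re| ≤ K * bet g) (hsep : h * bet g ≤ |t1 - t2|)
    (hM1 : (F - th g t1 * Y).im ≤ M) (hM2 : (F - th g t2 * Y).im ≤ M) (t : ℝ) :
    ‖F - th g t * Y‖ ≤ (X + 2) * ck K h * M := by
  have hM : 0 ≤ M := (hpos t1).trans hM1
  set P := F - g⁻¹ * Y with hP
  set ν := g⁻¹ ^ 2 * Y / bet g with hν
  have form : ∀ t : ℝ, F - th g t * Y = P + ν * ((xx g t : ℂ) + I) / ((1 + xx g t ^ 2 : ℝ) : ℂ) :=
    fun t => th_form hg t F Y
  have him : ∀ t : ℝ, (F - th g t * Y).im = P.im + (ν.im * xx g t + ν.re) / (1 + xx g t ^ 2) :=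
    fun t => by rw [form t, im_form]
  have hq : ∀ t : ℝ, (1 + xx g t ^ 2) * (F - th g t * Y).im =
      P.im * xx g t ^ 2 + ν.im * xx g t + (P.im + ν.re) := by
    intro t
    rw [him t]
    have hp : (1 + xx g t ^ 2) ≠ 0 := (by positivity : (0:ℝ) < 1 + xx g t ^ 2).ne'
    rw [mul_add, mul_div_cancel₀ _ hp]
    ring
  have hnn : ∀ x : ℝ, 0 ≤ P.im * x ^ 2 + ν.im * x + (P.im + ν.re) := by
    intro x
    have h5 := hq (bet g * x - (g⁻¹).re)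
    rw [xx_surj hg] at h5
    rw [← h5]
    exact mul_nonneg (by positivity) (hpos _)
  -- the two points
  have up : ∀ t : ℝ, |t + (g⁻¹).re| ≤ K * bet g → (F - th g t * Y).im ≤ M →
      P.im * xx g t ^ 2 + ν.im * xx g t + (P.im + ν.re) ≤ 2 * K ^ 2 * M := by
    intro t ht hb
    have hx := xx_le hg ht
    have hx2 : xx g t ^ 2 ≤ K ^ 2 := by
      rw [← sq_abs]
      exact pow_le_pow_left₀ (abs_nonneg _) hx 2
    rw [← hq t]
    have h1K : 1 ≤ K ^ 2 := one_le_pow₀ hK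
    have : 1 + xx g t ^ 2 ≤ 2 * K ^ 2 := by linarith
    exact mul_le_mul this hb (hpos t) (by positivity)
  have hsum := quad2 hK hh hh1 hM hnn (xx_le hg h1) (xx_sep hg hsep) (up t1 h1 hM1) (up t2 h2 hM2)
  have hνM := nu_le hnn
  set M0 := P.im + (P.im + ν.re) with hM0
  have hM0n : 0 ≤ M0 := (norm_nonneg _).trans hνM
  have hM0M : M0 ≤ ck K h * M := by
    rw [ck]
    have : 0 ≤ K ^ 4 * M / h ^ 2 := by positivity
    calc M0 ≤ 100 * (K ^ 4 * M / h ^ 2) := by linarith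
      _ = 100 * K ^ 4 / h ^ 2 * M := by ring
  -- `Im F ≤ M0`
  have e0 : F - th g (0 : ℝ) * Y = F := by simp [th]
  have hF0 : F.im ≤ M0 := by
    have h5 := hq 0
    rw [e0] at h5
    have h6 := quad_le hnn (xx g 0)
    rw [← h5] at h6
    exact le_of_mul_le_mul_left h6 (by positivity)
  have hFn : ‖F‖ ≤ X * M0 := h0.trans (mul_le_mul_of_nonneg_left hF0 (by linarith))
  have hdisp : F - th g t * Y = F + ν * (((xx g t : ℂ) + I) / ((1 + xx g t ^ 2 : ℝ) : ℂ)) -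
      ν * (((xx g 0 : ℂ) + I) / ((1 + xx g 0 ^ 2 : ℝ) : ℂ)) := by
    have f0 := form 0
    rw [e0] at f0
    rw [form t]
    conv_rhs => rw [f0]
    ring
  rw [hdisp]
  have n1 : ∀ x : ℝ, ‖ν * (((x : ℂ) + I) / ((1 + x ^ 2 : ℝ) : ℂ))‖ ≤ M0 := by
    intro x
    rw [norm_mul]
    calc ‖ν‖ * _ ≤ M0 * 1 := mul_le_mul hνM (eta_le _) (norm_nonneg _) hM0n
      _ = M0 := mul_one _
  calc ‖F + ν * (((xx g t : ℂ) + I) / ((1 + xx g t ^ 2 : ℝ) : ℂ)) -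
      ν * (((xx g 0 : ℂ) + I) / ((1 + xx g 0 ^ 2 : ℝ) : ℂ))‖
      ≤ ‖F‖ + ‖ν * (((xx g t : ℂ) + I) / ((1 + xx g t ^ 2 : ℝ) : ℂ))‖ +
        ‖ν * (((xx g 0 : ℂ) + I) / ((1 + xx g 0 ^ 2 : ℝ) : ℂ))‖ :=
        (norm_sub_le _ _).trans (add_le_add (norm_add_le _ _) le_rfl)
    _ ≤ X * M0 + M0 + M0 := add_le_add (add_le_add hFn (n1 _)) (n1 _)
    _ = (X + 2) * M0 := by ring
    _ ≤ (X + 2) * (ck K h * M) := mul_le_mul_of_nonneg_left hM0M (by linarith)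
    _ = (X + 2) * ck K h * M := by ring

end P365Z0.H990
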