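import Mathlib.MeasureTheory.Integral.Lebesgue.DominatedConvergence
import Mathlib.Analysis.SpecificLimits.Basic
import Mathlib.MeasureTheory.Measure.Prod
import Mathlib.MeasureTheory.OuterMeasure.BorelCantelli

/-!
# P365 / Z0 / Sel985: a common sequence of parameters

`f r I x ∈ [0, 1]`; for almost every `x` there is a threshold `R` (depending on `x` in any way,
no measurability) such that `f r I x → 0` as `I → ∞` for every `r ≥ R`. Then one sequence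
`(r, σ r)` works in the mean, and a subsequence with summable means exists.
-/

namespace P365Z0

open MeasureTheory Filter Topology
open scoped ENNReal

variable {α : Type*} [MeasurableSpace α] {μ : Measure α}

/-- one parameter `σ r ≥ N r` for each `r` -/
theorem exists_sel [IsFiniteMeasure μ] {f : ℕ → ℕ → α → ℝ≥0∞} (hf : ∀ r I, Measurable (f r I))
    (h1 : ∀ r I x, f r I x ≤ 1)
    (h : ∀ᵐ x ∂μ, ∃ R : ℕ, ∀ r ≥ R, Tendsto (fun I => f r I x) atTop (𝓝 0)) (M : ℕ → ℕ) :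
    ∃ σ : ℕ → ℕ, (∀ r, M r ≤ σ r) ∧ Tendsto (fun r => ∫⁻ x, f r (σ r) x ∂μ) atTop (𝓝 0) := by
  have hfin : ∫⁻ _ : α, 1 ∂μ ≠ ∞ := by simp
  set g : ℕ → α → ℝ≥0∞ := fun r x => limsup (fun I => f r I x) atTop with hg
  have hgm : ∀ r, Measurable (g r) := fun r => Measurable.limsup (hf r)
  have hg1 : ∀ r x, g r x ≤ 1 := fun r x =>
    limsup_le_of_le (by isBoundedDefault) (Eventually.of_forall fun I => h1 r I x)
  have hle : ∀ r, limsup (fun I => ∫⁻ x, f r I x ∂μ) atTop ≤ ∫⁻ x, g r x ∂μ := fun r =>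
    limsup_lintegral_le (fun _ => 1) (hf r) (fun I => ae_of_all _ (h1 r I)) hfin
  have hlim : Tendsto (fun r => ∫⁻ x, g r x ∂μ) atTop (𝓝 0) := by
    have h2 : Tendsto (fun r => ∫⁻ x, g r x ∂μ) atTop (𝓝 (∫⁻ _ : α, 0 ∂μ)) := by
      refine tendsto_lintegral_of_dominated_convergence (fun _ => 1) hgm
        (fun r => ae_of_all _ (hg1 r)) hfin ?_
      filter_upwards [h] with x ⟨R, hR⟩
      refine tendsto_const_nhds.congr' ?_
      filter_upwards [eventually_ge_atTop R] with r hr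
      exact (hR r hr).limsup_eq.symm
    simpa using h2
  have hex : ∀ r : ℕ, ∃ I, M r ≤ I ∧
      ∫⁻ x, f r I x ∂μ ≤ ∫⁻ x, g r x ∂μ + ((r : ℝ≥0∞) + 1)⁻¹ := by
    intro r
    have hgf : ∫⁻ x, g r x ∂μ ≠ ∞ :=
      ne_top_of_le_ne_top hfin (lintegral_mono (hg1 r))
    have h3 : limsup (fun I => ∫⁻ x, f r I x ∂μ) atTop <
        ∫⁻ x, g r x ∂μ + ((r : ℝ≥0∞) + 1)⁻¹ :=
      (hle r).trans_lt (ENNReal.lt_add_right hgf (by simp))
    have h4 := eventually_lt_of_limsup_lt h3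
    obtain ⟨I, hI, hI2⟩ := (h4.and (eventually_ge_atTop (M r))).exists
    exact ⟨I, hI2, hI.le⟩
  choose σ hσ hσ2 using hex
  refine ⟨σ, hσ, ?_⟩
  have h5 : Tendsto (fun r : ℕ => ∫⁻ x, g r x ∂μ + ((r : ℝ≥0∞) + 1)⁻¹) atTop (𝓝 0) := by
    have h6 : Tendsto (fun r : ℕ => ((r : ℝ≥0∞) + 1)⁻¹) atTop (𝓝 0) := by
      have := (ENNReal.tendsto_inv_nat_nhds_zero).comp (tendsto_add_atTop_nat 1)
      refine this.congr fun n => ?_
      simp [Function.comp]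
    simpa using hlim.add h6
  exact tendsto_of_tendsto_of_tendsto_of_le_of_le tendsto_const_nhds h5 (fun _ => bot_le) hσ2

/-- a subsequence with summable means -/
theorem exists_sel_summable [IsFiniteMeasure μ] {f : ℕ → ℕ → α → ℝ≥0∞}
    (hf : ∀ r I, Measurable (f r I)) (h1 : ∀ r I x, f r I x ≤ 1)
    (h : ∀ᵐ x ∂μ, ∃ R : ℕ, ∀ r ≥ R, Tendsto (fun I => f r I x) atTop (𝓝 0)) (M : ℕ → ℕ) :
    ∃ ρ σ : ℕ → ℕ, StrictMono ρ ∧ (∀ n, M (ρ n) ≤ σ n) ∧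
      ∀ n, ∫⁻ x, f (ρ n) (σ n) x ∂μ ≤ 2⁻¹ ^ n := by
  obtain ⟨σ, hσ, hlim⟩ := exists_sel hf h1 h M
  have hev : ∀ n : ℕ, ∀ᶠ r in atTop, ∫⁻ x, f r (σ r) x ∂μ < 2⁻¹ ^ n := fun n =>
    hlim.eventually_lt_const (ENNReal.pow_pos (by simp) n)
  obtain ⟨ρ, hρ, hρ2⟩ := extraction_forall_of_eventually hev
  exact ⟨ρ, fun n => σ (ρ n), hρ, fun n => hσ _, fun n => (hρ2 n).le⟩

/-- Borel-Cantelli form on the product: bad sets `bad r I ⊆ α × Ω`. -/
theorem exists_sel_ae [IsFiniteMeasure μ] {Ω : Type*} [MeasurableSpace Ω] (P : Measure Ω)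
    [IsProbabilityMeasure P] {bad : ℕ → ℕ → Set (α × Ω)} (hb : ∀ r I, MeasurableSet (bad r I))
    (h : ∀ᵐ x ∂μ, ∃ R : ℕ, ∀ r ≥ R,
      Tendsto (fun I => P {ω | (x, ω) ∈ bad r I}) atTop (𝓝 0)) (M : ℕ → ℕ) :
    ∃ ρ σ : ℕ → ℕ, StrictMono ρ ∧ (∀ n, M (ρ n) ≤ σ n) ∧
      ∀ᵐ z ∂(μ.prod P), ∀ᶠ n in atTop, z ∉ bad (ρ n) (σ n) := by
  obtain ⟨ρ, σ, hρ, hσ, hs⟩ := exists_sel_summable (μ := μ)
    (f := fun r I x => P (Prod.mk x ⁻¹' bad r I))
    (fun r I => measurable_measure_prodMk_left (hb r I)) (fun r I x => prob_le_one) h M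
  refine ⟨ρ, σ, hρ, hσ, ae_eventually_notMem ?_⟩
  have h1 : ∀ n, (μ.prod P) (bad (ρ n) (σ n)) ≤ 2⁻¹ ^ n := fun n => by
    rw [Measure.prod_apply (hb _ _)]
    exact hs n
  refine ne_top_of_le_ne_top ?_ (ENNReal.tsum_le_tsum h1)
  rw [ENNReal.tsum_geometric]
  simp

end P365Z0
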