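import Vale.Agent.P365.Bdl.B1

/-!
# P365 / Z0: for a bounded potential `|V| ≤ B` every spectral measure of `hop + V` is carried by
`[-(4 + B), 4 + B]`.
-/

set_option linter.all false

namespace P365Z0.F700

open MeasureTheory Complex P365L Set Filter Topology
open scoped ENNReal InnerProductSpace

variable {V : Site → ℝ} {B δ : ℝ} {z : ℂ} {ψ u : L2}

theorem hasSum_shift (u : L2) (e : Site) :
    HasSum (fun x : Site => ‖u (x + e)‖ ^ 2) (‖u‖ ^ 2) :=
  (Equiv.addRight e).hasSum_iff.2 (L2_hasSum_sq u)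

theorem resolvent_le_out (hV : ∀ x, |V x| ≤ B) (hδ : 0 < δ) (hE : 4 + B + δ ≤ |z.re|)
    (hu : IsResolvent V z ψ u) : ‖u‖ ^ 2 ≤ ‖ψ‖ ^ 2 / δ ^ 2 := by
  have hpt : ∀ x : Site, (2 + δ / 2) * ‖u x‖ ^ 2 -
      (1 / 2) * (‖u (x + (1, 0))‖ ^ 2 + ‖u (x + (-1, 0))‖ ^ 2 + ‖u (x + (0, 1))‖ ^ 2 +
        ‖u (x + (0, -1))‖ ^ 2) ≤ 1 / (2 * δ) * ‖ψ x‖ ^ 2 := by
    intro x
    have h1 := hu x
    have e1 : ((V x : ℂ) - z) * u x = ψ x - hop (fun y => u y) x := by linear_combination h1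
    have hlow : 4 + δ ≤ ‖(V x : ℂ) - z‖ := by
      have h2 := Complex.abs_re_le_norm ((V x : ℂ) - z)
      have h3 : ((V x : ℂ) - z).re = V x - z.re := by simp
      rw [h3] at h2
      have h4 : |z.re| ≤ |V x - z.re| + |V x| := by
        have := abs_sub_abs_le_abs_sub z.re (V x)
        rw [abs_sub_comm] at this
        linarith
      linarith [hV x]
    have h5 : (4 + δ) * ‖u x‖ ≤ ‖ψ x‖ + (‖u (x + (1, 0))‖ + ‖u (x + (-1, 0))‖ +
        ‖u (x + (0, 1))‖ + ‖u (x + (0, -1))‖) := by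
      calc (4 + δ) * ‖u x‖ ≤ ‖(V x : ℂ) - z‖ * ‖u x‖ :=
            mul_le_mul_of_nonneg_right hlow (norm_nonneg _)
        _ = ‖ψ x - hop (fun y => u y) x‖ := by rw [← norm_mul, e1]
        _ ≤ ‖ψ x‖ + ‖hop (fun y => u y) x‖ := norm_sub_le _ _
        _ ≤ _ := by
          refine add_le_add le_rfl ?_
          have e2 : hop (fun y => u y) x = u (x + (1, 0)) + u (x + (-1, 0)) + u (x + (0, 1)) +
              u (x + (0, -1)) := by
            obtain ⟨a, b⟩ := x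
            simp [hop, sub_eq_add_neg]
          rw [e2]
          exact (norm_add_le _ _).trans (add_le_add ((norm_add_le _ _).trans
            (add_le_add (norm_add_le _ _) le_rfl)) le_rfl)
    have h6 : (4 + δ) * ‖u x‖ * ‖u x‖ ≤ (‖ψ x‖ + (‖u (x + (1, 0))‖ + ‖u (x + (-1, 0))‖ +
        ‖u (x + (0, 1))‖ + ‖u (x + (0, -1))‖)) * ‖u x‖ :=
      mul_le_mul_of_nonneg_right h5 (norm_nonneg _)
    have h7 : ‖ψ x‖ * ‖u x‖ ≤ δ / 2 * ‖u x‖ ^ 2 + 1 / (2 * δ) * ‖ψ x‖ ^ 2 := by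
      have h8 : 0 ≤ 1 / (2 * δ) * (δ * ‖u x‖ - ‖ψ x‖) ^ 2 := by positivity
      have h9 : 1 / (2 * δ) * (δ * ‖u x‖ - ‖ψ x‖) ^ 2 =
          δ / 2 * ‖u x‖ ^ 2 + 1 / (2 * δ) * ‖ψ x‖ ^ 2 - ‖ψ x‖ * ‖u x‖ := by
        field_simp
        ring
      linarith
    nlinarith [sq_nonneg (‖u (x + (1, 0))‖ - ‖u x‖), sq_nonneg (‖u (x + (-1, 0))‖ - ‖u x‖),
      sq_nonneg (‖u (x + (0, 1))‖ - ‖u x‖), sq_nonneg (‖u (x + (0, -1))‖ - ‖u x‖)]
  have hL := ((L2_hasSum_sq u).mul_left (2 + δ / 2)).sub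
    (((((hasSum_shift u (1, 0)).add (hasSum_shift u (-1, 0))).add (hasSum_shift u (0, 1))).add
      (hasSum_shift u (0, -1))).mul_left (1 / 2))
  have hR := (L2_hasSum_sq ψ).mul_left (1 / (2 * δ))
  have h := hasSum_le hpt hL hR
  have h2 : δ / 2 * ‖u‖ ^ 2 ≤ 1 / (2 * δ) * ‖ψ‖ ^ 2 := by linarith
  rw [le_div_iff₀ (by positivity)]
  have h3 : 2 * δ * (δ / 2 * ‖u‖ ^ 2) ≤ 2 * δ * (1 / (2 * δ) * ‖ψ‖ ^ 2) :=
    mul_le_mul_of_nonneg_left h2 (by positivity)
  have h4 : 2 * δ * (1 / (2 * δ) * ‖ψ‖ ^ 2) = ‖ψ‖ ^ 2 := by field_simp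
  nlinarith

theorem interval_null {μ : Measure ℝ} (hV : ∀ x, |V x| ≤ B) (hμ : IsSpectralMeasure V ψ μ)
    (hδ : 0 < δ) {a : ℝ} (ha : ∀ E ∈ Icc a (a + 1), 4 + B + δ ≤ |E|) :
    μ (Icc a (a + 1)) = 0 := by
  have := hμ.finite
  set C : ℝ := ‖ψ‖ ^ 2 / δ ^ 2 with hC
  have hC0 : 0 ≤ C := by positivity
  have hball : ∀ E ∈ Icc a (a + 1), ∀ η : ℝ, 0 < η →
      μ.real (Metric.closedBall E η) ≤ 2 * η ^ 2 * C := by
    intro E hE η hη
    have hz : 0 < ((E : ℂ) + η * I).im := by simpa using hη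
    obtain ⟨u, hu, -⟩ := hμ.transform _ hz
    have h1 := ball_le_poisson (μ := μ) E hη
    rw [poisson_eq hμ E hη hu] at h1
    have h2 : ‖u‖ ^ 2 ≤ C := by
      refine resolvent_le_out hV hδ ?_ hu
      have : ((E : ℂ) + η * I).re = E := by simp
      rw [this]
      exact ha E hE
    rw [div_le_iff₀ (by positivity)] at h1
    calc μ.real (Metric.closedBall E η) ≤ η * ‖u‖ ^ 2 * (2 * η) := h1
      _ = 2 * η ^ 2 * ‖u‖ ^ 2 := by ring
      _ ≤ 2 * η ^ 2 * C := mul_le_mul_of_nonneg_left h2 (by positivity)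
  have hn : ∀ n : ℕ, 0 < n → μ.real (Icc a (a + 1)) ≤ 4 * C / n := by
    intro n hn
    have hn' : (0 : ℝ) < n := Nat.cast_pos.2 hn
    have hcov : Icc a (a + 1) ⊆ ⋃ k ∈ Finset.range (n + 1),
        Metric.closedBall (a + (k : ℝ) / n) (1 / n) := by
      intro t ht
      rw [mem_iUnion₂]
      have h0 : 0 ≤ (t - a) * n := mul_nonneg (by linarith [ht.1]) hn'.le
      refine ⟨⌊(t - a) * n⌋₊, ?_, ?_⟩
      · rw [Finset.mem_range, Nat.lt_succ_iff]
        refine Nat.floor_le_of_le ?_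
        have : (t - a) * n ≤ 1 * n := mul_le_mul_of_nonneg_right (by linarith [ht.2]) hn'.le
        simpa using this
      · rw [Metric.mem_closedBall, Real.dist_eq]
        have h1 := Nat.floor_le h0
        have h2 := Nat.lt_floor_add_one ((t - a) * n)
        have e1 : t - (a + (⌊(t - a) * n⌋₊ : ℝ) / n) = ((t - a) * n - ⌊(t - a) * n⌋₊) / n := by
          field_simp
          ring
        rw [e1, abs_div, abs_of_pos hn', abs_of_nonneg (by linarith)]
        exact div_le_div_of_nonneg_right (by linarith) hn'.le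
    have h1 : μ.real (Icc a (a + 1)) ≤ ∑ k ∈ Finset.range (n + 1),
        μ.real (Metric.closedBall (a + (k : ℝ) / n) (1 / n)) :=
      (measureReal_mono hcov (measure_ne_top μ _)).trans (measureReal_biUnion_finset_le _ _)
    refine h1.trans ?_
    calc ∑ k ∈ Finset.range (n + 1), μ.real (Metric.closedBall (a + (k : ℝ) / n) (1 / n))
        ≤ ∑ k ∈ Finset.range (n + 1), 2 * (1 / (n : ℝ)) ^ 2 * C := by
          refine Finset.sum_le_sum fun k hk => hball _ ⟨?_, ?_⟩ _ (by positivity)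
          · have : 0 ≤ (k : ℝ) / n := by positivity
            linarith
          · have hk' : (k : ℝ) ≤ n := by
              exact_mod_cast Nat.lt_succ_iff.1 (Finset.mem_range.1 hk)
            have : (k : ℝ) / n ≤ 1 := (div_le_one hn').2 hk'
            linarith
      _ = (n + 1) * (2 * (1 / (n : ℝ)) ^ 2 * C) := by
          rw [Finset.sum_const, Finset.card_range, nsmul_eq_mul]
          push_cast
          ring
      _ ≤ (n + n) * (2 * (1 / (n : ℝ)) ^ 2 * C) := by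
          have h1n : (1 : ℝ) ≤ n := by exact_mod_cast hn
          exact mul_le_mul_of_nonneg_right (by linarith) (by positivity)
      _ = 4 * C / n := by
          field_simp
          ring
  have hle : μ.real (Icc a (a + 1)) ≤ 0 := by
    refine ge_of_tendsto (tendsto_const_div_atTop_nhds_zero_nat (4 * C)) ?_
    filter_upwards [eventually_gt_atTop 0] with n hn0
    exact hn n hn0
  have h0 : μ.real (Icc a (a + 1)) = 0 := le_antisymm hle measureReal_nonneg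
  exact (measureReal_eq_zero_iff (measure_ne_top μ _)).1 h0

/-- **support of the spectral measures** -/
theorem spectral_supp {μ : Measure ℝ} (hV : ∀ x, |V x| ≤ B) (hμ : IsSpectralMeasure V ψ μ) :
    μ (Icc (-(4 + B)) (4 + B))ᶜ = 0 := by
  have hcov : (Icc (-(4 + B)) (4 + B))ᶜ ⊆
      (⋃ n : ℕ, ⋃ m : ℕ, Icc (4 + B + 1 / (n + 1 : ℝ) + m) (4 + B + 1 / (n + 1 : ℝ) + m + 1)) ∪
      (⋃ n : ℕ, ⋃ m : ℕ, Icc (-(4 + B + 1 / (n + 1 : ℝ) + m) - 1)
        (-(4 + B + 1 / (n + 1 : ℝ) + m) - 1 + 1)) := by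
    intro t ht
    have key : ∀ s : ℝ, 4 + B < s → ∃ n m : ℕ, 4 + B + 1 / (n + 1 : ℝ) + m ≤ s ∧
        s ≤ 4 + B + 1 / (n + 1 : ℝ) + m + 1 := by
      intro s hs
      obtain ⟨n, hn⟩ := exists_nat_one_div_lt (sub_pos.2 hs)
      have h0 : 0 ≤ s - (4 + B + 1 / (n + 1 : ℝ)) := by linarith
      refine ⟨n, ⌊s - (4 + B + 1 / (n + 1 : ℝ))⌋₊, ?_, ?_⟩
      · have := Nat.floor_le h0
        linarith
      · have := (Nat.lt_floor_add_one (s - (4 + B + 1 / (n + 1 : ℝ)))).le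
        linarith
    rw [mem_compl_iff, mem_Icc, not_and_or, not_le, not_le] at ht
    rcases ht with ht | ht
    · right
      obtain ⟨n, m, h1, h2⟩ := key (-t) (by linarith)
      simp only [mem_iUnion]
      exact ⟨n, m, by constructor <;> linarith⟩
    · left
      obtain ⟨n, m, h1, h2⟩ := key t ht
      simp only [mem_iUnion]
      exact ⟨n, m, h1, h2⟩
  refine measure_mono_null hcov (measure_union_null ?_ ?_)
  · refine measure_iUnion_null fun n => measure_iUnion_null fun m => ?_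
    refine interval_null hV hμ (δ := 1 / (n + 1 : ℝ)) (by positivity) fun E hE => ?_
    have hm : (0 : ℝ) ≤ m := Nat.cast_nonneg m
    exact (by linarith [hE.1] : 4 + B + 1 / (n + 1 : ℝ) ≤ E).trans (le_abs_self E)
  · refine measure_iUnion_null fun n => measure_iUnion_null fun m => ?_
    refine interval_null hV hμ (δ := 1 / (n + 1 : ℝ)) (by positivity) fun E hE => ?_
    have hm : (0 : ℝ) ≤ m := Nat.cast_nonneg m
    exact (by linarith [hE.2] : 4 + B + 1 / (n + 1 : ℝ) ≤ -E).trans (neg_le_abs E)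

end P365Z0.F700
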