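import Vale.Agent.P365.Z0.LogOne594

/-!
# P365, T1.5, block Z8, part 3: the mean of the logarithm of the flux under a change of the laws of a
block of sites.
-/

set_option linter.all false

namespace P365Z0.H594

open P365L P365O P365T1 Vale.Agent.P365.J376 Matrix Complex MeasureTheory Filter Topology Set
open scoped ComplexConjugate ENNReal

variable {ι : Type*} [Fintype ι] [DecidableEq ι] {A : Matrix ι ι ℝ}

theorem WV_im' (E : ℝ) (e v : ι → ℝ) (x : ι) : (WV E e v x).im = -e x := by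
  simp [WV]

theorem measurable_Sf_WV (E : ℝ) (e : ι → ℝ) (x : ι) :
    Measurable fun v : ι → ℝ => Sf A (WV E e v) x := by
  unfold Sf
  refine Finset.measurable_sum _ fun a _ => ?_
  simp only [WV_im', neg_neg]
  exact ((measurable_gw_WV E e x a).norm.pow_const 2).const_mul _

/-- the logarithm of the flux is bounded, uniformly in the real potentials -/
theorem abs_log_Sf_le (hA : A.IsSymm) {E b : ℝ} {e : ι → ℝ} (hb : 0 < b) (he : ∀ x, b ≤ e x)
    (v : ι → ℝ) (x : ι) : |Real.log (Sf A (WV E e v) x)| ≤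
      |Real.log (e x)| + |Real.log (2 * e x + (∑ a, |A x a|) ^ 2 / b)| := by
  have hW : ∀ y, (WV E e v y).im < 0 := fun y => by
    rw [WV_im']
    linarith [he y]
  have h0 : 0 < e x := hb.trans_le (he x)
  have h1 := e_le_Sf hA hW x
  have h2 := Sf_le hA hW hb (fun a => by rw [WV_im', neg_neg]; exact he a) x
  rw [WV_im', neg_neg] at h1 h2
  have h3 : Real.log (e x) ≤ Real.log (Sf A (WV E e v) x) := Real.log_le_log h0 h1
  have h4 : Real.log (Sf A (WV E e v) x) ≤ Real.log (2 * e x + (∑ a, |A x a|) ^ 2 / b) :=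
    Real.log_le_log (h0.trans_le h1) h2
  rw [abs_le]
  constructor
  · linarith [neg_abs_le (Real.log (e x)),
      abs_nonneg (Real.log (2 * e x + (∑ a, |A x a|) ^ 2 / b))]
  · linarith [le_abs_self (Real.log (2 * e x + (∑ a, |A x a|) ^ 2 / b)),
      abs_nonneg (Real.log (e x))]

/-- pointwise change of the logarithm of the flux in one potential -/
theorem log_Sf_ratio (hA : A.IsSymm) {E : ℝ} {e : ι → ℝ} (he : ∀ x, 0 < e x)
    (c : ι → ℝ) (x z : ι) : ∃ t t' : ℝ, ∀ u v : ℝ, v ≠ t → u ≠ t' →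
      Real.log (Sf A (WV E e (Function.update c z u)) x) ≤
        Real.log (Sf A (WV E e (Function.update c z v)) x) +
          2 * Real.log (1 + |u - v| / |v - t|) + 2 * Real.log (1 + |u - v| / |u - t'|) := by
  have hW : ∀ y, (WV E e c y).im < 0 := WV_neg he c
  obtain ⟨t, t', h⟩ := Sf_ratio hA hW x z
  refine ⟨t + E, t' + E, fun u v hv hu => ?_⟩
  have h1 := h (u - E) (v - E) (fun hc => hv (by linarith)) (fun hc => hu (by linarith))
  rw [WV_update, WV_update]
  have e1 : u - E - (v - E) = u - v := by ring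
  have e2 : v - E - t = v - (t + E) := by ring
  have e3 : u - E - t' = u - (t' + E) := by ring
  rw [e1, e2, e3] at h1
  have hWu : ∀ y, (rez (WV E e c) z (u - E) y).im < 0 := fun y => by
    rw [← WV_update]
    exact WV_neg he _ y
  have hWv : ∀ y, (rez (WV E e c) z (v - E) y).im < 0 := fun y => by
    rw [← WV_update]
    exact WV_neg he _ y
  have hSu := Sf_pos hA hWu x
  have hSv := Sf_pos hA hWv x
  have hα : 0 < 1 + |u - v| / |v - (t + E)| := by positivity
  have hβ : 0 < 1 + |u - v| / |u - (t' + E)| := by positivity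
  have h2 := Real.log_le_log hSu h1
  rw [Real.log_mul (by positivity) (by positivity), Real.log_mul (by positivity) (by positivity),
    Real.log_pow, Real.log_pow] at h2
  push_cast at h2
  exact h2

/-- **transfer**: two product laws which differ on the block `B` only -/
theorem transfer (hA : A.IsSymm) {E b lam : ℝ} {e : ι → ℝ} (hb : 0 < b) (he : ∀ x, b ≤ e x)
    (hlam : 0 ≤ lam) (μ μ' : ι → Measure ℝ) [∀ i, IsProbabilityMeasure (μ i)]
    [∀ i, IsProbabilityMeasure (μ' i)] (B : Finset ι) (D D' : ι → ℝ)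
    (hD0 : ∀ z ∈ B, 0 < D z) (hD0' : ∀ z ∈ B, 0 < D' z)
    (hD : ∀ z ∈ B, DensLe (D z) (μ z)) (hD' : ∀ z ∈ B, DensLe (D' z) (μ' z))
    (hs : ∀ z ∈ B, μ z (Icc (-lam) lam)ᶜ = 0) (hs' : ∀ z ∈ B, μ' z (Icc (-lam) lam)ᶜ = 0)
    (hoff : ∀ i, i ∉ B → μ i = μ' i) (x : ι) :
    ∫ v, Real.log (Sf A (WV E e v) x) ∂(Measure.pi μ') ≤
      ∫ v, Real.log (Sf A (WV E e v) x) ∂(Measure.pi μ) +
        ∑ z ∈ B, (2 * cL (2 * lam) (D z) + 2 * cL (2 * lam) (D' z)) := by
  have hm : Measurable fun v : ι → ℝ => Real.log (Sf A (WV E e v) x) :=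
    Real.measurable_log.comp (measurable_Sf_WV E e x)
  have hbd := fun v : ι → ℝ => abs_log_Sf_le (E := E) hA hb he v x
  refine block_sites μ μ' B hoff _ hm hbd _ fun z hz c => ?_
  obtain ⟨t, t', h⟩ := log_Sf_ratio (E := E) hA (fun x => hb.trans_le (he x)) c x z
  exact one_law (μ z) (μ' z) (hD0 z hz) (hD0' z hz) (hD z hz) (hD' z hz) hlam (hs z hz)
    (hs' z hz) (fun s => Real.log (Sf A (WV E e (Function.update c z s)) x))
    (hm.comp (measurable_update c)) (fun s => hbd _) t t' h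

end P365Z0.H594
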