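import Vale.Agent.P365.Z0.Iface
import Vale.Agent.P365.Z0.Transfer594
import Vale.Agent.P365.Z0.LogLab869

/-!
# P365, T1.5, block Z8: from the averaged log-width of the traps to the exact iid law.
-/

set_option linter.all false

namespace P365Z0.H594

open P365L P365L.TL P365O P365T1 P365T1.Conc P365T1.Seq P365Z P365Z.H869 Vale.Agent.P365.J376
open Vale.Agent.P365.Z0 Matrix Complex MeasureTheory Filter Topology Set
open scoped ComplexConjugate ENNReal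

theorem cL_mono (L : ℝ) (hL : 0 ≤ L) {D D' : ℝ} (h : D ≤ D') : cL L D ≤ cL L D' := by
  unfold cL
  have h1 : Real.sqrt (L * D) ≤ Real.sqrt (L * D') :=
    Real.sqrt_le_sqrt (mul_le_mul_of_nonneg_left h hL)
  have h2 := Real.sqrt_nonneg (L * D)
  have := Real.log_le_log (show 0 < 1 + 5 * Real.sqrt (L * D) by positivity)
    (show 1 + 5 * Real.sqrt (L * D) ≤ 1 + 5 * Real.sqrt (L * D') by linarith)
  linarith

/-- the constant of the exact law -/
theorem cL_unif {lam : ℝ} (hlam : 0 < lam) : cL (2 * lam) (1 / (2 * lam)) ≤ 4 := by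
  unfold cL
  have h1 : 2 * lam * (1 / (2 * lam)) = 1 := by field_simp
  rw [h1, Real.sqrt_one]
  have h2 : Real.log (1 + 5 * 1) ≤ 2 := by
    rw [Real.log_le_iff_le_exp (by norm_num)]
    have h3 : (2.7 : ℝ) < Real.exp 1 := lt_trans (by norm_num) Real.exp_one_gt_d9
    have h4 : Real.exp 2 = Real.exp 1 * Real.exp 1 := by
      rw [← Real.exp_add]
      norm_num
    rw [h4]
    nlinarith
  linarith

/-- the constant of the label laws on a block -/
theorem cL_lab {lam r D : ℝ} (hlam : 0 < lam) (hr : 1 ≤ r) (hD : D ≤ Real.exp (3 * r) / lam) :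
    cL (2 * lam) D ≤ 8 * r := by
  refine (cL_mono _ (by positivity) hD).trans ?_
  unfold cL
  have h1 : 2 * lam * (Real.exp (3 * r) / lam) = 2 * Real.exp (3 * r) := by
    field_simp
  have he : Real.exp (4 * r) = Real.exp r * Real.exp (3 * r) := by
    rw [← Real.exp_add]
    congr 1
    ring
  have h2 : (2 : ℝ) ≤ Real.exp r := by
    have := Real.add_one_le_exp r
    linarith
  have h3 : 2 * Real.exp (3 * r) ≤ Real.exp (2 * r) ^ 2 := by
    have h4 : Real.exp (2 * r) ^ 2 = Real.exp (4 * r) := by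
      rw [← Real.exp_nat_mul]
      congr 1
      push_cast
      ring
    rw [h4, he]
    exact mul_le_mul_of_nonneg_right h2 (Real.exp_pos _).le
  have h5 : Real.sqrt (2 * Real.exp (3 * r)) ≤ Real.exp (2 * r) :=
    Real.sqrt_le_iff.2 ⟨(Real.exp_pos _).le, h3⟩
  rw [h1]
  have h6 : 1 + 5 * Real.sqrt (2 * Real.exp (3 * r)) ≤ Real.exp (2 + 2 * r) := by
    have h7 : (1 : ℝ) ≤ Real.exp (2 * r) := Real.one_le_exp (by linarith)
    have h8 : (6 : ℝ) ≤ Real.exp 2 := by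
      have h3 : (2.7 : ℝ) < Real.exp 1 := lt_trans (by norm_num) Real.exp_one_gt_d9
      have h4 : Real.exp 2 = Real.exp 1 * Real.exp 1 := by
        rw [← Real.exp_add]
        norm_num
      rw [h4]
      nlinarith
    rw [Real.exp_add]
    nlinarith [mul_le_mul_of_nonneg_right h8 (Real.exp_pos (2 * r)).le]
  have h9 : Real.log (1 + 5 * Real.sqrt (2 * Real.exp (3 * r))) ≤ 2 + 2 * r := by
    rw [Real.log_le_iff_le_exp (by positivity)]
    exact h6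
  linarith

theorem log_inv_bS (rs I : ℕ) :
    Real.log (1 / bS rs I) = (2 * rr rs (I + 1) ^ 5 : ℕ) * Real.log 2 := by
  unfold bS nS
  rw [one_div, Real.log_inv, Real.log_pow, one_div, Real.log_inv]
  ring

theorem pow_le_log_bS (rs I : ℕ) : (rr rs I : ℝ) ^ 20 ≤ Real.log (1 / bS rs I) := by
  rw [log_inv_bS]
  have h1 : (1 / 2 : ℝ) ≤ Real.log 2 := by
    have := Real.log_two_gt_d9
    linarith
  push_cast
  have h2 := pow20 (rs := rs) I
  rw [← h2]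
  have h3 : (0 : ℝ) ≤ (rr rs (I + 1) : ℝ) ^ 5 := by positivity
  nlinarith

/-- **numbers** -/
theorem num_block {δ : ℝ} (hδ : 0 < δ) {rs : ℕ} (hrs : 2 ≤ rs) : ∃ I₀ : ℕ, ∀ I, I₀ ≤ I →
    (mS rs I : ℝ) ^ 2 * (24 * (rr rs I : ℝ)) ≤ δ * Real.log (1 / bS rs I) := by
  obtain ⟨I₀, hI₀⟩ := exists_nat_ge (1536 / δ)
  refine ⟨I₀, fun I hI => ?_⟩
  have h1 : (I : ℝ) ≤ rr rs I := by exact_mod_cast (lt_rr hrs I).le
  have h2 : (I₀ : ℝ) ≤ I := by exact_mod_cast hI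
  set r : ℝ := (rr rs I : ℝ) with hr
  have hr1 : (1 : ℝ) ≤ r := by
    rw [hr]
    exact_mod_cast one_le_rr (by omega) I
  have h3 : 1536 ≤ δ * r := by
    have : 1536 / δ ≤ r := hI₀.trans (h2.trans h1)
    rwa [div_le_iff₀ hδ, mul_comm] at this
  have h4 : (mS rs I : ℝ) = 8 * r := by
    rw [hr]
    unfold mS
    push_cast
    ring
  have h5 : r ^ 3 * r ≤ r ^ 20 := by
    calc r ^ 3 * r = r ^ 4 := by ring
      _ ≤ r ^ 20 := pow_le_pow_right₀ hr1 (by norm_num)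
  calc (mS rs I : ℝ) ^ 2 * (24 * r) = 1536 * r ^ 3 := by
        rw [h4]
        ring
    _ ≤ (δ * r) * r ^ 3 := mul_le_mul_of_nonneg_right h3 (by positivity)
    _ = δ * (r ^ 3 * r) := by ring
    _ ≤ δ * r ^ 20 := mul_le_mul_of_nonneg_left h5 hδ.le
    _ ≤ δ * Real.log (1 / bS rs I) :=
        mul_le_mul_of_nonneg_left (pow_le_log_bS rs I) hδ.le

theorem nuL_densLe {lam : ℝ} (hlam : 0 < lam) : DensLe (1 / (2 * lam)) (nuL lam) := nuL_le hlam

section DDs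

variable {lam : ℝ} {yf : ℕ → ℤ × ℤ} {Vsf : ℕ → ℤ × ℤ → ℝ} {rs I : ℕ}

theorem DS_pat_le (h : AdmS lam yf Vsf rs I) (a : Loc) :
    DS lam yf rs I ((PP yf rs I).pat I a) ≤ Real.exp (3 * (rr rs I : ℝ)) / lam := by
  have h1 := pS_mul_DS_le h ((PP yf rs I).pat I a)
  rw [pS_pat le_rfl] at h1
  have h2 : Real.exp (3 * (rr rs I : ℝ)) * Real.exp (-(3 * (rr rs I : ℝ))) = 1 := by
    rw [← Real.exp_add]
    simp
  have h3 := mul_le_mul_of_nonneg_left h1 (Real.exp_pos (3 * (rr rs I : ℝ))).le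
  rw [← mul_assoc, h2, one_mul, mul_one_div] at h3
  exact h3

/-- sum of the transfer constants over a block -/
theorem sum_block_le (hlam : 0 < lam) (h : AdmS lam yf Vsf rs I) (hrs : 2 ≤ rs) {N : ℕ} [NeZero N]
    (x : Tor N) :
    ∑ z ∈ blkOf (DD (pS yf rs I) (nuD lam yf Vsf rs I)) I x,
      (2 * cL (2 * lam) (1 / (2 * lam)) + 2 * cL (2 * lam) (DS lam yf rs I
        ((PP yf rs I).pat I (lc ((DD (pS yf rs I) (nuD lam yf Vsf rs I)).m I) z)))) ≤
      (mS rs I : ℝ) ^ 2 * (24 * (rr rs I : ℝ)) := by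
  have hr1 : (1 : ℝ) ≤ (rr rs I : ℝ) := by exact_mod_cast one_le_rr (by omega) I
  have hcard : (blkOf (DD (pS yf rs I) (nuD lam yf Vsf rs I)) I x).card ≤ mS rs I ^ 2 :=
    card_block_le (mS rs I) (mS_pos (by omega) I) _
  calc _ ≤ ∑ z ∈ blkOf (DD (pS yf rs I) (nuD lam yf Vsf rs I)) I x,
        24 * (rr rs I : ℝ) := by
        refine Finset.sum_le_sum fun z _ => ?_
        have h1 := cL_unif hlam
        have h2 := cL_lab hlam hr1 (DS_pat_le h
          (lc ((DD (pS yf rs I) (nuD lam yf Vsf rs I)).m I) z))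
        linarith
    _ = ((blkOf (DD (pS yf rs I) (nuD lam yf Vsf rs I)) I x).card : ℝ) *
          (24 * (rr rs I : ℝ)) := by
        rw [Finset.sum_const, nsmul_eq_mul]
    _ ≤ (mS rs I : ℝ) ^ 2 * (24 * (rr rs I : ℝ)) := by
        refine mul_le_mul_of_nonneg_right ?_ (by positivity)
        exact_mod_cast hcard

end DDs

theorem Wh_eq_WV {N : ℕ} [NeZero N] (E b : ℝ) (v : Tor N → ℝ) :
    Wh E b v = WV E (fun _ => b) v := by
  funext x
  unfold Wh WV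
  push_cast
  ring

/-- what is used from `LogFin869` -/
def LTge : Prop := ∀ {D : V3} {ρ : Measure ℝ} {N : ℕ} [NeZero N] (h : D.Ok ρ) {i : ℕ}
  (hi : i ≤ D.I) (E b lam : ℝ) (hb : 0 < b) (hlam : 0 < lam) (hm : D.m i ∣ N) (Dn : D.Λ → ℝ)
  (D0 : ℝ) (hDn0 : ∀ k, 0 < Dn k) (hD00 : 0 < D0) (hDn : ∀ k, DensLe (Dn k) (D.ν k))
  (hD0 : DensLe D0 ρ) (hs : ∀ k, D.ν k (Icc (-lam) lam)ᶜ = 0) (hs0 : ρ (Icc (-lam) lam)ᶜ = 0)
  (C : ℝ) (hC : ∀ x : Tor N, lc (D.m i) x = D.y i →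
    ∑ z ∈ blkOf D i x, (2 * cL (2 * lam) D0 +
      2 * cL (2 * lam) (Dn (D.pat i (lc (D.m i) z)))) ≤ C),
  nT D.p (Tc D (N := N)) * (∫ v, Real.log (Sf (AT N) (WV E (fun _ => b) v) 0)
      ∂(Measure.pi fun _ : Tor N => ρ) - C) ≤
    LT (AT N) D.p D.ν E (Tc D) (fun _ _ => b)

def nTpos : Prop := ∀ {D : V3} {ρ : Measure ℝ} {N : ℕ} [NeZero N] (h : D.Ok ρ)
  (hm : D.m D.I ∣ N) (hp : ∀ a, 0 < D.p (D.pat D.I a))
  (hy : (D.y D.I).1 < D.m D.I ∧ (D.y D.I).2 < D.m D.I), 0 < nT D.p (Tc D (N := N))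

/-- **Z8** -/
theorem z8 (HL : LTge) (HN : nTpos) : Z8 := by
  intro lam hlam hLT E hE
  obtain ⟨lam', yf, Vsf, R, hl, hy, hV, h⟩ := hLT E hE
  obtain ⟨R', hR', hadm⟩ := exists_admS hlam hl
  refine ⟨max R R', fun rs hrs δ hδ => ?_⟩
  have hR1 : R ≤ rs := (le_max_left _ _).trans hrs
  have hR2 : R' ≤ rs := (le_max_right _ _).trans hrs
  have hrs2 : 2 ≤ rs := hR'.trans hR2
  obtain ⟨I1, h1⟩ := h rs hR1 (δ / 2) (by positivity)
  obtain ⟨I2, h2⟩ := num_block (show 0 < δ / 2 by positivity) hrs2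
  refine ⟨max I1 I2, fun I hI N₀ => ?_⟩
  have hA : AdmS lam yf Vsf rs I := hadm rs hR2 yf Vsf (fun r _ z => hV r z) I
  obtain ⟨N1, hN1⟩ := h1 I ((le_max_left _ _).trans hI) hA
  obtain ⟨N, hN, hN0, -, hdvd⟩ := exists_N (show 1 ≤ rs by omega) I (max N₀ N1)
  haveI : NeZero N := ⟨hN0⟩
  refine ⟨N, (le_max_left _ _).trans hN, inferInstance, ?_⟩
  have h3 := hN1 N ((le_max_right _ _).trans hN) hdvd inferInstance
  have hOk : (DD (pS yf rs I) (nuD lam yf Vsf rs I)).Ok (nuL lam) :=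
    DD_ok hrs2 (fun r hr => hy r (hR1.trans hr)) (lw_DD hA)
  have h4 := HL (N := N) hOk (i := I) le_rfl E (bS rs I) lam (bS_pos rs I) hlam (hdvd I le_rfl)
    (DS lam yf rs I) (1 / (2 * lam)) (DS_pos hA) (by positivity) (nuD_densLe hA)
    (nuL_densLe hlam) (nuD_supp hA) (nuL_supp hlam) ((mS rs I : ℝ) ^ 2 * (24 * (rr rs I : ℝ)))
    (fun x _ => sum_block_le hlam hA hrs2 x)
  have h5 := HN (N := N) hOk (hdvd I le_rfl)
    (fun a => (Real.exp_pos (-(3 * (rr rs I : ℝ)))).trans_eq (pS_pat_DD le_rfl a).symm)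
    (y_lt (PP_ok hrs2 (fun r hr => hy r (hR1.trans hr)) I) I)
  have h6 := h2 I ((le_max_right _ _).trans hI)
  have h8 := le_of_mul_le_mul_left ((h4.trans h3).trans_eq (mul_comm _ _)) h5
  simp only [Wh_eq_WV]
  have h9 : (0 : ℝ) ≤ Real.log (1 / bS rs I) := by
    have := pow_le_log_bS rs I
    have h10 : (0 : ℝ) ≤ (rr rs I : ℝ) ^ 20 := by positivity
    linarith
  linarith

end P365Z0.H594
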